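import Vale.Agent.P073.H238.StepT
import Vale.Agent.P073.H73.K2A

/-!
# P073, H238: **[FATFACE]**, the faces of a mesh as flat convex faces with an affine chart
-/

open Set Metric Topology Filter

namespace Vale.Agent.P073.H238

open _root_.P073 _root_.P073.TR _root_.P073.SCH _root_.P073.H339

open Vale.Agent.P073.H73 (Fat usq Mesh)

/-- a convex planar set which is conically homeomorphic to the unit square has interior points -/
theorem interior_of_usq {C : Set H579.P} (hC : Convex ℝ C) (φ : ConHomeo usq C) :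
    (interior C).Nonempty := by
  set m : ℝ × ℝ := (1 / 2, 1 / 2) with hm
  have hmq : m ∈ usq := ⟨⟨by norm_num, by norm_num⟩, ⟨by norm_num, by norm_num⟩⟩
  have hmn : usq ∈ 𝓝 m := by
    have h1 : Icc (0:ℝ) 1 ∈ 𝓝 (1 / 2 : ℝ) := Icc_mem_nhds (by norm_num) (by norm_num)
    exact prod_mem_nhds h1 h1
  set w : ℝ × ℝ := φ.toFun m with hw
  -- all directions at `m`
  have hall : ∀ u : ℝ × ℝ, ‖u‖ = 1 → u ∈ dirs usq m := by
    intro u hu
    refine ⟨hu, ?_⟩
    exact (DM.tendsto_add_smul m u).eventually hmn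
  have hthree : (3 : ℕ∞) ≤ (dirs C w).encard := by
    rw [DM.encard_dirs φ hmq]
    have hsub : ({(1, 0), (0, 1), (-1, 0)} : Set (ℝ × ℝ)) ⊆ dirs usq m := by
      rintro u (rfl | rfl | rfl) <;> apply hall <;> simp [Prod.norm_def]
    refine le_trans ?_ (encard_le_encard hsub)
    rw [encard_insert_of_notMem (by
        rintro (h | h)
        · have := congrArg Prod.fst h; norm_num at this
        · have := congrArg Prod.fst h; norm_num at this),
      encard_pair (by
        intro h; have := congrArg Prod.fst h; norm_num at this)]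
    norm_num
  -- two independent directions
  obtain ⟨u, hu⟩ : (dirs C w).Nonempty := by
    rw [nonempty_iff_ne_empty]
    intro h
    rw [h, encard_empty] at hthree
    norm_num at hthree
  obtain ⟨v, hv, hvu⟩ : ∃ v ∈ dirs C w, v ∉ ({u, -u} : Set (ℝ × ℝ)) := by
    by_contra hcon
    push Not at hcon
    have h1 : (dirs C w).encard ≤ ({u, -u} : Set (ℝ × ℝ)).encard := encard_le_encard hcon
    have h2 : ({u, -u} : Set (ℝ × ℝ)).encard ≤ 2 := by
      refine (encard_insert_le _ _).trans ?_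
      rw [encard_singleton]; norm_num
    have h3 := hthree.trans (h1.trans h2)
    norm_num at h3
  have hdet : H579.det v u ≠ 0 := by
    refine H579.det_ne_zero hu.1 hv.1 (fun h => hvu (Or.inl h.symm)) fun h => hvu (Or.inr ?_)
    rw [h, neg_neg]; rfl
  -- points of `C`
  obtain ⟨s, hs, hsC⟩ : ∃ s : ℝ, 0 < s ∧ w + s • u ∈ C := by
    obtain ⟨s, hs1, hs2⟩ := ((DM.ev_of_mem_dirs hu).and self_mem_nhdsWithin).exists
    exact ⟨s, hs2, hs1⟩
  obtain ⟨t, ht, htC⟩ : ∃ t : ℝ, 0 < t ∧ w + t • v ∈ C := by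
    obtain ⟨s, hs1, hs2⟩ := ((DM.ev_of_mem_dirs hv).and self_mem_nhdsWithin).exists
    exact ⟨s, hs2, hs1⟩
  have hwC : w ∈ C := φ.mapsTo hmq
  -- the triangle
  let T : ℝ × ℝ →ₗ[ℝ] ℝ × ℝ :=
    (LinearMap.fst ℝ ℝ ℝ).smulRight (s • u) + (LinearMap.snd ℝ ℝ ℝ).smulRight (t • v)
  have hT : ∀ a : ℝ × ℝ, T a = a.1 • (s • u) + a.2 • (t • v) := fun a => rfl
  have hTinj : Function.Injective T := by
    rw [← LinearMap.ker_eq_bot, LinearMap.ker_eq_bot']
    intro a ha
    rw [hT] at ha
    have e1 : a.1 * (s * u.1) + a.2 * (t * v.1) = 0 := congrArg Prod.fst ha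
    have e2 : a.1 * (s * u.2) + a.2 * (t * v.2) = 0 := congrArg Prod.snd ha
    have hd : u.1 * v.2 - u.2 * v.1 ≠ 0 := by
      intro h
      apply hdet
      show u.1 * v.2 - u.2 * v.1 = 0
      exact h
    have f1 : a.1 * s * (u.1 * v.2 - u.2 * v.1) = 0 := by linear_combination v.2 * e1 - v.1 * e2
    have f2 : a.2 * t * (u.1 * v.2 - u.2 * v.1) = 0 := by linear_combination u.1 * e2 - u.2 * e1
    have g1 : a.1 = 0 := by
      rcases mul_eq_zero.1 f1 with h | h
      · rcases mul_eq_zero.1 h with h | h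
        · exact h
        · exact absurd h hs.ne'
      · exact absurd h hd
    have g2 : a.2 = 0 := by
      rcases mul_eq_zero.1 f2 with h | h
      · rcases mul_eq_zero.1 h with h | h
        · exact h
        · exact absurd h ht.ne'
      · exact absurd h hd
    exact Prod.ext g1 g2
  have hTsurj : Function.Surjective T := LinearMap.injective_iff_surjective.1 hTinj
  have hTo : IsOpenMap T := T.isOpenMap_of_finiteDimensional hTsurj
  set O : Set (ℝ × ℝ) := {a | 0 < a.1 ∧ 0 < a.2 ∧ a.1 + a.2 < 1} with hO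
  have hOo : IsOpen O := by
    refine (isOpen_lt continuous_const continuous_fst).inter
      ((isOpen_lt continuous_const continuous_snd).inter
        (isOpen_lt (continuous_fst.add continuous_snd) continuous_const))
  refine ⟨w + T (1 / 4, 1 / 4), mem_interior.2 ⟨(fun y => w + y) '' (T '' O), ?_, ?_, ?_⟩⟩
  · rintro _ ⟨_, ⟨a, ⟨h1, h2, h3⟩, rfl⟩, rfl⟩
    show w + T a ∈ C
    rw [hT]
    have e : w + (a.1 • (s • u) + a.2 • (t • v)) =
        (1 - a.1 - a.2) • w + (a.1 • (w + s • u) + a.2 • (w + t • v)) := by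
      rw [smul_add, smul_add, sub_smul, sub_smul, one_smul]
      abel
    rw [e]
    obtain ⟨y, hy, hye⟩ : ∃ y ∈ C,
        (a.1 + a.2) • y = a.1 • (w + s • u) + a.2 • (w + t • v) := by
      refine ⟨(a.1 / (a.1 + a.2)) • (w + s • u) + (a.2 / (a.1 + a.2)) • (w + t • v),
        hC hsC htC (by positivity) (by positivity) (by field_simp), ?_⟩
      rw [smul_add, smul_smul, smul_smul, mul_div_cancel₀ _ (by linarith : a.1 + a.2 ≠ 0),
        mul_div_cancel₀ _ (by linarith : a.1 + a.2 ≠ 0)]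
    rw [← hye]
    exact hC hwC hy (by linarith) (by linarith) (by ring)
  · exact (Homeomorph.addLeft w).isOpenMap _ (hTo _ hOo)
  · exact ⟨T (1 / 4, 1 / 4), ⟨(1 / 4, 1 / 4), ⟨by norm_num, by norm_num, by norm_num⟩, rfl⟩, rfl⟩

/-- **[FATFACE]** a fat face has an affine chart -/
theorem exists_pface {c r : ℝ} {F : Set V} (h : Fat c r F) : Nonempty (PFace F) := by
  obtain ⟨ν, t0, hν, hF⟩ := h.plane
  obtain ⟨φ, -, -⟩ := h.chart
  obtain ⟨n, ν', t', hhalf⟩ := h.half
  have hrange : LinearMap.range (ν : V →ₗ[ℝ] ℝ) = ⊤ := by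
    obtain ⟨w, hw⟩ : ∃ w, ν w ≠ 0 := by
      by_contra hcon
      push Not at hcon
      exact hν (ContinuousLinearMap.ext hcon)
    rw [LinearMap.range_eq_top]
    intro s
    exact ⟨(s / ν w) • w, by
      show ν ((s / ν w) • w) = s
      rw [map_smul, smul_eq_mul, div_mul_cancel₀ _ hw]⟩
  have hker : Module.finrank ℝ (LinearMap.ker (ν : V →ₗ[ℝ] ℝ)) = 2 := by
    have h1 := LinearMap.finrank_range_add_finrank_ker (ν : V →ₗ[ℝ] ℝ)
    rw [hrange, finrank_top, Module.finrank_self] at h1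
    have h2 : Module.finrank ℝ (Fin 3 → ℝ) = 3 := by simp
    have h3 := h1.trans h2
    omega
  have e : (ℝ × ℝ) ≃ₗ[ℝ] LinearMap.ker (ν : V →ₗ[ℝ] ℝ) :=
    LinearEquiv.ofFinrankEq _ _ (by rw [hker]; simp)
  set L : H579.P →ₗ[ℝ] V := (LinearMap.ker (ν : V →ₗ[ℝ] ℝ)).subtype ∘ₗ e.toLinearMap with hL
  have hLinj : Function.Injective L := by
    intro x y hxy
    exact e.injective (Subtype.ext hxy)
  obtain ⟨k, hk⟩ := LinearMap.exists_leftInverse_of_injective L (LinearMap.ker_eq_bot.2 hLinj)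
  have hkL : ∀ w, k (L w) = w := fun w => by
    have := LinearMap.congr_fun hk w
    simpa using this
  have hkc : Continuous k := k.continuous_of_finiteDimensional
  have hLc : Continuous L := L.continuous_of_finiteDimensional
  set o : V := φ.toFun (0, 0) with ho
  have hoF : o ∈ F := φ.mapsTo ⟨⟨le_refl _, zero_le_one⟩, ⟨le_refl _, zero_le_one⟩⟩
  set C : Set H579.P := {w | o + L w ∈ F} with hC
  have heq : F = (fun w => o + L w) '' C := by
    apply Subset.antisymm
    · intro x hx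
      have h1 : x - o ∈ LinearMap.ker (ν : V →ₗ[ℝ] ℝ) := by
        rw [LinearMap.mem_ker]
        show ν (x - o) = 0
        rw [map_sub, hF x hx, hF o hoF, sub_self]
      have h2 : L (e.symm ⟨x - o, h1⟩) = x - o := by
        show ((e (e.symm ⟨x - o, h1⟩) : LinearMap.ker (ν : V →ₗ[ℝ] ℝ)) : V) = x - o
        rw [e.apply_symm_apply]
      have h3 : o + L (e.symm ⟨x - o, h1⟩) = x := by rw [h2]; abel
      exact ⟨_, show o + L _ ∈ F by rw [h3]; exact hx, h3⟩
    · rintro _ ⟨w, hw, rfl⟩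
      exact hw
  have hFconv : Convex ℝ F := by
    rw [hhalf]
    intro x hx y hy a b ha hb hab i
    have h1 : ν' i x ≤ t' i := hx i
    have h2 : ν' i y ≤ t' i := hy i
    show ν' i (a • x + b • y) ≤ t' i
    rw [map_add, map_smul, map_smul, smul_eq_mul, smul_eq_mul]
    have h3 : t' i = a * t' i + b * t' i := by rw [← add_mul, hab, one_mul]
    have h4 := mul_le_mul_of_nonneg_left h1 ha
    have h5 := mul_le_mul_of_nonneg_left h2 hb
    linarith
  have hCconv : Convex ℝ C := by
    intro x hx y hy a b ha hb hab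
    show o + L (a • x + b • y) ∈ F
    have h1 : o + L (a • x + b • y) = a • (o + L x) + b • (o + L y) := by
      rw [map_add, map_smul, map_smul, smul_add, smul_add]
      have : o = a • o + b • o := by rw [← add_smul, hab, one_smul]
      nth_rewrite 1 [this]
      abel
    rw [h1]
    exact hFconv hx hy ha hb hab
  have hFcpt : IsCompact F := by
    rw [← φ.image_eq]
    exact (isCompact_Icc.prod isCompact_Icc).image_of_continuousOn φ.cont
  have hCcpt : IsCompact C := by
    have : C = (fun x => k (x - o)) '' F := by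
      ext w
      constructor
      · intro hw
        exact ⟨o + L w, hw, by simp only [add_sub_cancel_left, hkL]⟩
      · rintro ⟨x, hx, rfl⟩
        rw [heq] at hx
        obtain ⟨w, hw, rfl⟩ := hx
        simp only [add_sub_cancel_left, hkL]
        exact hw
    rw [this]
    exact hFcpt.image (by fun_prop)
  have hCcone : LocCone C := by
    have h1 : C = ⋂ i, {w : H579.P | ν' i (o + L w) ≤ t' i} := by
      ext w
      rw [mem_iInter]
      show o + L w ∈ F ↔ _
      rw [hhalf]; rfl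
    rw [h1]
    refine LocCone.iInter_finite fun i => locCone_setOf_le (by fun_prop) ?_ _
    let f : H579.P →ᵃ[ℝ] ℝ := {
      toFun := fun w => ν' i (o + L w)
      linear := (ν' i : V →ₗ[ℝ] ℝ) ∘ₗ L
      map_vadd' := fun p v => by
        show ν' i (o + L (v + p)) = ν' i (L v) + ν' i (o + L p)
        rw [map_add L, map_add (ν' i), map_add (ν' i), map_add (ν' i)]; ring }
    exact conicalOn_of_affine f isOpen_univ.conicalSet
  have hinj : Function.Injective fun w => o + L w := fun x y hxy => hLinj (add_left_cancel hxy)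
  let ψ : ConHomeo C F := ConHomeo.ofCompact hCcpt (fun w => o + L w)
    (by fun_prop : Continuous fun w => o + L w).continuousOn hinj.injOn (by
      let f : H579.P →ᵃ[ℝ] V := {
        toFun := fun w => o + L w
        linear := L
        map_vadd' := fun p v => by
          show o + L (v + p) = L v + (o + L p)
          rw [map_add]; abel }
      exact conicalOn_of_affine f hCcone.conicalSet) heq.symm
  exact ⟨⟨o, L, C, hLinj, hCconv, hCcpt, hCcone, interior_of_usq hCconv (φ.trans ψ.symm), heq⟩⟩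

namespace PFace

variable {A : Set V} (F : PFace A)

theorem eq' (F : PFace A) : A = F.ch '' F.C := F.eq

theorem affineSpan_eq : affineSpan ℝ A = (⊤ : AffineSubspace ℝ H579.P).map F.aff := by
  have h1 : affineSpan ℝ F.C = ⊤ :=
    affineSpan_eq_top_of_nonempty_interior (by
      rw [F.convex.convexHull_eq]; exact F.int)
  rw [← h1, AffineSubspace.map_span]
  congr 1
  exact F.eq

/-- the relative interior of a face -/
theorem intrinsicInterior_eq : intrinsicInterior ℝ A = F.ch '' interior F.C := by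
  obtain ⟨k, hk⟩ := LinearMap.exists_leftInverse_of_injective F.L (LinearMap.ker_eq_bot.2 F.inj)
  have hkL : ∀ w, k (F.L w) = w := fun w => by
    have := LinearMap.congr_fun hk w
    simpa using this
  have hkc : Continuous k := k.continuous_of_finiteDimensional
  have hkch : ∀ w, k (F.ch w - F.o) = w := fun w => by
    show k (F.o + F.L w - F.o) = w
    rw [add_sub_cancel_left, hkL]
  have hspan : ∀ y, y ∈ affineSpan ℝ A ↔ ∃ w, F.ch w = y := by
    intro y
    rw [F.affineSpan_eq, AffineSubspace.mem_map]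
    exact ⟨fun ⟨w, _, hw⟩ => ⟨w, hw⟩, fun ⟨w, hw⟩ => ⟨w, trivial, hw⟩⟩
  ext x
  constructor
  · rintro ⟨y, hy, rfl⟩
    obtain ⟨z, hz⟩ := (hspan y).1 y.2
    refine ⟨z, ?_, hz⟩
    rw [mem_interior_iff_mem_nhds] at hy ⊢
    have hc : Continuous fun w : H579.P => (⟨F.ch w, (hspan _).2 ⟨w, rfl⟩⟩ : affineSpan ℝ A) :=
      F.continuous_ch.subtype_mk _
    have h1 : (⟨F.ch z, (hspan _).2 ⟨z, rfl⟩⟩ : affineSpan ℝ A) = y := Subtype.ext hz
    have h2 := hc.continuousAt.preimage_mem_nhds (x := z) (by rw [h1]; exact hy)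
    filter_upwards [h2] with w hw
    have h3 : F.ch w ∈ A := hw
    obtain ⟨w', hw', h4⟩ := F.exists_ch h3
    rwa [← F.ch_inj h4]
  · rintro ⟨z, hz, rfl⟩
    refine ⟨⟨F.ch z, (hspan _).2 ⟨z, rfl⟩⟩, ?_, rfl⟩
    rw [mem_interior]
    refine ⟨{y | k (y - F.o) ∈ interior F.C}, ?_, ?_, ?_⟩
    · rintro ⟨y, hy⟩ hyk
      obtain ⟨w, rfl⟩ := (hspan y).1 hy
      have h1 : k (F.ch w - F.o) ∈ interior F.C := hyk
      rw [hkch] at h1
      exact F.ch_mem (interior_subset h1)
    · exact isOpen_interior.preimage (hkc.comp (continuous_subtype_val.sub continuous_const))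
    · show k (F.ch z - F.o) ∈ interior F.C
      rw [hkch]; exact hz

theorem isCompact (F : PFace A) : IsCompact A :=
  (congrArg IsCompact F.eq').mpr (F.compact.image F.continuous_ch)

/-- the relative boundary of a face -/
theorem intrinsicFrontier_eq : intrinsicFrontier ℝ A = F.ch '' frontier F.C := by
  have h1 : frontier F.C = F.C \ interior F.C := by
    rw [frontier, F.compact.isClosed.closure_eq]
  have h2 : A \ intrinsicInterior ℝ A = F.ch '' F.C \ F.ch '' interior F.C := by
    rw [F.intrinsicInterior_eq, ← F.eq']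
  rw [← intrinsicClosure_sdiff_intrinsicInterior, intrinsicClosure_eq_closure,
    F.isCompact.isClosed.closure_eq, h2, h1, image_sdiff F.ch_inj]

end PFace

/-- the chart of a face of a mesh -/
noncomputable def meshFace {Ω : Set V} (M : Mesh Ω) (k : M.κ) : PFace (M.F k) :=
  (exists_pface (M.fat k)).some

/-- the union of the faces -/
def skel {Ω : Set V} (M : Mesh Ω) : Set V := ⋃ k, M.F k

theorem mesh_sub {Ω : Set V} (M : Mesh Ω) (k : M.κ) : M.F k ⊆ Ω := by
  obtain ⟨i, j, -, h⟩ := M.two k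
  exact fun x hx => M.sub i (h hx).1

/-- near a relative interior point of a face there are no other faces -/
theorem mesh_near {Ω : Set V} (hΩ : IsOpen Ω) (M : Mesh Ω) (k : M.κ) {x : V}
    (hx : x ∈ intrinsicInterior ℝ (M.F k)) : ∀ᶠ y in 𝓝 x, y ∈ skel M → y ∈ M.F k := by
  have hxF : x ∈ M.F k := intrinsicInterior_subset hx
  obtain ⟨r, hr, hb⟩ := Metric.nhds_basis_closedBall.mem_iff.1
    (hΩ.mem_nhds (mesh_sub M k hxF))
  have hfin := M.ffin _ hb (isCompact_closedBall x r)
  have h1 : ∀ᶠ y in 𝓝 x, ∀ l ∈ {l | (M.F l ∩ closedBall x r).Nonempty} \ {k}, y ∉ M.F l := by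
    refine (eventually_all_finite (hfin.subset sdiff_subset)).2 fun l hl => ?_
    refine (meshFace M l).isCompact.isClosed.isOpen_compl.mem_nhds fun h2 => ?_
    exact Set.disjoint_left.1 (M.fdisj k l (fun h3 => hl.2 h3.symm)) hx h2
  filter_upwards [h1, closedBall_mem_nhds x hr] with y hy hyb hys
  obtain ⟨l, hl⟩ := mem_iUnion.1 hys
  by_cases hlk : l = k
  · exact hlk ▸ hl
  · exact absurd hl (hy l ⟨⟨y, hl, hyb⟩, hlk⟩)

/-- **the set up of STEP S from a mesh** -/
theorem setup_of_mesh {J : Type*} {Ω Λ P : Set V} (hΩ : IsOpen Ω) (hΛ : IsOpen Λ) (M : Mesh Ω)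
    (h : ConHomeo Ω Λ) (e : J → M.κ) {Lv : Set (Fin 3 × ℝ)} {ω : ℝ} (fin : Lv.Finite)
    (reg : ∀ j, ∀ x ∈ M.F (e j), ∀ q ∈ Lv, h.toFun x q.1 = q.2 →
      H805.Reg (fun y => h.toFun y q.1) (fun _ : Unit => M.F (e j)) x)
    (disj : ∀ j, ∀ x ∈ M.F (e j), ∀ q ∈ Lv, ∀ q' ∈ Lv, h.toFun x q.1 = q.2 →
      h.toFun x q'.1 = q'.2 → q = q')
    (ω0 : 0 < ω)
    (diam : ∀ j, ∀ x ∈ M.F (e j), ∀ y ∈ M.F (e j), dist (h.toFun x) (h.toFun y) ≤ ω)
    (oP : IsOpen P) (PΛ : P ⊆ Λ)
    (ball : ∀ j, ∀ x ∈ M.F (e j), closedBall (h.toFun x) (8 * ω) ⊆ P) :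
    Setup Ω Λ (skel M) P h (fun j => M.F (e j)) (fun j => meshFace M (e j)) Lv ω where
  oΩ := hΩ
  oΛ := hΛ
  AΩ := fun j => mesh_sub M (e j)
  AK := fun j => subset_iUnion M.F (e j)
  Ao := fun j z hz => mesh_near hΩ M (e j) (by
    rw [(meshFace M (e j)).intrinsicInterior_eq]; exact ⟨z, hz, rfl⟩)
  fin := fin
  reg := reg
  disj := disj
  ω0 := ω0
  diam := diam
  oP := oP
  PΛ := PΛ
  ball := ball

end Vale.Agent.P073.H238
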