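import Vale.Agent.P073.H238.StepT
import Vale.Agent.P073.H238.FatFace
import Vale.Agent.P073.H267.Geo3

/-!
# P073, H238 (A14.19): **[T-STAGE1]**, the first stage of round T

All circles of the traces of the faces which meet the full zone of a box of round T at a level are
removed, in all boxes at once.
-/

open Set Metric Topology Filter

namespace Vale.Agent.P073.H238

open _root_.P073 _root_.P073.TR _root_.P073.SCH _root_.P073.H339 _root_.P073.Net _root_.P073.PA691
open _root_.P073.PR720 (LF)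
open Vale.Agent.P073.H471 Vale.Agent.P073.H267 Vale.Agent.P073.H267.Geo
open Vale.Agent.P073.H73 (Mesh)

/-! ### no circle in a line -/

theorem no_circle_line {ℓ : H579.P →L[ℝ] ℝ} (hℓ : ℓ ≠ 0) {t : ℝ} {σ : Set H579.P}
    (hσ : IsCircle σ) (h : ∀ z ∈ σ, ℓ z = t) : False := by
  obtain ⟨D, hD, hfr⟩ := schoenflies hσ
  obtain ⟨w, hw⟩ : ∃ w, ℓ w ≠ 0 := by
    by_contra hcon
    push Not at hcon
    exact hℓ (ContinuousLinearMap.ext hcon)
  have hDc : IsCompact D := by
    obtain ⟨Φ, rfl⟩ := hD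
    exact (isCompact_closedBall _ _).image_of_continuousOn (Φ.cont.mono (subset_univ _))
  have key : ∀ s : ℝ, ∀ y ∈ D, s * ℓ y ≤ s * t := by
    intro s y hy
    rcases eq_or_ne s 0 with rfl | hs
    · simp
    obtain ⟨m, hm, hmax⟩ := hDc.exists_isMaxOn ⟨y, hy⟩
      ((ℓ.continuous.const_mul s).continuousOn (s := D))
    have hmf : m ∈ frontier D := by
      rw [hDc.isClosed.frontier_eq]
      refine ⟨hm, fun hint => ?_⟩
      have hc : Continuous fun r : ℝ => m + r • (s * ℓ w) • w := by fun_prop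
      have h1 : ∀ᶠ r in 𝓝 (0:ℝ), m + r • (s * ℓ w) • w ∈ D := by
        refine hc.continuousAt.eventually ?_
        simp only [zero_smul, add_zero]
        exact mem_interior_iff_mem_nhds.1 hint
      obtain ⟨r, hr, hr0⟩ := ((h1.filter_mono nhdsWithin_le_nhds).and
        (self_mem_nhdsWithin : Ioi (0:ℝ) ∈ 𝓝[>] 0)).exists
      have h2 : s * ℓ (m + r • (s * ℓ w) • w) ≤ s * ℓ m := hmax hr
      rw [map_add, map_smul, map_smul, smul_eq_mul, smul_eq_mul] at h2
      have h3 : 0 < (s * ℓ w) * (s * ℓ w) := mul_self_pos.2 (mul_ne_zero hs hw)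
      have h4 : 0 < r * ((s * ℓ w) * (s * ℓ w)) := mul_pos hr0 h3
      nlinarith
    rw [hfr] at hmf
    have := hmax hy
    have h5 : s * ℓ y ≤ s * ℓ m := this
    rwa [h _ hmf] at h5
  have hconst : ∀ y ∈ D, ℓ y = t := fun y hy => by
    have h1 := key 1 y hy
    have h2 := key (-1) y hy
    linarith
  obtain ⟨y, hy⟩ : (interior D).Nonempty := by
    obtain ⟨Φ, rfl⟩ := hD
    refine ⟨Φ.toFun 0, ?_⟩
    have h1 : Φ.toFun '' ball 0 1 ⊆ interior (Φ.toFun '' closedBall 0 1) :=
      interior_maximal (image_mono ball_subset_closedBall)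
        (Φ.toHomeomorph.isOpenMap _ isOpen_ball)
    exact h1 ⟨0, mem_ball_self one_pos, rfl⟩
  have hc : Continuous fun r : ℝ => y + r • w := by fun_prop
  have h1 : ∀ᶠ r in 𝓝 (0:ℝ), y + r • w ∈ D := by
    refine hc.continuousAt.eventually ?_
    simp only [zero_smul, add_zero]
    exact mem_interior_iff_mem_nhds.1 hy
  obtain ⟨r, hr, hr0⟩ := ((h1.filter_mono nhdsWithin_le_nhds).and
    (self_mem_nhdsWithin : Ioi (0:ℝ) ∈ 𝓝[>] 0)).exists
  have h2 := hconst _ hr
  rw [map_add, map_smul, smul_eq_mul, hconst _ (interior_subset hy)] at h2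
  have h3 : r * ℓ w = 0 := by linarith
  rcases mul_eq_zero.1 h3 with h4 | h4
  · exact (ne_of_gt hr0) h4
  · exact hw h4

/-! ### geometry -/

variable {Ω Λ : Set V} {v : V} {K : BoxCx Λ v} {S : Rad K} {W : Wid K S} {B : Boxes W}

/-- bound for the oscillation of the faces at a box of round T -/
noncomputable def oT (G : Geo B) : TBx K → ℝ
  | .inl e => G.oG e
  | .inr h => G.oW h.i

/-- the support of a box is larger than the full zone, across the levels -/
theorem marg (G : Geo B) (b : TBx K) {k : Fin 3} (hk : k ≠ b.ax) :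
    G.tlo false b k + 100 * oT G b ≤ G.tlo true b k ∧
    G.thi true b k + 100 * oT G b ≤ G.thi false b k := by
  rcases b with e | h
  · have hk' : k ≠ K.dir e := hk
    have h1 := G.uT_lam e
    have h2 := G.oG_uT e
    have h3 := G.uT_pos e
    simp only [Geo.tlo, Geo.thi, if_neg hk', if_true, Bool.false_eq_true, if_false, oT]
    constructor <;> linarith
  · have hk' : k ≠ h.l := hk
    have h1 := G.oW_τ h.s h.i (hang_mem h)
    have h2 := G.τ_p h.s
    have h3 := B.τ_pos h.s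
    simp only [Geo.tlo, Geo.thi, if_neg hk', if_true, Bool.false_eq_true, if_false, oT]
    by_cases hkk : k = h.k
    · subst hkk
      simp only [if_true]
      cases h.β
      · simp only [Bool.false_eq_true, if_false]; constructor <;> linarith
      · simp only [if_true]; constructor <;> linarith
    · simp only [if_neg hkk]
      constructor <;> linarith

theorem tlo_ax (G : Geo B) (b : TBx K) : G.tlo false b b.ax = G.tlo true b b.ax := by
  rcases b with e | h
  · show G.tlo false (.inl e) (K.dir e) = G.tlo true (.inl e) (K.dir e)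
    simp only [Geo.tlo, if_true]
  · show G.tlo false (.inr h) h.l = G.tlo true (.inr h) h.l
    simp only [Geo.tlo, if_true]

theorem thi_ax (G : Geo B) (b : TBx K) : G.thi false b b.ax = G.thi true b b.ax := by
  rcases b with e | h
  · show G.thi false (.inl e) (K.dir e) = G.thi true (.inl e) (K.dir e)
    simp only [Geo.thi, if_true]
  · show G.thi false (.inr h) h.l = G.thi true (.inr h) h.l
    simp only [Geo.thi, if_true]

theorem oT_pos (G : Geo B) (b : TBx K) (ω : ℝ) (h0 : 0 < ω) (h : ω ≤ oT G b) : 0 < oT G b :=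
  h0.trans_le h

/-- the full zone, enlarged by `10 ω` across the levels -/
def TMid (G : Geo B) (b : TBx K) (ω : ℝ) : Set V :=
  Icc (fun k => if k = b.ax then G.tlo true b k else G.tlo true b k - 10 * ω)
    (fun k => if k = b.ax then G.thi true b k else G.thi true b k + 10 * ω)

theorem TMid_sub (G : Geo B) (b : TBx K) {ω : ℝ} (h0 : 0 < ω) (h : ω ≤ oT G b) :
    TMid G b ω ⊆ G.TB false b := by
  intro y hy
  have key : ∀ k, G.tlo false b k ≤ y k ∧ y k ≤ G.thi false b k := by
    intro k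
    have h1 := hy.1 k
    have h2 := hy.2 k
    by_cases hk : k = b.ax
    · subst hk
      rw [tlo_ax, thi_ax]
      simp only [if_true] at h1 h2
      exact ⟨h1, h2⟩
    · obtain ⟨h3, h4⟩ := marg G b hk
      simp only [if_neg hk] at h1 h2
      constructor <;> linarith
  exact ⟨fun k => (key k).1, fun k => (key k).2⟩

/-- a ball around a point of the full zone at a level is in the support -/
theorem ball_sub (G : Geo B) (b : TBx K) {ω : ℝ} (h0 : 0 < ω) {y : V}
    (hy : y ∈ G.TB true b) (hlo : G.tlo true b b.ax + 10 * ω < y b.ax)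
    (hhi : y b.ax < G.thi true b b.ax - 10 * ω) :
    closedBall y (9 * ω) ⊆ interior (TMid G b ω) := by
  intro z hz
  show z ∈ interior (Icc _ _)
  rw [TM.interior_Icc3]
  intro k
  rw [mem_closedBall, dist_pi_le_iff (by positivity)] at hz
  have h1 := hz k
  rw [Real.dist_eq, abs_le] at h1
  by_cases hk : k = b.ax
  · subst hk
    simp only [if_true]
    constructor <;> linarith [h1.1, h1.2]
  · have h4 := hy.1 k
    have h5 := hy.2 k
    simp only [if_neg hk]
    constructor <;> linarith [h1.1, h1.2]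

/-- the tiles at a box are large -/
theorem tile_large (G : Geo B) {b : TBx K} {y : V} (hy : y ∈ G.TB false b) {q : K.T}
    (hq : y ∈ K.cube q) (h0 : 0 < oT G b) (k : Fin 3) : 15 * oT G b < K.hi q k - K.lo q k := by
  rcases b with e | h
  · have he := tile_TB_inl hy hq
    have hwa := he (TM.wa_mem K e)
    have hwb := he (TM.wb_mem K e)
    have h1 := G.oG_uT e
    have h2 := G.uT_lam e
    have h3 := G.lam_T e
    have h4 := B.T_le e
    have h5 := W.we_le e
    have h6 := G.uT_pos e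
    show 15 * G.oG e < _
    by_cases hk : k = K.dir e
    · subst hk
      have h7 := vdist S (i := K.a e) (j := K.b e) (l := K.dir e) (fun hab => by
        have := K.ab_dir e
        rw [hab] at this
        exact lt_irrefl _ this) (fun k hk => K.ab_off e k hk)
      have h8 := G.be_r (K.a e)
      have h9 := G.lam_a e
      have h10 := S.r_pos (K.b e)
      have h11 := K.ab_dir e
      rw [abs_of_neg (by linarith)] at h7
      have h12 := hwa.1 (K.dir e)
      have h13 := hwb.2 (K.dir e)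
      linarith
    · obtain ⟨h7, h8⟩ := tile_far S he hk
      have hlt := K.lt q k
      by_cases h9 : K.w (K.a e) k = K.lo q k
      · have h10 := h8 (by rw [h9]; exact hlt.ne)
        linarith
      · have h10 := h7 h9
        have h11 := hwa.2 k
        linarith
  · have hqs := tile_TB_inr hy hq
    have h1 := G.oW_τ h.s h.i (hang_mem h)
    have h2 := G.τ_p h.s
    have h3 := B.τ_pos h.s
    have h4 := B.τ_le h.s
    show 15 * G.oW h.i < _
    by_cases hk : k = K.nrm h.s
    · subst hk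
      rcases hqs with rfl | rfl
      · have := W.ws_le h.s
        linarith
      · have := W.ws_le' h.s
        linarith
    · have h5 := G.size (s := h.s) hk
      have h6 := G.a_u h.s
      have h7 := G.p_a h.s
      have hsub : K.sq h.s ⊆ K.cube q := by
        rcases hqs with rfl | rfl
        · exact (TM.sq_subset K h.s).1
        · exact (TM.sq_subset K h.s).2
      have h8 := (hsub (slo_mem h.s)).1 k
      have h9 := (hsub (shi_mem h.s)).2 k
      linarith

/-! ### input and output -/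

/-- the levels of round T -/
structure TLev (G : Geo B) (M : Mesh Ω) (h : ConHomeo Ω Λ) (L : TBx K → Set ℝ)
    (ω : TBx K → ℝ) : Prop where
  fin : ∀ b, (L b).Finite
  ω0 : ∀ b, 0 < ω b
  ωo : ∀ b, ω b ≤ oT G b
  /-- the levels are away from the ends of the boxes -/
  lev : ∀ b, ∀ t ∈ L b, G.tlo true b b.ax + 10 * ω b < t ∧ t < G.thi true b b.ax - 10 * ω b
  osc : ∀ b k, ∀ x ∈ M.F k, ∀ y ∈ M.F k, h.toFun x ∈ G.TB false b →
    dist (h.toFun x) (h.toFun y) ≤ ω b
  reg : ∀ b k, ∀ x ∈ M.F k, h.toFun x ∈ G.TB false b → h.toFun x b.ax ∈ L b →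
    H805.Reg (fun y => h.toFun y b.ax) (fun _ : Unit => M.F k) x

/-- protected cells -/
structure TProt (K : BoxCx Λ v) (M : Mesh Ω) (h : ConHomeo Ω Λ) (Pr : Set M.ι) : Prop where
  box : ∀ i ∈ Pr, ∃ lo hi : V, (∀ k, lo k < hi k) ∧ h.toFun '' M.Q i = Icc lo hi
  tile : ∀ i ∈ Pr, ∀ q, K.cube q ⊆ h.toFun '' M.Q i ∨
    Disjoint (interior (K.cube q)) (h.toFun '' M.Q i)
  aff : ∀ i ∈ Pr, ∃ A : V →ᴬ[ℝ] V, EqOn h.toFun A (frontier (M.Q i))

/-- the face `k` meets the full zone of the box `b` at a level -/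
def TAct (G : Geo B) (M : Mesh Ω) (h : ConHomeo Ω Λ) (L : TBx K → Set ℝ) (b : TBx K)
    (k : M.κ) : Prop :=
  ∃ x ∈ M.F k, h.toFun x ∈ G.TB true b ∧ h.toFun x b.ax ∈ L b

/-- the output of stage 1 -/
structure TStage1 (G : Geo B) (M : Mesh Ω) (h h' : ConHomeo Ω Λ) (Pr : Set M.ι)
    (L : TBx K → Set ℝ) (ω : TBx K → ℝ) : Prop where
  /-- nothing changes outside of the supports -/
  off : ∀ x ∈ Ω, (∀ b, h.toFun x ∉ interior (G.TB false b)) →
    ∀ᶠ y in 𝓝 x, h'.toFun y = h.toFun y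
  /-- nothing changes outside of the middle zones -/
  off' : ∀ x ∈ Ω, (∀ b, h.toFun x ∉ interior (TMid G b (ω b))) →
    ∀ᶠ y in 𝓝 x, h'.toFun y = h.toFun y
  memM : ∀ b, ∀ x ∈ Ω, (h'.toFun x ∈ interior (TMid G b (ω b)) ↔
    h.toFun x ∈ interior (TMid G b (ω b)))
  memI : ∀ b, ∀ x ∈ Ω, (h'.toFun x ∈ interior (G.TB false b) ↔
    h.toFun x ∈ interior (G.TB false b))
  mem : ∀ b, ∀ x ∈ Ω, (h'.toFun x ∈ G.TB false b ↔ h.toFun x ∈ G.TB false b)
  /-- traces only disappear, with the same germs -/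
  keep : ∀ b, ∀ x ∈ skel M, h'.toFun x ∈ G.TB false b → h'.toFun x b.ax ∈ L b →
    ∀ᶠ y in 𝓝 x, h'.toFun y = h.toFun y
  near : ∀ b, ∀ x ∈ skel M, h.toFun x ∈ G.TB false b → dist (h'.toFun x) (h.toFun x) ≤ 6 * ω b
  all : ∀ b, ∀ x ∈ Ω, h.toFun x ∈ G.TB false b → dist (h'.toFun x) (h.toFun x) ≤ 12 * ω b
  /-- no circles on the active faces -/
  noCirc : ∀ b k, TAct G M h L b k → ∀ t ∈ L b, ∀ σ, IsCircle σ →
    ¬ σ ⊆ {z | z ∈ (meshFace M k).C ∧ h'.toFun ((meshFace M k).ch z) b.ax = t}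
  /-- faces which are active for `h'` are active for `h` -/
  act : ∀ b k, TAct G M h' L b k → TAct G M h L b k
  /-- active faces are in the full zone, up to `7 ω` -/
  loc : ∀ b k, TAct G M h L b k → ∀ x ∈ M.F k, h'.toFun x ∈ interior (G.TB false b) ∧
    (G.tlo true b b.ax + 3 * ω b < h'.toFun x b.ax ∧
      h'.toFun x b.ax < G.thi true b b.ax - 3 * ω b) ∧
    ∀ j, j ≠ b.ax → G.tlo true b j - 7 * ω b ≤ h'.toFun x j ∧
      h'.toFun x j ≤ G.thi true b j + 7 * ω b
  /-- the protected cells are not touched -/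
  wall : ∀ i ∈ Pr, ∀ x ∈ M.Q i, ∀ᶠ y in 𝓝 x, h'.toFun y = h.toFun y

/-- the levels in a box, as pairs (direction, level) -/
def lvl (b : TBx K) (T : Set ℝ) : Set (Fin 3 × ℝ) := (fun t => (b.ax, t)) '' T

/-- the preimage of a box is compact -/
theorem cpt_preimage (h : ConHomeo Ω Λ) {Q : Set V} (hQ : IsCompact Q) (hQΛ : Q ⊆ Λ) :
    IsCompact (h.invFun '' Q) ∧ h.invFun '' Q ⊆ Ω ∧ ∀ x ∈ Ω, h.toFun x ∈ Q → x ∈ h.invFun '' Q :=
  ⟨hQ.image_of_continuousOn (h.cont_inv.mono hQΛ),
    by rintro _ ⟨y, hy, rfl⟩; exact h.mapsTo_inv (hQΛ hy),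
    fun x hx hxQ => ⟨h.toFun x, hxQ, h.left_inv hx⟩⟩

/-- a face of a cell is contained in its frontier -/
theorem face_fr (M : Mesh Ω) {k : M.κ} {i : M.ι} (h : M.F k ⊆ M.Q i) :
    M.F k ⊆ frontier (M.Q i) := by
  intro x hx
  obtain ⟨i', j', hne, h2⟩ := M.two k
  rw [(M.poly i).cpt.isClosed.frontier_eq]
  refine ⟨h hx, fun hint => ?_⟩
  by_cases hi : i = i'
  · subst hi
    exact (M.disj i j' hne).notMem_of_mem_left hint (h2 hx).2
  · exact (M.disj i i' hi).notMem_of_mem_left hint (h2 hx).1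

/-- the face is not in the cell: the relative interior of the face misses the cell -/
theorem face_off_cell (M : Mesh Ω) {k : M.κ} {i : M.ι} (hki : ¬ M.F k ⊆ M.Q i) :
    Disjoint (M.Q i) (intrinsicInterior ℝ (M.F k)) := by
  rw [Set.disjoint_left]
  intro x hx hxk
  obtain ⟨a, c, hac, hsub⟩ := M.two k
  have hxF := intrinsicInterior_subset hxk
  have hia : a ≠ i := fun h' => hki (h' ▸ hsub.trans inter_subset_left)
  have hfr : x ∈ frontier (M.Q i) := by
    rw [(M.poly i).cpt.isClosed.frontier_eq]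
    exact ⟨hx, fun hint => (M.disj i a hia.symm).notMem_of_mem_left hint (hsub hxF).1⟩
  obtain ⟨l, hl, hlQ⟩ := M.bd i x hfr
  have hkl : k = l := by
    by_contra hne
    exact (M.fdisj k l hne).notMem_of_mem_left hxk hl
  exact hki (hkl ▸ hlQ)

/-- no circles in the traces on the faces of the protected cells -/
theorem TProt.noCirc {M : Mesh Ω} {h : ConHomeo Ω Λ} {Pr : Set M.ι} (R : TProt K M h Pr)
    {i : M.ι} (hi : i ∈ Pr) {k : M.κ} (hk : M.F k ⊆ M.Q i) {n : Fin 3} {t : ℝ}
    (hreg : ∀ x ∈ M.F k, h.toFun x n = t →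
      H805.Reg (fun y => h.toFun y n) (fun _ : Unit => M.F k) x)
    {σ : Set H579.P} (hσ : IsCircle σ)
    (hs : σ ⊆ {z | z ∈ (meshFace M k).C ∧ h.toFun ((meshFace M k).ch z) n = t}) : False := by
  obtain ⟨A, hA⟩ := R.aff i hi
  set F := meshFace M k with hF
  obtain ⟨z0, hz0⟩ := Fam.circle_nonempty hσ
  have hfr : M.F k ⊆ frontier (M.Q i) := face_fr M hk
  let ℓ : H579.P →L[ℝ] ℝ := LinearMap.toContinuousLinearMap
    ((LinearMap.proj n : V →ₗ[ℝ] ℝ) ∘ₗ (A.linear : V →ₗ[ℝ] V) ∘ₗ F.L)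
  have hℓ : ∀ z ∈ F.C, h.toFun (F.ch z) n = A F.o n + ℓ z := by
    intro z hz
    rw [hA (hfr (F.ch_mem hz))]
    show A (F.o + F.L z) n = A F.o n + (A.linear (F.L z)) n
    have h1 : F.o + F.L z = F.L z +ᵥ F.o := add_comm _ _
    rw [h1, A.map_vadd]
    show (A.linear (F.L z) + A F.o) n = _
    rw [Pi.add_apply, add_comm]
  have hne : ℓ ≠ 0 := by
    intro h0
    have hx0 : F.ch z0 ∈ M.F k := F.ch_mem (hs hz0).1
    obtain ⟨τ, r, hr, hadd, hiff⟩ := hreg _ hx0 (hs hz0).2
    have hr2 : ‖r / 2‖ < r := by rw [Real.norm_eq_abs, abs_of_pos (by linarith)]; linarith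
    have h0r : ‖(0 : V)‖ < r := by rw [norm_zero]; exact hr
    have h1 := (hiff () 0 (r / 2) h0r hr2).2 (by rw [add_zero]; exact hx0)
    have h2 := hadd 0 (r / 2) h0r hr2
    obtain ⟨z1, hz1, hz1e⟩ := F.exists_ch h1
    rw [← hz1e, add_zero] at h2
    have h3 := hℓ z1 hz1
    have h4 := hℓ z0 (hs hz0).1
    rw [h0, zero_apply, add_zero] at h3 h4
    simp only [h3, h4] at h2
    linarith
  refine no_circle_line hne (t := t - A F.o n) hσ fun z hz => ?_
  have h1 := hℓ z (hs hz).1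
  have h2 : h.toFun (F.ch z) n = t := (hs hz).2
  linarith

/-- protected boxes which meet a box of round T are large -/
theorem TProt.large {G : Geo B} {M : Mesh Ω} {h : ConHomeo Ω Λ} {Pr : Set M.ι}
    (R : TProt K M h Pr) {i : M.ι} (hi : i ∈ Pr) {b : TBx K} (h0 : 0 < oT G b) {y : V}
    (hy : y ∈ h.toFun '' M.Q i) (hyb : y ∈ G.TB false b) {lo hi' : V} (hlt : ∀ k, lo k < hi' k)
    (he : h.toFun '' M.Q i = Icc lo hi') (k : Fin 3) : 15 * oT G b < hi' k - lo k := by
  have hyΛ : y ∈ Λ := TB_sub b hyb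
  obtain ⟨U, hU, hfin⟩ := K.lfT y hyΛ
  rw [he] at hy
  -- a neighbourhood which only meets the tiles at `y`
  have h1 : ∀ᶠ z in 𝓝 y, ∀ q ∈ {q | (Icc (K.lo q) (K.hi q) ∩ U).Nonempty}, z ∈ K.cube q →
      y ∈ K.cube q := by
    refine (eventually_all_finite hfin).2 fun q _ => ?_
    by_cases hq : y ∈ K.cube q
    · exact Eventually.of_forall fun _ _ => hq
    · have hcl : IsClosed (K.cube q) := isClosed_Icc
      filter_upwards [hcl.isOpen_compl.mem_nhds hq] with z hz hz'
      exact absurd hz' hz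
  have hcl : y ∈ closure (interior (Icc lo hi')) := by
    have : closure (interior (Icc lo hi')) = Icc lo hi' := by
      refine (convex_Icc (𝕜 := ℝ) lo hi').closure_interior_eq_closure_of_nonempty_interior ?_
        |>.trans isClosed_Icc.closure_eq
      rw [TM.interior_Icc3]
      exact ⟨fun k => (lo k + hi' k) / 2, fun k => by
        have := hlt k
        show lo k < (lo k + hi' k) / 2 ∧ (lo k + hi' k) / 2 < hi' k
        constructor <;> linarith⟩
    rw [this]; exact hy
  have hev : ∀ᶠ z in 𝓝 y, z ∈ U ∧ (∀ q ∈ {q | (Icc (K.lo q) (K.hi q) ∩ U).Nonempty},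
      z ∈ K.cube q → y ∈ K.cube q) := (show ∀ᶠ z in 𝓝 y, z ∈ U from hU).and h1
  obtain ⟨z, hzI, hzU, hzq⟩ := ((mem_closure_iff_frequently.1 hcl).and_eventually hev).exists
  have hzΛ : z ∈ Λ := by
    have h2 : z ∈ h.toFun '' M.Q i := by rw [he]; exact interior_subset hzI
    obtain ⟨x, hx, rfl⟩ := h2
    exact h.mapsTo (M.sub i hx)
  obtain ⟨q, hq⟩ := K.cover z hzΛ
  have hyq : y ∈ K.cube q := hzq q ⟨z, hq, hzU⟩ hq
  have hsub : K.cube q ⊆ Icc lo hi' := by
    rcases R.tile i hi q with h2 | h2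
    · rwa [he] at h2
    · exfalso
      rw [he] at h2
      have h3 : z ∈ closure (interior (K.cube q)) := by
        have : closure (interior (K.cube q)) = K.cube q := by
          refine (convex_Icc (𝕜 := ℝ) (K.lo q)
            (K.hi q)).closure_interior_eq_closure_of_nonempty_interior ?_ |>.trans
            isClosed_Icc.closure_eq
          rw [TM.interior_Icc3]
          exact ⟨fun k => (K.lo q k + K.hi q k) / 2, fun k => by
            have := K.lt q k
            show K.lo q k < (K.lo q k + K.hi q k) / 2 ∧ (K.lo q k + K.hi q k) / 2 < K.hi q k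
            constructor <;> linarith⟩
        rw [this]; exact hq
      obtain ⟨w, hw1, hw2⟩ := mem_closure_iff.1 h3 _ isOpen_interior hzI
      exact h2.notMem_of_mem_left hw2 (interior_subset hw1)
  have h2 := tile_large G hyb hyq h0 k
  have h3 : lo k ≤ K.lo q k := (hsub (show K.lo q ∈ Icc (K.lo q) (K.hi q) from
    ⟨fun _ => le_rfl, fun k => (K.lt q k).le⟩)).1 k
  have h4 : K.hi q k ≤ hi' k := (hsub (show K.hi q ∈ Icc (K.lo q) (K.hi q) from
    ⟨fun k => (K.lt q k).le, fun _ => le_rfl⟩)).2 k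
  linarith

/-- the active faces are deep in the supports -/
theorem TLev.ball {G : Geo B} {M : Mesh Ω} {h : ConHomeo Ω Λ} {L : TBx K → Set ℝ}
    {ω : TBx K → ℝ} (T : TLev G M h L ω) {b : TBx K} {k : M.κ} (hk : TAct G M h L b k) {x : V}
    (hx : x ∈ M.F k) : closedBall (h.toFun x) (8 * ω b) ⊆ interior (TMid G b (ω b)) := by
  obtain ⟨x0, hx0, hxb, hxL⟩ := hk
  obtain ⟨h1, h2⟩ := T.lev b _ hxL
  refine Subset.trans ?_ (ball_sub G b (T.ω0 b) hxb h1 h2)
  intro z hz
  rw [mem_closedBall] at hz ⊢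
  have h3 := T.osc b k x0 hx0 x hx (TB_true_subset b hxb)
  have h4 := dist_triangle z (h.toFun x) (h.toFun x0)
  rw [dist_comm (h.toFun x)] at h4
  linarith

theorem TLev.memM {G : Geo B} {M : Mesh Ω} {h : ConHomeo Ω Λ} {L : TBx K → Set ℝ}
    {ω : TBx K → ℝ} (T : TLev G M h L ω) {b : TBx K} {k : M.κ} (hk : TAct G M h L b k) {x : V}
    (hx : x ∈ M.F k) : h.toFun x ∈ interior (TMid G b (ω b)) :=
  T.ball hk hx (mem_closedBall_self (by linarith [T.ω0 b]))

theorem TLev.sub {G : Geo B} {M : Mesh Ω} {h : ConHomeo Ω Λ} {L : TBx K → Set ℝ}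
    {ω : TBx K → ℝ} (T : TLev G M h L ω) (b : TBx K) :
    interior (TMid G b (ω b)) ⊆ interior (G.TB false b) :=
  interior_mono (TMid_sub G b (T.ω0 b) (T.ωo b))

theorem TLev.mem {G : Geo B} {M : Mesh Ω} {h : ConHomeo Ω Λ} {L : TBx K → Set ℝ}
    {ω : TBx K → ℝ} (T : TLev G M h L ω) {b : TBx K} {k : M.κ} (hk : TAct G M h L b k) {x : V}
    (hx : x ∈ M.F k) : h.toFun x ∈ interior (G.TB false b) := T.sub b (T.memM hk hx)

/-- the walls: the protected boxes -/
theorem TProt.walls {G : Geo B} {M : Mesh Ω} {h : ConHomeo Ω Λ} {Pr : Set M.ι}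
    {L : TBx K → Set ℝ} {ω : TBx K → ℝ} (R : TProt K M h Pr) (T : TLev G M h L ω) (b : TBx K) :
    Walls h (fun j : {k // TAct G M h L b k} => meshFace M j.1) (lvl b (L b)) (ω b)
      {Q | ∃ i ∈ Pr, Q = h.toFun '' M.Q i ∧ (Q ∩ G.TB false b).Nonempty} := by
  have hω := T.ω0 b
  have ho : 0 < oT G b := hω.trans_le (T.ωo b)
  have hωo := T.ωo b
  refine ⟨?_, ?_, ?_, ?_, ?_, ?_, ?_⟩
  · obtain ⟨hc, hcΩ, hcm⟩ := cpt_preimage h (Q := G.TB false b) isCompact_Icc (TB_sub b)
    refine ((M.fin _ hcΩ hc).image fun i => h.toFun '' M.Q i).subset ?_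
    rintro _ ⟨i, hi, rfl, ⟨_, ⟨x, hx, rfl⟩, hxb⟩⟩
    exact ⟨i, ⟨x, hx, hcm x (M.sub i hx) hxb⟩, rfl⟩
  · rintro _ ⟨i, hi, rfl, -⟩
    obtain ⟨lo, hi', -, he⟩ := R.box i hi
    rw [he]; exact isClosed_Icc
  · rintro _ ⟨i, hi, rfl, -⟩
    obtain ⟨lo, hi', -, he⟩ := R.box i hi
    rw [he]; exact (convex_Icc _ _).isPreconnected
  · rintro _ ⟨i, hi, rfl, -⟩ ⟨k, hk⟩ ⟨σ, hσ, hs⟩
    by_cases hki : M.F k ⊆ M.Q i
    · exfalso
      -- all points of the circle are at one level
      obtain ⟨z0, hz0⟩ := Fam.circle_nonempty hσ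
      have hlev : ∀ z ∈ σ, z ∈ (meshFace M k).C ∧ h.toFun ((meshFace M k).ch z) b.ax ∈ L b := by
        intro z hz
        obtain ⟨hzC, q, ⟨t, ht, rfl⟩, hzq⟩ := hs hz
        refine ⟨hzC, ?_⟩
        have h1 : h.toFun ((meshFace M k).ch z) b.ax = t := hzq
        rw [h1]; exact ht
      have hpre : IsPreconnected σ := by
        obtain ⟨D, hD, rfl⟩ := schoenflies hσ
        exact _root_.P073.SCH.AmbDisc.isPreconnected_frontier hD
      have hcont : ContinuousOn (fun z => h.toFun ((meshFace M k).ch z) b.ax) σ := by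
        have h1 : ContinuousOn (fun z => h.toFun ((meshFace M k).ch z)) σ :=
          h.cont.comp (meshFace M k).continuous_ch.continuousOn fun z hz =>
            mesh_sub M k ((meshFace M k).ch_mem (hlev z hz).1)
        exact (continuous_apply b.ax).comp_continuousOn h1
      have hsub : ((fun z => h.toFun ((meshFace M k).ch z) b.ax) '' σ).Subsingleton := by
        by_contra hnt
        rw [Set.not_subsingleton_iff] at hnt
        refine (hpre.image _ hcont).infinite_of_nontrivial hnt ((T.fin b).subset ?_)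
        rintro _ ⟨z, hz, rfl⟩
        exact (hlev z hz).2
      refine R.noCirc hi hki (n := b.ax) (t := h.toFun ((meshFace M k).ch z0) b.ax) ?_ hσ ?_
      · intro x hx hxt
        exact T.reg b k x hx (interior_subset (T.mem hk hx)) (by rw [hxt]; exact (hlev z0 hz0).2)
      · intro z hz
        exact ⟨(hlev z hz).1, hsub ⟨z, hz, rfl⟩ ⟨z0, hz0, rfl⟩⟩
    · have h1 := face_off_cell M hki
      rw [(meshFace M k).intrinsicInterior_eq] at h1
      rw [Set.disjoint_left]
      rintro _ ⟨x, hx, rfl⟩ ⟨_, ⟨z, hz, rfl⟩, hzx⟩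
      have h2 : (meshFace M k).ch z = x := by
        refine h.left_inv.injOn ?_ (M.sub i hx) hzx
        exact mesh_sub M k ((meshFace M k).ch_mem (interior_subset hz))
      exact Set.disjoint_left.1 h1 hx ⟨z, hz, h2⟩
  · rintro _ ⟨i, hi, rfl, -⟩ q -
    obtain ⟨lo, hi', -, he⟩ := R.box i hi
    rw [he]
    have hP : Convex ℝ (Pl q.1 q.2) := by
      intro x hx y hy a c ha hc hac
      have e1 : x q.1 = q.2 := hx
      have e2 : y q.1 = q.2 := hy
      show (a • x + c • y) q.1 = q.2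
      rw [Pi.add_apply, Pi.smul_apply, Pi.smul_apply, e1, e2, smul_eq_mul, smul_eq_mul,
        ← add_mul, hac, one_mul]
    exact ((convex_Icc _ _).inter hP).isPreconnected
  · rintro _ ⟨i, hi, rfl, ⟨y, hy, hyb⟩⟩ q - ⟨w, hw, hwq⟩
    obtain ⟨lo, hi', hlt, he⟩ := R.box i hi
    have hl := R.large hi ho hy hyb hlt he
    rw [he] at hw ⊢
    obtain ⟨k, hk⟩ := exists_ne q.1
    have hmem : ∀ s, lo k ≤ s → s ≤ hi' k → Function.update w k s ∈ Icc lo hi' ∩ Pl q.1 q.2 := by
      intro s h1 h2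
      refine ⟨⟨fun j => ?_, fun j => ?_⟩, ?_⟩
      · by_cases hj : j = k
        · subst hj; simpa using h1
        · simpa [hj] using hw.1 j
      · by_cases hj : j = k
        · subst hj; simpa using h2
        · simpa [hj] using hw.2 j
      · show Function.update w k s q.1 = q.2
        rw [Function.update_of_ne hk.symm]; exact hwq
    refine ⟨_, hmem (lo k) le_rfl (hlt k).le, _, hmem (hi' k) (hlt k).le le_rfl, ?_⟩
    have h1 := dist_le_pi_dist (Function.update w k (lo k)) (Function.update w k (hi' k)) k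
    rw [Function.update_self, Function.update_self, Real.dist_eq,
      abs_sub_comm, abs_of_pos (by linarith [hlt k])] at h1
    have := hl k
    linarith
  · rintro _ ⟨i, hi, rfl, ⟨y, hy, hyb⟩⟩
    obtain ⟨lo, hi', hlt, he⟩ := R.box i hi
    have hl := R.large hi ho hy hyb hlt he
    rw [he]
    refine ⟨lo, ⟨fun _ => le_rfl, fun k => (hlt k).le⟩, hi', ⟨fun k => (hlt k).le, fun _ => le_rfl⟩,
      ?_⟩
    have h1 := dist_le_pi_dist lo hi' 0
    rw [Real.dist_eq, abs_sub_comm, abs_of_pos (by linarith [hlt 0])] at h1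
    have := hl 0
    linarith

/-- the set up in a box -/
theorem TLev.setup {G : Geo B} {M : Mesh Ω} {h : ConHomeo Ω Λ} {L : TBx K → Set ℝ}
    {ω : TBx K → ℝ} (hΩ : IsOpen Ω) (hΛ : IsOpen Λ) (T : TLev G M h L ω) (b : TBx K) :
    Setup Ω Λ (skel M) (interior (TMid G b (ω b))) h (fun j : {k // TAct G M h L b k} => M.F j.1)
      (fun j => meshFace M j.1) (lvl b (L b)) (ω b) := by
  have hω := T.ω0 b
  refine setup_of_mesh hΩ hΛ M h (fun j : {k // TAct G M h L b k} => j.1) ((T.fin b).image _) ?_ ?_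
    hω ?_ isOpen_interior ((T.sub b).trans (interior_subset.trans (TB_sub b))) ?_
  · rintro ⟨k, hk⟩ x hx _ ⟨t, ht, rfl⟩ hxt
    have h1 : h.toFun x b.ax = t := hxt
    exact T.reg b k x hx (interior_subset (T.mem hk hx)) (by rw [h1]; exact ht)
  · rintro ⟨k, hk⟩ x hx _ ⟨t, ht, rfl⟩ _ ⟨t', ht', rfl⟩ h1 h2
    have e1 : h.toFun x b.ax = t := h1
    have e2 : h.toFun x b.ax = t' := h2
    rw [← e1, ← e2]
  · rintro ⟨k, hk⟩ x hx y hy
    exact T.osc b k x hx y hy (interior_subset (T.mem hk hx))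
  · rintro ⟨k, hk⟩ x hx
    exact T.ball hk hx

/-- **[T-STAGE1]** -/
theorem exists_tstage1 {G : Geo B} {M : Mesh Ω} {h : ConHomeo Ω Λ} {Pr : Set M.ι}
    {L : TBx K → Set ℝ} {ω : TBx K → ℝ} (hΩ : IsOpen Ω) (hΛ : IsOpen Λ) (T : TLev G M h L ω)
    (R : TProt K M h Pr) : ∃ h' : ConHomeo Ω Λ, TStage1 G M h h' Pr L ω := by
  have hfin : ∀ b, Finite {k // TAct G M h L b k} := by
    intro b
    obtain ⟨hc, hcΩ, hcm⟩ := cpt_preimage h (Q := G.TB false b) isCompact_Icc (TB_sub b)
    refine ((M.ffin _ hcΩ hc).subset ?_).to_subtype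
    rintro k ⟨x, hx, hxb, -⟩
    exact ⟨x, hx, hcm x (mesh_sub M k hx) (TB_true_subset b hxb)⟩
  obtain ⟨h', O⟩ := step_t hΩ hΛ (fun b => T.setup hΩ hΛ b) (fun b => R.walls T b)
    (fun b b' hne => ((disjoint_TB hne).mono_right interior_subset).mono (T.sub b) (T.sub b'))
    (fun z hz => by
      obtain ⟨U, hU, hf⟩ := lf_TB G z hz
      refine ⟨U, hU, hf.subset ?_⟩
      rintro b ⟨y, hy, hyU⟩
      exact ⟨y, interior_subset (T.sub b hy), hyU⟩)
  -- a point in a middle zone is not in another box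
  have hone : ∀ b b' (y : V), y ∈ interior (TMid G b (ω b)) → y ∈ G.TB false b' → b = b' := by
    intro b b' y hy hy'
    by_contra hbb
    exact (disjoint_TB hbb).notMem_of_mem_left (T.sub b hy) hy'
  have hmemB : ∀ b, ∀ x ∈ Ω, (h'.toFun x ∈ G.TB false b ↔ h.toFun x ∈ G.TB false b) := by
    intro b x hx
    by_cases h1 : ∃ b', h.toFun x ∈ interior (TMid G b' (ω b'))
    · obtain ⟨b', hb'⟩ := h1
      have hb'' := (O.mem b' x hx).2 hb'
      constructor
      · intro h2
        have h3 := hone b' b _ hb'' h2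
        subst h3
        exact interior_subset (T.sub b' hb')
      · intro h2
        have h3 := hone b' b _ hb' h2
        subst h3
        exact interior_subset (T.sub b' hb'')
    · push Not at h1
      rw [(O.off x hx h1).self_of_nhds]
  have hmemI : ∀ b, ∀ x ∈ Ω, (h'.toFun x ∈ interior (G.TB false b) ↔
      h.toFun x ∈ interior (G.TB false b)) := by
    intro b x hx
    by_cases h1 : ∃ b', h.toFun x ∈ interior (TMid G b' (ω b'))
    · obtain ⟨b', hb'⟩ := h1
      have hb'' := (O.mem b' x hx).2 hb'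
      constructor
      · intro h2
        have h3 := hone b' b _ hb'' (interior_subset h2)
        subst h3
        exact T.sub b' hb'
      · intro h2
        have h3 := hone b' b _ hb' (interior_subset h2)
        subst h3
        exact T.sub b' hb''
    · push Not at h1
      rw [(O.off x hx h1).self_of_nhds]
  have hkeep : ∀ b, ∀ x ∈ skel M, h'.toFun x ∈ G.TB false b → h'.toFun x b.ax ∈ L b →
      ∀ᶠ y in 𝓝 x, h'.toFun y = h.toFun y := by
    intro b x hx hxb hxL
    have hxΩ : x ∈ Ω := by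
      obtain ⟨k, hk⟩ := mem_iUnion.1 hx
      exact mesh_sub M k hk
    by_cases h1 : ∃ b', h.toFun x ∈ interior (TMid G b' (ω b'))
    · obtain ⟨b', hb'⟩ := h1
      have h3 := hone b' b _ ((O.mem b' x hxΩ).2 hb') hxb
      subst h3
      exact O.keep b' x hxΩ hx hb' (b'.ax, h'.toFun x b'.ax) ⟨_, hxL, rfl⟩ rfl
    · push Not at h1
      exact O.off x hxΩ h1
  refine ⟨h', ⟨fun x hx h1 => O.off x hx fun b hb => h1 b (T.sub b hb), O.off, O.mem, hmemI, hmemB,
    hkeep, ?_, ?_, ?_, ?_, ?_, ?_⟩⟩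
  · intro b x hx hxb
    have hxΩ : x ∈ Ω := by
      obtain ⟨k, hk⟩ := mem_iUnion.1 hx
      exact mesh_sub M k hk
    by_cases h1 : ∃ b', h.toFun x ∈ interior (TMid G b' (ω b'))
    · obtain ⟨b', hb'⟩ := h1
      have h3 := hone b' b _ hb' hxb
      subst h3
      exact O.near b' x hxΩ hx hb'
    · push Not at h1
      rw [(O.off x hxΩ h1).self_of_nhds, dist_self]
      linarith [T.ω0 b]
  · intro b x hxΩ hxb
    by_cases h1 : ∃ b', h.toFun x ∈ interior (TMid G b' (ω b'))
    · obtain ⟨b', hb'⟩ := h1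
      have h3 := hone b' b _ hb' hxb
      subst h3
      exact O.all b' x hxΩ hb'
    · push Not at h1
      rw [(O.off x hxΩ h1).self_of_nhds, dist_self]
      linarith [T.ω0 b]
  · intro b k hk t ht σ hσ
    exact O.noCirc b ⟨k, hk⟩ (b.ax, t) ⟨t, ht, rfl⟩ σ hσ
  · rintro b k ⟨x, hx, hxb, hxL⟩
    have h1 := (hkeep b x (mem_iUnion.2 ⟨k, hx⟩) (TB_true_subset b hxb) hxL).self_of_nhds
    rw [h1] at hxb hxL
    exact ⟨x, hx, hxb, hxL⟩
  · intro b k hk x hx
    have hxΩ := mesh_sub M k hx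
    have hxI := T.memM hk hx
    refine ⟨T.sub b ((O.mem b x hxΩ).2 hxI), ?_⟩
    obtain ⟨x0, hx0, hxb, hxL⟩ := hk
    have h1 := T.osc b k x0 hx0 x hx (TB_true_subset b hxb)
    have h2 := O.near b x hxΩ (mem_iUnion.2 ⟨k, hx⟩) hxI
    have h3 := dist_triangle_right (h'.toFun x) (h.toFun x0) (h.toFun x)
    have h4 : dist (h'.toFun x) (h.toFun x0) ≤ 7 * ω b := by linarith
    have hω := T.ω0 b
    rw [dist_pi_le_iff (by positivity)] at h4
    have h5 := T.lev b _ hxL
    constructor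
    · have h6 := h4 b.ax
      rw [Real.dist_eq, abs_le] at h6
      constructor <;> linarith [h6.1, h6.2, h5.1, h5.2]
    · intro j _
      have h6 := h4 j
      rw [Real.dist_eq, abs_le] at h6
      have h7 := hxb.1 j
      have h8 := hxb.2 j
      constructor <;> linarith [h6.1, h6.2]
  · intro i hi x hx
    have hxΩ := M.sub i hx
    by_cases h1 : ∃ b, h.toFun x ∈ interior (TMid G b (ω b))
    · obtain ⟨b, hb⟩ := h1
      exact O.wall b _ ⟨i, hi, rfl, ⟨_, ⟨x, hx, rfl⟩, interior_subset (T.sub b hb)⟩⟩ x hxΩ hb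
        ⟨x, hx, rfl⟩
    · push Not at h1
      exact O.off x hxΩ h1

/-- no circles on an active face, in the space, for all levels at once -/
theorem TStage1.noCircV {G : Geo B} {M : Mesh Ω} {h h' : ConHomeo Ω Λ} {Pr : Set M.ι}
    {L : TBx K → Set ℝ} {ω : TBx K → ℝ} (O : TStage1 G M h h' Pr L ω) (hL : ∀ b, (L b).Finite)
    {b : TBx K} {k : M.κ} (hk : TAct G M h L b k) {σ : Set V} (hσ : IsCircle σ)
    (hs : σ ⊆ M.F k) (hl : ∀ x ∈ σ, h'.toFun x b.ax ∈ L b) : False := by
  set F := meshFace M k with hF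
  have hτ : IsCircle (F.hom.symm.toFun '' σ) := IsCircle.image hσ F.hom.symm hs
  set τ := F.hom.symm.toFun '' σ with hτd
  have hτC : ∀ z ∈ τ, z ∈ F.C ∧ F.ch z ∈ σ := by
    rintro _ ⟨x, hx, rfl⟩
    refine ⟨F.hom.symm.mapsTo (hs hx), ?_⟩
    have h1 : F.hom.toFun (F.hom.symm.toFun x) = x := F.hom.right_inv (hs hx)
    rw [F.hom_toFun] at h1
    rw [h1]; exact hx
  obtain ⟨z0, hz0⟩ := Fam.circle_nonempty hτ
  have hpre : IsPreconnected τ := by
    obtain ⟨D, hD, hfr⟩ := schoenflies hτ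
    rw [← hfr]
    exact _root_.P073.SCH.AmbDisc.isPreconnected_frontier hD
  have hcont : ContinuousOn (fun z => h'.toFun (F.ch z) b.ax) τ := by
    have h1 : ContinuousOn (fun z => h'.toFun (F.ch z)) τ :=
      h'.cont.comp F.continuous_ch.continuousOn fun z hz =>
        mesh_sub M k (F.ch_mem (hτC z hz).1)
    exact (continuous_apply b.ax).comp_continuousOn h1
  have hsub : ((fun z => h'.toFun (F.ch z) b.ax) '' τ).Subsingleton := by
    by_contra hnt
    rw [Set.not_subsingleton_iff] at hnt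
    refine (hpre.image _ hcont).infinite_of_nontrivial hnt ((hL b).subset ?_)
    rintro _ ⟨z, hz, rfl⟩
    exact hl _ (hτC z hz).2
  exact O.noCirc b k hk _ (hl _ (hτC z0 hz0).2) τ hτ fun z hz =>
    ⟨(hτC z hz).1, hsub ⟨z, hz, rfl⟩ ⟨z0, hz0, rfl⟩⟩

/-- regularity is kept, for all families -/
theorem TStage1.reg {G : Geo B} {M : Mesh Ω} {h h' : ConHomeo Ω Λ} {Pr : Set M.ι}
    {L : TBx K → Set ℝ} {ω : TBx K → ℝ} (O : TStage1 G M h h' Pr L ω) {ι : Type*}
    {N : ι → Set V} {b : TBx K} {x : V} (hx : x ∈ skel M) (hxb : h'.toFun x ∈ G.TB false b)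
    (hxL : h'.toFun x b.ax ∈ L b) (hr : h.toFun x ∈ G.TB false b → h.toFun x b.ax ∈ L b →
      H805.Reg (fun y => h.toFun y b.ax) N x) :
    h.toFun x = h'.toFun x ∧ H805.Reg (fun y => h'.toFun y b.ax) N x := by
  have h1 := O.keep b x hx hxb hxL
  have h2 := h1.self_of_nhds
  rw [h2] at hxb hxL
  exact ⟨h2.symm, (hr hxb hxL).congr_fun (h1.mono fun y hy => by
    show h'.toFun y b.ax = h.toFun y b.ax
    rw [hy])⟩

end Vale.Agent.P073.H238
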