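import Vale.Agent.P073.H238.GlueAmb

/-!
# P073, H238 (A14.7): **[STEP-T]**, STEP S in a locally finite family of disjoint boxes
-/

open Set Metric Topology Filter

namespace Vale.Agent.P073.H238

open _root_.P073 _root_.P073.TR _root_.P073.SCH _root_.P073.H339

/-- The output of STEP S in the boxes `P g`: `h'` is `h` up to ambient changes in compact subsets
of the boxes. -/
structure StepOut {γ : Type*} {J : γ → Type*} {Ω Λ : Set V} (K : Set V) (h : ConHomeo Ω Λ)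
    {A : ∀ g, J g → Set V} (F : ∀ g j, PFace (A g j)) (Lv : γ → Set (Fin 3 × ℝ)) (ω : γ → ℝ)
    (P : γ → Set V) (𝒬 : γ → Set (Set V)) (h' : ConHomeo Ω Λ) : Prop where
  /-- compact supports -/
  supp : ∃ C : γ → Set V, (∀ g, IsCompact (C g)) ∧ (∀ g, C g ⊆ P g) ∧
    ∀ x ∈ Ω, (∀ g, h.toFun x ∉ C g) → ∀ᶠ y in 𝓝 x, h'.toFun y = h.toFun y
  /-- nothing changes outside the boxes -/
  off : ∀ x ∈ Ω, (∀ g, h.toFun x ∉ P g) → ∀ᶠ y in 𝓝 x, h'.toFun y = h.toFun y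
  /-- the preimages of the boxes are the same -/
  mem : ∀ g, ∀ x ∈ Ω, (h'.toFun x ∈ P g ↔ h.toFun x ∈ P g)
  /-- traces on `K` only disappear, with the same germs -/
  keep : ∀ g, ∀ x ∈ Ω, x ∈ K → h.toFun x ∈ P g → ∀ q ∈ Lv g, h'.toFun x q.1 = q.2 →
    ∀ᶠ y in 𝓝 x, h'.toFun y = h.toFun y
  /-- levels without circles are not touched at all -/
  free : ∀ g, ∀ q ∈ Lv g, (∀ j σ, IsCircle σ →
      ¬ σ ⊆ {z | z ∈ (F g j).C ∧ h.toFun ((F g j).ch z) q.1 = q.2}) →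
    ∀ x ∈ Ω, h.toFun x ∈ P g → h'.toFun x q.1 = q.2 → ∀ᶠ y in 𝓝 x, h'.toFun y = h.toFun y
  near : ∀ g, ∀ x ∈ Ω, x ∈ K → h.toFun x ∈ P g → dist (h'.toFun x) (h.toFun x) ≤ 6 * ω g
  all : ∀ g, ∀ x ∈ Ω, h.toFun x ∈ P g → dist (h'.toFun x) (h.toFun x) ≤ 12 * ω g
  /-- no circles are left -/
  noCirc : ∀ g j, ∀ q ∈ Lv g, ∀ σ, IsCircle σ →
    ¬ σ ⊆ {z | z ∈ (F g j).C ∧ h'.toFun ((F g j).ch z) q.1 = q.2}
  /-- the walls are fixed -/
  wall : ∀ g, ∀ Q ∈ 𝒬 g, ∀ x ∈ Ω, h.toFun x ∈ P g → h.toFun x ∈ Q →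
    ∀ᶠ y in 𝓝 x, h'.toFun y = h.toFun y

/-- **[STEP-T]** -/
theorem step_t {γ : Type*} {J : γ → Type*} [∀ g, Finite (J g)] {Ω Λ K : Set V}
    (hΩ : IsOpen Ω) (hΛ : IsOpen Λ) {h : ConHomeo Ω Λ}
    {A : ∀ g, J g → Set V} {F : ∀ g j, PFace (A g j)} {Lv : γ → Set (Fin 3 × ℝ)} {ω : γ → ℝ}
    {P : γ → Set V} (S : ∀ g, Setup Ω Λ K (P g) h (A g) (F g) (Lv g) (ω g))
    {𝒬 : γ → Set (Set V)} (W : ∀ g, Walls h (F g) (Lv g) (ω g) (𝒬 g))
    (hdis : ∀ c d, c ≠ d → Disjoint (P c) (P d))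
    (hlf : ∀ z ∈ Λ, ∃ O ∈ 𝓝 z, {c | (P c ∩ O).Nonempty}.Finite) :
    ∃ h' : ConHomeo Ω Λ, StepOut K h F Lv ω P 𝒬 h' := by
  choose Θ hI hW hno using fun g => step_walls (S g) (W g)
  choose C hC hCP hCf using fun g => (hI g).supp
  obtain ⟨T, hT, -, hT0⟩ := exists_glueAmb hΛ (fun g => (S g).oP) (fun g => (S g).PΛ) hC hCP hdis
    hlf Θ hCf
  have hnear : ∀ g, ∀ z ∈ P g, ∀ᶠ y in 𝓝 z, T.toFun y = (Θ g).toFun y := by
    intro g z hz
    filter_upwards [(S g).oP.mem_nhds hz] with y hy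
    exact hT g y hy
  have hmapP : ∀ g, ∀ z ∈ P g, (Θ g).toFun z ∈ P g := by
    intro g z hz
    by_cases h1 : z ∈ C g
    · exact hCP g (maps_supp (hCf g) z h1)
    · rw [hCf g z h1]; exact hz
  -- germs: if `Θ g` is the identity near `h x` then `h' = h` near `x`
  have germ : ∀ g, ∀ x ∈ Ω, h.toFun x ∈ P g → (∀ᶠ z in 𝓝 (h.toFun x), (Θ g).toFun z = z) →
      ∀ᶠ y in 𝓝 x, T.toFun (h.toFun y) = h.toFun y := by
    intro g x hx hxP hid
    have h1 : ∀ᶠ z in 𝓝 (h.toFun x), T.toFun z = z := by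
      filter_upwards [hnear g _ hxP, hid] with z h2 h3
      rw [h2, h3]
    exact (h.cont.continuousAt (hΩ.mem_nhds hx)).eventually h1
  have hoff : ∀ x ∈ Ω, (∀ g, h.toFun x ∉ C g) → ∀ᶠ y in 𝓝 x, T.toFun (h.toFun y) = h.toFun y :=
    fun x hx h1 => (h.cont.continuousAt (hΩ.mem_nhds hx)).eventually
      (hT0 _ (h.mapsTo hx) h1)
  refine ⟨h.trans T, ⟨⟨C, hC, hCP, hoff⟩, ?_, ?_, ?_, ?_, ?_, ?_, ?_, ?_⟩⟩
  · intro x hx h1
    exact hoff x hx fun g h2 => h1 g (hCP g h2)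
  · intro g x hx
    show T.toFun (h.toFun x) ∈ P g ↔ h.toFun x ∈ P g
    constructor
    · intro h1
      by_cases h2 : ∃ d, h.toFun x ∈ P d
      · obtain ⟨d, hd⟩ := h2
        by_cases hdg : d = g
        · subst hdg; exact hd
        · exfalso
          rw [hT d _ hd] at h1
          exact Set.disjoint_left.1 (hdis d g hdg) (hmapP d _ hd) h1
      · push Not at h2
        have h3 := (hT0 _ (h.mapsTo hx) fun c hc => h2 c (hCP c hc)).self_of_nhds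
        rwa [h3] at h1
    · intro h1
      rw [hT g _ h1]
      exact hmapP g _ h1
  · intro g x hx hK hxP q hq hxq
    have h1 : (Θ g).toFun (h.toFun x) q.1 = q.2 := by
      rw [← hT g _ hxP]; exact hxq
    exact germ g x hx hxP ((hI g).keep x hx hK q hq h1)
  · intro g q hq hno' x hx hxP hxq
    have h1 : (Θ g).toFun (h.toFun x) q.1 = q.2 := by
      rw [← hT g _ hxP]; exact hxq
    exact germ g x hx hxP ((hI g).free q hq hno' _ h1)
  · intro g x hx hK hxP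
    show dist (T.toFun (h.toFun x)) (h.toFun x) ≤ 6 * ω g
    rw [hT g _ hxP]
    exact (hI g).near x hx hK
  · intro g x hx hxP
    show dist (T.toFun (h.toFun x)) (h.toFun x) ≤ 12 * ω g
    rw [hT g _ hxP]
    exact (hI g).all _
  · intro g j q hq σ hσ hs
    refine hno g j σ hσ ?_
    intro z hz
    have h1 := hs hz
    have h2 : h.toFun ((F g j).ch z) ∈ P g :=
      (S g).ball j _ ((F g j).ch_mem h1.1) (mem_closedBall_self (by linarith [(S g).ω0]))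
    refine ⟨h1.1, q, hq, ?_⟩
    show (Θ g).toFun (h.toFun ((F g j).ch z)) q.1 = q.2
    rw [← hT g _ h2]
    exact h1.2
  · intro g Q hQ x hx hxP hxQ
    exact germ g x hx hxP (hW g Q hQ _ hxQ)

/-- regular trace points stay regular -/
theorem StepOut.reg {γ : Type*} {J : γ → Type*} {Ω Λ K : Set V} {h h' : ConHomeo Ω Λ}
    {A : ∀ g, J g → Set V} {F : ∀ g j, PFace (A g j)} {Lv : γ → Set (Fin 3 × ℝ)} {ω : γ → ℝ}
    {P : γ → Set V} {𝒬 : γ → Set (Set V)} (O : StepOut K h F Lv ω P 𝒬 h')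
    {ι : Type*} {M : ι → Set V} {g : γ} {x : V} (hx : x ∈ Ω) (hK : x ∈ K) (hP : h.toFun x ∈ P g)
    {q : Fin 3 × ℝ} (hq : q ∈ Lv g) (hxq : h'.toFun x q.1 = q.2)
    (hr : h.toFun x q.1 = q.2 → H805.Reg (fun y => h.toFun y q.1) M x) :
    h.toFun x q.1 = q.2 ∧ H805.Reg (fun y => h'.toFun y q.1) M x := by
  have h1 := O.keep g x hx hK hP q hq hxq
  have h2 : h.toFun x q.1 = q.2 := by rw [← h1.self_of_nhds]; exact hxq
  refine ⟨h2, (hr h2).congr_fun ?_⟩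
  filter_upwards [h1] with y hy
  rw [hy]

end Vale.Agent.P073.H238
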