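import Vale.Agent.P073.H236.GOut5
import Vale.Agent.P073.H267.RoundDefs
import Vale.Agent.P073.H345.PBox
import Vale.Agent.P073.H926.DatA

/-!
# P073, H238: **[K3-RT]**, ROUND T for `K3C`: the classes of cells and faces, the output

ROUND T is without hook: levels only.  `Zd`: drawn cells.  `Wc`: passive cells, with given maps, in
the full case (all tiles which touch a processed tile have a protected cell); there is no such cell
in the other case.  The protected cells have given maps, too.  `Act`: the faces which are in no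
cell of `P ∪ Wc`.
-/

open Set Metric Topology Filter
open scoped ENNReal

namespace Vale.Agent.P073.H238.K3

open _root_.P073 _root_.P073.Net _root_.P073.PA691 _root_.P073.H236 _root_.P073.H579
open _root_.P073.H267
open _root_.P073.H142 (FStar)
open _root_.P073.H345 (PK)
open Vale.Agent.P073.St (V)
open Vale.Agent.P073.H471 Vale.Agent.P073.H267 Vale.Agent.P073.H267.Geo
open Vale.Agent.P073.H73 (Mesh)
open Vale.Agent.P073.H193 (Edges Cyc)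
open Vale.Agent.P073.H304 (Nb In Zmax)
open Vale.Agent.P073.H926

section Sl

variable {Λ : Set V} {w : V} {K : BoxCx Λ w} {S₀ : Rad K} {Wd : Wid K S₀} {B : Boxes Wd}

/-- **the slivers**: two end slivers, which contain the ends of the window, of length at most
`32 ω`, and thin slivers between the bands -/
def SlIn (G : Geo B) (ω : TBx K → ℝ) (b : TBx K) (σ : ℝ) (sl : Finset (ℝ × ℝ)) : Prop :=
  ∃ (q₀ q₁ q₂ q₃ : ℝ) (inner : Finset (ℝ × ℝ)), G.tlo true b b.ax - ω b ≤ q₀ ∧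
    q₀ < G.tlo true b b.ax ∧ G.tlo true b b.ax < q₁ ∧ q₁ ≤ G.tlo true b b.ax + 31 * ω b ∧
    G.thi true b b.ax - 31 * ω b ≤ q₂ ∧ q₂ < G.thi true b b.ax ∧ G.thi true b b.ax < q₃ ∧
    q₃ ≤ G.thi true b b.ax + ω b ∧ (q₀, q₁) ∈ sl ∧ (q₂, q₃) ∈ sl ∧
    (∀ p ∈ sl, p = (q₀, q₁) ∨ p = (q₂, q₃) ∨ p ∈ inner) ∧
    (∀ p ∈ inner, p.1 ≤ p.2) ∧ ∑ p ∈ inner, (p.2 - p.1) ≤ σ

/-- the clamped coordinate -/
def clm (lo hi t : ℝ) : ℝ := max lo (min hi t)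

/-- **further walls** for STEP S: closed boxes on which nothing changes -/
structure ZWall {Ω : Set V} (G : Geo B) (M : Mesh Ω) (h : ConHomeo Ω Λ) (Act₀ : Set M.κ)
    (G₀ : Set (TBx K)) (ω : TBx K → ℝ) (Zw : Set (Set V)) : Prop where
  /-- large closed boxes -/
  box : ∀ Q ∈ Zw, ∀ b ∈ G₀, (Q ∩ G.TB false b).Nonempty →
    ∃ lo hi : V, Q = Icc lo hi ∧ ∀ k, 14 * ω b < hi k - lo k
  fin : ∀ b ∈ G₀, {Q | Q ∈ Zw ∧ (Q ∩ G.TB false b).Nonempty}.Finite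
  /-- the map is affine on the faces to be cleaned which meet them -/
  aff : ∀ Q ∈ Zw, ∀ k ∈ Act₀, (h.toFun '' M.F k ∩ Q).Nonempty →
    ∃ A : V →ᴬ[ℝ] V, EqOn h.toFun A (M.F k)

theorem ZWall.empty {Ω : Set V} (G : Geo B) (M : Mesh Ω) (h : ConHomeo Ω Λ) (Act₀ : Set M.κ)
    (G₀ : Set (TBx K)) (ω : TBx K → ℝ) : ZWall G M h Act₀ G₀ ω ∅ where
  box := fun _ hQ => absurd hQ (Set.notMem_empty _)
  fin := fun b _ => by
    refine Set.finite_empty.subset ?_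
    rintro Q ⟨hQ, -⟩
    exact hQ
  aff := fun _ hQ => absurd hQ (Set.notMem_empty _)

end Sl

/-- Lipschitz numbers of the output on the cells (chosen before the slivers) -/
def LipH {Ω : Set V} (M : Mesh Ω) (Lh : M.ι → ℝ) (h1 : V → V) : Prop :=
  ∀ i, ∀ x ∈ M.Q i, ∀ y ∈ M.Q i, ‖h1 x - h1 y‖ ≤ Lh i * ‖x - y‖

variable {c₀ n δ : ℝ} {j : ℕ} {Ω Λ : Set V} {v w : V} {ρ : V → ℝ} {M : Mesh Ω} {h : ConHomeo Ω Λ}
  {J₀ J : Set (ℕ × (Fin 3 → ℤ))} {P Z : Set M.ι} {K : BoxCx Λ w}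

/-- the drawn cells -/
def Zd (_D : KIn3 c₀ n j δ v w ρ M h J₀ J P Z) : Set M.ι := Zmax M w h.toFun J₀ P (2 / 2 ^ j)

/-- the passive cells with a given map: all passive cells in the full case, otherwise none -/
def Wc (D : KIn3 c₀ n j δ v w ρ M h J₀ J P Z) (C : Cells ρ w K) : Set M.ι :=
  {i | Full C J₀ J ∧ i ∉ P ∧ i ∉ Zd D}

/-- the faces which are in no protected cell and in no passive cell with a given map -/
def Act (D : KIn3 c₀ n j δ v w ρ M h J₀ J P Z) (C : Cells ρ w K) : Set M.κ :=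
  {k | ∀ i ∈ P ∪ Wc D C, ¬ M.F k ⊆ M.Q i}

/-- the cells with a given map: protected cells, passive cells in the full case, and the cells
which miss the boxes -/
def Gv (D : KIn3 c₀ n j δ v w ρ M h J₀ J P Z) (C : Cells ρ w K) : Set M.ι :=
  P ∪ Wc D C ∪ {i | ∀ x ∈ M.Q i, ∀ b ∈ pB C J₀, h.toFun x ∉ (D.G C).TB false b}

/-- **the numbers of ROUND T**; `Wl`: cells on which the map has the speed of `h` -/
structure TNum3 (M : Mesh Ω) (E : Edges M) (h : V → V) (T : ∀ k, FStar E k) (C₀ : ℝ)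
    (ε : E.ε → ℝ) (Wl : Set M.ι) (b : E.ε → ℝ) (La : E.ε → ℝ) (Lf : M.κ → E.ε → ℝ) : Prop where
  b_pos : ∀ e, 0 < b e
  b_le : ∀ e, (∀ i ∈ Wl, ¬ E.seg e ⊆ M.Q i) →
    ENNReal.ofReal (b e) ≤ lenE E h e + ENNReal.ofReal (ε e)
  b_lip : ∀ e, ∀ i ∈ Wl, E.seg e ⊆ M.Q i → ∀ L > 0,
    (∀ x ∈ M.Q i, ∀ y ∈ M.Q i, ‖h x - h y‖ ≤ L * ‖x - y‖) → b e ≤ L * ‖E.b e - E.a e‖
  La_nonneg : ∀ e, 0 ≤ La e
  /-- constant on the edges -/
  La_le : ∀ e, La e * ‖E.b e - E.a e‖ ≤ C₀ * b e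
  Lf_nonneg : ∀ k e, 0 ≤ Lf k e
  /-- constant on the cones of the faces -/
  Lf_le : ∀ k e, E.seg e ⊆ M.F k → Lf k e ≤ (T k).con (C₀ * (1 + (T k).R / (T k).rho)) b e

/-- **the output of ROUND T of `K3C`** -/
structure TOut3 (D : KIn3 c₀ n j δ v w ρ M h J₀ J P Z) (C : Cells ρ w K) (E : Edges M)
    (T : ∀ k, FStar E k) (C₀ μ : ℝ) (ε : E.ε → ℝ) (εd : pB C J₀ → ℝ) (La : E.ε → ℝ)
    (Lf : M.κ → E.ε → ℝ) (Lam1 : M.κ → ℝ) (sl : pB C J₀ → Finset (ℝ × ℝ)) (h1 : ConHomeo Ω Λ) :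
    Prop extends T3OutG (D.G C) M E h h1 (ω3T δ C) 64 (pB C J₀) (Act D C) (fun k => (T k).O) La Lf
      Lam1 sl where
  /-- closeness, at all points -/
  near3 : ∀ x ∈ Ω, ∀ q, h.toFun x ∈ K.cube q → ‖h1.toFun x - h.toFun x‖ ≤ (D.G C).om q
  /-- closeness, in the boxes -/
  dispT : ∀ x ∈ Ω, ∀ b ∈ pB C J₀, h.toFun x ∈ (D.G C).TB false b →
    ‖h1.toFun x - h.toFun x‖ ≤ 1024 * ω3T δ C b
  /-- nothing changes far from the processed tiles -/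
  off3 : ∀ x ∈ Ω, h.toFun x ∉ Nb w J₀ c₀ → h1.toFun x = h.toFun x
  /-- cells which miss the boxes -/
  offc : ∀ i, (∀ x ∈ M.Q i, ∀ b ∈ pB C J₀, h.toFun x ∉ (D.G C).TB false b) →
    EqOn h1.toFun h.toFun (M.Q i)
  /-- given cells, off the boxes -/
  offg : ∀ i ∈ P ∪ Wc D C, ∀ x ∈ M.Q i, (∀ b ∈ pB C J₀, h.toFun x ∉ (D.G C).TB false b) →
    h1.toFun x = h.toFun x
  /-- protected cells: the level coordinate is almost unchanged -/
  disp : ∀ i ∈ P, ∀ x ∈ M.Q i, ∀ b : pB C J₀, h.toFun x ∈ (D.G C).TB false b.1 →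
    |h1.toFun x b.1.ax - h.toFun x b.1.ax| ≤ εd b
  /-- passive cells: the oscillation of the level coordinate, clamped -/
  oscv : ∀ i ∈ Wc D C, ∀ b : pB C J₀, ∀ lo hi : ℝ,
    (D.G C).tlo true b.1 b.1.ax + 50 * ω3T δ C b.1 ≤ lo → lo ≤ hi →
    hi ≤ (D.G C).thi true b.1 b.1.ax - 50 * ω3T δ C b.1 → ∀ Bd : ℝ,
    (∀ x ∈ M.Q i, ∀ y ∈ M.Q i, |h.toFun x b.1.ax - h.toFun y b.1.ax| ≤ Bd) →
    ∀ x ∈ M.Q i, ∀ y ∈ M.Q i, h.toFun x ∈ (D.G C).TB false b.1 →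
    h.toFun y ∈ (D.G C).TB false b.1 →
    |clm lo hi (h1.toFun x b.1.ax) - clm lo hi (h1.toFun y b.1.ax)| ≤ C₀ * Bd + εd b
  /-- faces which meet the box: the oscillation of the level coordinate, clamped -/
  oscf : ∀ k, ∀ b : pB C J₀, (∃ z ∈ M.F k, h.toFun z ∈ (D.G C).TB false b.1) → ∀ lo hi : ℝ,
    (D.G C).tlo true b.1 b.1.ax + 50 * ω3T δ C b.1 ≤ lo → lo ≤ hi →
    hi ≤ (D.G C).thi true b.1 b.1.ax - 50 * ω3T δ C b.1 → ∀ Bd : ℝ,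
    (∀ x ∈ M.F k, ∀ y ∈ M.F k, |h.toFun x b.1.ax - h.toFun y b.1.ax| ≤ Bd) →
    ∀ x ∈ M.F k, ∀ y ∈ M.F k,
    |clm lo hi (h1.toFun x b.1.ax) - clm lo hi (h1.toFun y b.1.ax)| ≤ C₀ * Bd + εd b
  /-- protected cells: images of the cell, the faces, the edges, the vertices -/
  rectc : ∀ i ∈ P, h1.toFun '' M.Q i = h.toFun '' M.Q i
  rectf : ∀ i ∈ P, ∀ k, M.F k ⊆ M.Q i → h1.toFun '' M.F k = h.toFun '' M.F k
  recte : ∀ i ∈ P, ∀ e, E.seg e ⊆ M.Q i → h1.toFun '' E.seg e = h.toFun '' E.seg e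
  rectv : ∀ i ∈ P, ∀ x ∈ E.verts, x ∈ M.Q i → h1.toFun x = h.toFun x
  /-- protected cells: the level coordinate -/
  protv : ∀ i ∈ P, ∀ b ∈ pB C J₀, ∀ x ∈ M.Q i, ∀ y ∈ M.Q i, h.toFun x ∈ (D.G C).TB false b →
    h.toFun y ∈ (D.G C).TB false b →
    |h1.toFun x b.ax - h1.toFun y b.ax| ≤ C₀ * ‖h.toFun x - h.toFun y‖
  /-- protected cells near the processed plates: the other coordinates are unchanged -/
  protu : ∀ i ∈ P, ∀ s ∈ pS C J₀, ∀ x ∈ M.Q i, h.toFun x ∈ PX (D.G C) s →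
    ∀ b ∈ pB C J₀, h.toFun x ∈ (D.G C).TB false b →
    ∀ l, l ≠ b.ax → h1.toFun x l = h.toFun x l
  /-- passive cells: the clamped level coordinate, relative to the Lipschitz constant of `h` -/
  lip3 : ∀ i ∈ Wc D C, ∀ L > 0,
    (∀ x ∈ M.Q i, ∀ y ∈ M.Q i, ‖h.toFun x - h.toFun y‖ ≤ L * ‖x - y‖) →
    ∀ b ∈ pB C J₀, ∀ lo hi : ℝ, (D.G C).tlo true b b.ax + 50 * ω3T δ C b ≤ lo → lo ≤ hi →
    hi ≤ (D.G C).thi true b b.ax - 50 * ω3T δ C b →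
    ∀ x ∈ M.Q i, h.toFun x ∈ (D.G C).TB false b →
    ∀ᶠ x' in 𝓝[M.Q i] x,
      |clm lo hi (h1.toFun x' b.ax) - clm lo hi (h1.toFun x b.ax)| ≤ C₀ * L * ‖x' - x‖
  /-- the same for the faces of the passive cells -/
  lipf : ∀ i ∈ Wc D C, ∀ k, M.F k ⊆ M.Q i → ∀ L > 0,
    (∀ x ∈ M.F k, ∀ y ∈ M.F k, ‖h.toFun x - h.toFun y‖ ≤ L * ‖x - y‖) →
    ∀ b ∈ pB C J₀, ∀ lo hi : ℝ, (D.G C).tlo true b b.ax + 50 * ω3T δ C b ≤ lo → lo ≤ hi →
    hi ≤ (D.G C).thi true b b.ax - 50 * ω3T δ C b →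
    ∀ x ∈ M.F k, h.toFun x ∈ (D.G C).TB false b →
    ∀ᶠ x' in 𝓝[M.F k] x,
      |clm lo hi (h1.toFun x' b.ax) - clm lo hi (h1.toFun x b.ax)| ≤ C₀ * L * ‖x' - x‖
  /-- passive cells: the level coordinate, pointwise -/
  stairw : ∀ i ∈ Wc D C, ∀ b : pB C J₀, ∀ x ∈ M.Q i, h.toFun x ∈ (D.G C).TB false b.1 →
    (D.G C).tlo true b.1 b.1.ax + 40 * ω3T δ C b.1 ≤ h.toFun x b.1.ax →
    h.toFun x b.1.ax ≤ (D.G C).thi true b.1 b.1.ax - 40 * ω3T δ C b.1 →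
    ∀ᶠ y in 𝓝[M.Q i] x, |h1.toFun y b.1.ax - h1.toFun x b.1.ax| ≤
      C₀ * ‖h.toFun y - h.toFun x‖ + εd b * ‖y - x‖
  /-- the images of the edges which miss the boxes -/
  imge : ∀ e, (∀ x ∈ E.seg e, ∀ b ∈ pB C J₀, h.toFun x ∉ (D.G C).TB false b) →
    h1.toFun '' E.seg e = h.toFun '' E.seg e
  /-- (T5), clamped coordinate, all edges which meet the box -/
  tv : ∀ e₀, ∀ b ∈ pB C J₀,
    (h.toFun '' E.seg e₀ ∩ (D.G C).TB false b).Nonempty → ∀ lo hi : ℝ,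
    (D.G C).tlo true b b.ax + 50 * ω3T δ C b ≤ lo → lo ≤ hi →
    hi ≤ (D.G C).thi true b b.ax - 50 * ω3T δ C b →
    eVariationOn (fun t : ℝ => clm lo hi
      (h1.toFun (E.a e₀ + t • (E.b e₀ - E.a e₀)) b.ax)) (Icc 0 1) ≤
      ENNReal.ofReal C₀ * lenE E h.toFun e₀ + ENNReal.ofReal (ε e₀)
  /-- (T5), sharp form, clamped coordinate -/
  tvs : ∀ e₀, ∀ b ∈ pB C J₀,
    (∀ x ∈ E.seg e₀, closedBall (h.toFun x) (30 * ω3T δ C b) ⊆ (D.G C).TB true b) →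
    ∀ lo hi : ℝ, (D.G C).tlo true b b.ax + 50 * ω3T δ C b ≤ lo → lo ≤ hi →
    hi ≤ (D.G C).thi true b b.ax - 50 * ω3T δ C b →
    eVariationOn (fun t : ℝ => clm lo hi
      (h1.toFun (E.a e₀ + t • (E.b e₀ - E.a e₀)) b.ax)) (Icc 0 1) ≤
      ENNReal.ofReal (1 + μ) * tvE E h.toFun e₀ b.ax + ENNReal.ofReal (ε e₀)
  /-- functions of the coordinate `l` which are constant on the windows of the boxes, for the edges
  which meet only boxes of the axis `l` -/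
  tvo : ∀ e₀ (l : Fin 3), (∀ b ∈ pB C J₀, (h.toFun '' E.seg e₀ ∩ (D.G C).TB false b).Nonempty →
      b.ax = l) → ∀ (F : ℝ → ℝ) (A : ℝ), 0 ≤ A → (∀ s t, |F s - F t| ≤ A * |s - t|) →
    (∀ b ∈ pB C J₀, (h.toFun '' E.seg e₀ ∩ (D.G C).TB false b).Nonempty →
      ∀ s ∈ Icc ((D.G C).tlo true b b.ax) ((D.G C).thi true b b.ax),
        F s = F ((D.G C).tlo true b b.ax)) →
    eVariationOn (fun t : ℝ => F (h1.toFun (E.a e₀ + t • (E.b e₀ - E.a e₀)) l)) (Icc 0 1) ≤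
      ENNReal.ofReal A * lenE E h.toFun e₀
  /-- the unclamped coordinate, off the end zones, for the edges which meet only boxes of the axis
  `l` -/
  tvg : ∀ e₀ (l : Fin 3), (∀ b ∈ pB C J₀, (h.toFun '' E.seg e₀ ∩ (D.G C).TB false b).Nonempty →
      b.ax = l) → ∀ f : ℝ → ℝ, (∀ s t, |f s - f t| ≤ |s - t|) →
    (∀ b ∈ pB C J₀, (h.toFun '' E.seg e₀ ∩ (D.G C).TB false b).Nonempty →
      (∀ s ∈ Icc ((D.G C).tlo true b b.ax) ((D.G C).tlo true b b.ax + 50 * ω3T δ C b),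
        f s = f ((D.G C).tlo true b b.ax)) ∧
      ∀ s ∈ Icc ((D.G C).thi true b b.ax - 50 * ω3T δ C b) ((D.G C).thi true b b.ax),
        f s = f ((D.G C).thi true b b.ax)) →
    eVariationOn (fun t : ℝ => f (h1.toFun (E.a e₀ + t • (E.b e₀ - E.a e₀)) l)) (Icc 0 1) ≤
      ENNReal.ofReal C₀ * lenE E h.toFun e₀ + ENNReal.ofReal (ε e₀)

/-- **the output of ROUND T on the further walls** `Zw`: the coordinates `l` which are not the axis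
of a box met by the set are those of `h`, up to a change inside of the set -/
structure WallOut (D : KIn3 c₀ n j δ v w ρ M h J₀ J P Z) (C : Cells ρ w K) (E : Edges M)
    (Zw : Set (Set V)) (h1 : ConHomeo Ω Λ) : Prop where
  face : ∀ Q ∈ Zw, ∀ k, h.toFun '' M.F k ⊆ Q → ∀ l : Fin 3,
    (∀ b ∈ pB C J₀, (h.toFun '' M.F k ∩ (D.G C).TB false b).Nonempty → b.ax ≠ l) →
    ∀ x ∈ M.F k, ∃ x' ∈ M.F k, h1.toFun x l = h.toFun x' l ∧
      (x' ∈ intrinsicFrontier ℝ (M.F k) → x ∈ intrinsicFrontier ℝ (M.F k))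
  set : ∀ Q ∈ Zw, ∀ X : Set V, ((∃ i, X = M.Q i) ∨ (∃ k, X = M.F k) ∨ (∃ e, X = E.seg e) ∨
      ∃ x ∈ E.verts, X = {x}) → h.toFun '' X ⊆ Q → ∀ l : Fin 3,
    (∀ b ∈ pB C J₀, (h.toFun '' X ∩ (D.G C).TB false b).Nonempty → b.ax ≠ l) →
    (fun x => h1.toFun x l) '' X = (fun x => h.toFun x l) '' X

end Vale.Agent.P073.H238.K3
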