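import Vale.Agent.P073.H345.PIns

/-!
# P073, H238: ROUND P, geometry: the levels of a plate and the boxes of round T

`dich`: an edge of a face in the plate `s` which meets a box of round T with an axis different from
`tg s β` does not meet the window of the levels in the direction `tg s β`.
-/

open Set Metric Topology Filter

namespace Vale.Agent.P073.H238

open _root_.P073 _root_.P073.Net _root_.P073.PA691
open Vale.Agent.P073.St (V)
open Vale.Agent.P073.H471 Vale.Agent.P073.H267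
open Vale.Agent.P073.H73 (Mesh)
open Vale.Agent.P073.H193 (Edges)
open _root_.P073.H345 (tg tg_ne PK PB_sub_PK)
open _root_.P073.H579 (AkP)
open _root_.P073.H236 (T3Out)
open Vale.Agent.P073.H805 (near_T1 osc_T1)

section geo

variable {Λ : Set V} {v : V} {K : BoxCx Λ v} {S : Rad K} {W : Wid K S} {B : Boxes W} {G : Geo B}

theorem mem_ss_of {s : K.S} {y : V}
    (ht : ∀ l, l ≠ K.nrm s → K.slo s l + 5 / 8 * G.p s ≤ y l ∧ y l ≤ K.shi s l - 5 / 8 * G.p s)
    (hn : |y (K.nrm s) - K.slo s (K.nrm s)| ≤ B.τ s) : y ∈ W.ss s := by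
  have hτ := B.τ_pos s
  have hτp := G.τ_p s
  have h1 : B.τ s ≤ W.as s y := by
    refine le_marg (B.τ_le s) fun k hk => ?_
    have h1 := ht k (by simpa using hk)
    constructor <;> linarith
  show nJ {K.nrm s} (K.slo s) y < 2 * W.as s y
  have h2 : nJ {K.nrm s} (K.slo s) y ≤ B.τ s :=
    (nJ_le_iff hτ.le).2 fun k hk => by rw [Finset.mem_singleton.1 hk]; exact hn
  linarith

/-- in a box of round T near the square `s` the coordinates `j ≠ b.ax` are near a side -/
theorem TB_side {s : K.S} {y : V} (hy : y ∈ W.ss s) {b : TBx K} (hb : y ∈ G.TB false b)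
    {j : Fin 3} (hj : j ≠ K.nrm s) (hjb : b.ax ≠ j) :
    y j ≤ K.slo s j + G.a s / 8 ∨ K.shi s j - G.a s / 8 ≤ y j := by
  have hp := Geo.p_pos (G := G) s
  have hpa := Geo.p_a (G := G) s
  rcases b with e | H
  · have hZe := Geo.TB_subset_Ze e hb
    have hes := edge_subset_sq hy hZe.1 (Ze_nJ hZe)
    rw [Geo.mem_inl] at hb
    simp only [Bool.false_eq_true, if_false] at hb
    have hjd : j ≠ K.dir e := fun h => hjb h.symm
    have h6 := abs_le.1 (hb.2 j hjd)
    have h1 := G.be_a s _ (hes (TM.wa_mem K e))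
    have h2 := G.lam_a e
    rcases edge_side hes hj hjd with h8 | h8
    · left; linarith
    · right; linarith
  · have hH : H.s = s := by
      by_contra hne
      exact (disjoint_ss (W := W) hne).notMem_of_mem_left (Zs_subset (Geo.TB_subset_Zs H hb)) hy
    subst hH
    have hjl : H.l ≠ j := hjb
    have hjk : j = H.k := by
      rcases Geo.fin3_cases H.k_n H.k_l H.l_n.symm j with h1 | h1 | h1
      · exact h1
      · exact absurd h1 hj
      · exact absurd h1.symm hjl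
    rw [Geo.mem_inr] at hb
    simp only [Bool.false_eq_true, if_false] at hb
    obtain ⟨-, ⟨-, h3⟩, -⟩ := hb
    rw [hjk]
    unfold Hang.u at h3
    split_ifs at h3 with hβ
    · right; linarith
    · left; linarith

end geo

section

variable {η₀ : ℝ} {Ω Λ : Set V} {w : V} {ρ : V → ℝ} {M : Mesh Ω} {h h1 : ConHomeo Ω Λ}
  {P : Set M.ι} {K : BoxCx Λ w} {E : Edges M}

variable (D : KIn η₀ w ρ M h P) (C : Cells ρ w K)

include D C

/-- the faces at a plate are in the plate, with margins -/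
theorem mem_PB_of_akP (hn : ∀ k, ∀ x ∈ M.F k, ∀ q, h.toFun x ∈ K.cube q →
      ‖h1.toFun x - h.toFun x‖ ≤ (D.G C).om q) {k : M.κ} {s : K.S}
    (hk : AkP (D.G C) M h1 univ s k) {y : V} (hy : y ∈ M.F k) :
    h1.toFun y ∈ (D.G C).PB (3 / 4) s := by
  obtain ⟨-, x, hx, hxs⟩ := hk
  obtain ⟨-, h2, h3, -⟩ := near_T1 D C hn hx (by norm_num) hxs
  obtain ⟨h4, -⟩ := osc_T1 D C hn hx (by norm_num) hxs hy
  have hp := Geo.p_pos (G := D.G C) s
  have hτ := (D.B C).τ_pos s
  have hoτ := (D.G C).oS_τ s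
  have hop := Vale.Agent.P073.H805.oS_p (D.G C) s
  have ho := Vale.Agent.P073.H805.oS_pos (D.G C) s
  have hco : ∀ l, |h1.toFun x l - h1.toFun y l| ≤ 4 * (D.G C).oS s := fun l =>
    (norm_le_pi_norm (h1.toFun x - h1.toFun y) l).trans h4
  have hcn : |h1.toFun x (K.nrm s) - h.toFun x (K.nrm s)| ≤ (D.G C).oS s :=
    (norm_le_pi_norm (h1.toFun x - h.toFun x) _).trans h2
  obtain ⟨ht, -⟩ := Geo.mem_PB.1 hxs
  rw [Geo.mem_PB]
  refine ⟨fun j hj => ?_, ?_⟩
  · have j1 := ht j hj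
    have j2 := abs_le.1 (hco j)
    constructor <;> linarith
  · have j1 := abs_le.1 (hco (K.nrm s))
    have j2 := abs_le.1 hcn
    have j3 := abs_le.1 h3
    rw [abs_le]
    constructor <;> linarith

/-- **the levels of a plate and the boxes of round T** -/
theorem dich (hn : ∀ k, ∀ x ∈ M.F k, ∀ q, h.toFun x ∈ K.cube q →
      ‖h1.toFun x - h.toFun x‖ ≤ (D.G C).om q) {k : M.κ} {s : K.S}
    (hk : AkP (D.G C) M h1 univ s k) {e : E.ε} (he : E.seg e ⊆ M.F k) (β : Bool) :
    (∀ b, (h.toFun '' E.seg e ∩ (D.G C).TB false b).Nonempty → b.ax = tg s β) ∨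
      ∀ x ∈ E.seg e, ¬ (K.slo s (tg s β) + (D.G C).a s ≤ h1.toFun x (tg s β) ∧
        h1.toFun x (tg s β) ≤ K.shi s (tg s β) - (D.G C).a s) := by
  by_cases hcase : ∀ b, (h.toFun '' E.seg e ∩ (D.G C).TB false b).Nonempty → b.ax = tg s β
  · exact Or.inl hcase
  right
  push Not at hcase
  obtain ⟨b, ⟨_, ⟨x₀, hx₀, rfl⟩, hxb⟩, hax⟩ := hcase
  intro x hx
  have hp := Geo.p_pos (G := D.G C) s
  have hpa := Geo.p_a (G := D.G C) s
  have hτ := (D.B C).τ_pos s
  have hoτ := (D.G C).oS_τ s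
  have hop := Vale.Agent.P073.H805.oS_p (D.G C) s
  have ho := Vale.Agent.P073.H805.oS_pos (D.G C) s
  have hx₀s := mem_PB_of_akP D C hn hk (he hx₀)
  obtain ⟨-, h2, h3, -⟩ := near_T1 D C hn (he hx₀) (by norm_num) hx₀s
  obtain ⟨h4, -⟩ := osc_T1 D C hn (he hx₀) (by norm_num) hx₀s (he hx)
  have hc1 : ∀ l, |h1.toFun x₀ l - h1.toFun x l| ≤ 4 * (D.G C).oS s := fun l =>
    (norm_le_pi_norm (h1.toFun x₀ - h1.toFun x) l).trans h4
  have hc2 : ∀ l, |h1.toFun x₀ l - h.toFun x₀ l| ≤ (D.G C).oS s := fun l =>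
    (norm_le_pi_norm (h1.toFun x₀ - h.toFun x₀) l).trans h2
  obtain ⟨ht, -⟩ := Geo.mem_PB.1 hx₀s
  have hss : h.toFun x₀ ∈ (D.W C).ss s := by
    refine mem_ss_of (G := D.G C) (fun l hl => ?_) (by linarith)
    have j1 := ht l hl
    have j2 := abs_le.1 (hc2 l)
    constructor <;> linarith
  have h5 := TB_side (G := D.G C) hss hxb (tg_ne s β) hax
  have j1 := abs_le.1 (hc1 (tg s β))
  have j2 := abs_le.1 (hc2 (tg s β))
  rintro ⟨h6, h7⟩
  rcases h5 with h5 | h5 <;> linarith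

end

end Vale.Agent.P073.H238
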