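import Vale.Agent.P073.H238.T12

/-!
# P073, H238: the integral of the derivative in a convex set is at most the variation
-/

open Set Metric Topology Filter MeasureTheory
open scoped ENNReal

namespace Vale.Agent.P073.H238

open _root_.P073 _root_.P073.Net _root_.P073.PA691
open Vale.Agent.P073.St (V)
open _root_.P073.Croft (varIn)

/-- the integral of the derivative is at most the variation -/
theorem varIn_le_evar {q : ℝ → V} {a b : ℝ} (hab : a ≤ b) (hq : ConicalOn q (Icc a b)) (i : Fin 3)
    {P : Set V} (hP : Convex ℝ P) :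
    varIn q i P a b ≤ eVariationOn (fun t => q t i) (Icc a b) := by
  have piece : ∀ x y : ℝ, x ≤ y → ∀ w : V, (∀ s ∈ Icc x y, q s = q x + (s - x) • w) →
      varIn q i P x y ≤ eVariationOn (fun t => q t i) (Icc x y) := by
    intro x y hxy w hw
    rw [Croft.piece_varIn hw hP]
    have h1 : volume ((q ⁻¹' P) ∩ Ioc x y) ≤ ENNReal.ofReal (y - x) := by
      rw [← Real.volume_Ioc]
      exact measure_mono inter_subset_right
    have h2 : ‖w i‖ₑ * ENNReal.ofReal (y - x) = edist (q y i) (q x i) := by
      rw [hw y (right_mem_Icc.2 hxy), edist_dist, Real.dist_eq, Real.enorm_eq_ofReal_abs,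
        ← ENNReal.ofReal_mul (abs_nonneg _)]
      congr 1
      rw [Pi.add_apply, Pi.smul_apply, smul_eq_mul, add_sub_cancel_left, abs_mul,
        abs_of_nonneg (sub_nonneg.2 hxy), mul_comm]
    calc _ ≤ ‖w i‖ₑ * ENNReal.ofReal (y - x) := mul_le_mul_right h1 _
      _ = edist (q y i) (q x i) := h2
      _ ≤ _ := eVariationOn.edist_le (fun t => q t i) (right_mem_Icc.2 hxy) (left_mem_Icc.2 hxy)
  refine icc_chain (P := fun x y => varIn q i P x y ≤ eVariationOn (fun t => q t i) (Icc x y))
    hab ?_ ?_ ?_ ?_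
  · refine piece a a le_rfl 0 ?_
    intro s hs
    rw [Icc_self, mem_singleton_iff] at hs
    subst hs; simp
  · intro x y z _ hxy hyz _ h1 h2
    have h3 := eVariationOn.Icc_add_Icc (fun t => q t i) hxy hyz (s := univ) (mem_univ y)
    simp only [univ_inter] at h3
    rw [Croft.varIn_add q i P hxy hyz, ← h3]
    exact add_le_add h1 h2
  · intro x hx hxb
    obtain ⟨r, hr, hrb, w, hw⟩ := conical_right' hq hx hxb
    exact ⟨r, hr, hrb, piece _ _ (by linarith) w hw⟩
  · intro x hx hax
    obtain ⟨r, hr, hra, w, hw⟩ := conical_left' hq hx hax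
    refine ⟨r, hr, hra, fun y hy => piece y x hy.2.le w ?_⟩
    intro s hs
    rw [hw s ⟨hy.1.le.trans hs.1, hs.2⟩, hw y ⟨hy.1.le, hy.2.le⟩]
    module

end Vale.Agent.P073.H238
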