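import Vale.Agent.P073.H238.StepA
import Vale.Agent.P073.H805.FB

/-!
# P073, H238 (A08, STEP S): faces, the set up of the iteration, the invariant
-/

open Set Metric Topology Filter

namespace Vale.Agent.P073.H238

open _root_.P073 _root_.P073.TR _root_.P073.SCH _root_.P073.H339

/-- a flat convex face -/
structure PFace (A : Set V) where
  o : V
  L : H579.P →ₗ[ℝ] V
  C : Set H579.P
  inj : Function.Injective L
  convex : Convex ℝ C
  compact : IsCompact C
  cone : LocCone C
  int : (interior C).Nonempty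
  eq : A = (fun w => o + L w) '' C

namespace PFace

variable {A : Set V}

/-- the chart -/
def ch (F : PFace A) (w : H579.P) : V := F.o + F.L w

theorem ch_mem (F : PFace A) {z : H579.P} (hz : z ∈ F.C) : F.ch z ∈ A :=
  F.eq.symm.subset ⟨z, hz, rfl⟩

theorem exists_ch (F : PFace A) {x : V} (hx : x ∈ A) : ∃ z ∈ F.C, F.ch z = x :=
  F.eq.subset hx

theorem ch_inj (F : PFace A) : Function.Injective F.ch := by
  intro z w h
  exact F.inj (add_left_cancel (h : F.o + F.L z = F.o + F.L w))

theorem continuous_ch (F : PFace A) : Continuous F.ch :=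
  continuous_const.add F.L.continuous_of_finiteDimensional

theorem ch_preimage (F : PFace A) : F.ch ⁻¹' A = F.C := by
  apply Subset.antisymm
  · intro z hz
    obtain ⟨w, hw, hwz⟩ := F.exists_ch hz
    rwa [← F.ch_inj hwz]
  · intro z hz
    exact F.ch_mem hz

/-- the chart as an affine map -/
def aff (F : PFace A) : H579.P →ᵃ[ℝ] V where
  toFun := F.ch
  linear := F.L
  map_vadd' := fun z w => by
    show F.o + F.L (w + z) = F.L w + (F.o + F.L z)
    rw [map_add]; abel

theorem conicalOn_ch (F : PFace A) : ConicalOn F.ch F.C :=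
  conicalOn_of_affine F.aff F.cone.conicalSet

/-- the chart as a conical homeomorphism -/
noncomputable def hom (F : PFace A) : ConHomeo F.C A :=
  ConHomeo.ofCompact F.compact F.ch F.continuous_ch.continuousOn F.ch_inj.injOn
    F.conicalOn_ch F.eq.symm

theorem hom_toFun (F : PFace A) : F.hom.toFun = F.ch :=
  ConHomeo.ofCompact_toFun _ _ _ _ _ _

/-- discs of the chart are discs -/
theorem conBall (F : PFace A) {E : Set H579.P} (hE : AmbDisc E) (hEC : E ⊆ F.C) :
    ConBall 2 (F.ch '' E) (F.ch '' frontier E) := by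
  obtain ⟨Φ, hΦ⟩ := hE
  have h1 : H339.AmbDisc E (frontier E) := ⟨Φ, hΦ, by
    rw [← frontier_square, Φ.image_frontier, hΦ]⟩
  have := (H339.AmbDisc.conBall h1).image F.hom hEC
  rwa [F.hom_toFun] at this

/-- points of a set near a point of the face with locally the same points come from the chart -/
theorem eventually_of_chart (F : PFace A) {z : H579.P} {p : V → Prop}
    (h : ∀ᶠ w in 𝓝 z, p (F.ch w)) : ∀ᶠ y in 𝓝 (F.ch z), y ∈ A → p y := by
  obtain ⟨k, hk⟩ := LinearMap.exists_leftInverse_of_injective F.L (LinearMap.ker_eq_bot.2 F.inj)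
  have hkL : ∀ w, k (F.L w) = w := fun w => by
    have := LinearMap.congr_fun hk w
    simpa using this
  have hkc : Continuous k := k.continuous_of_finiteDimensional
  have h1 : ContinuousAt (fun y : V => k (y - F.o)) (F.ch z) := by
    apply Continuous.continuousAt; fun_prop
  have h2 : k (F.ch z - F.o) = z := by
    show k (F.o + F.L z - F.o) = z
    rw [add_sub_cancel_left, hkL]
  have h3 : ∀ᶠ y in 𝓝 (F.ch z), p (F.ch (k (y - F.o))) := by
    have h4 : Tendsto (fun y : V => k (y - F.o)) (𝓝 (F.ch z)) (𝓝 z) := by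
      have := h1.tendsto
      simp only [h2] at this
      exact this
    exact h4.eventually h
  filter_upwards [h3] with y hy hyA
  obtain ⟨w, hw, rfl⟩ := F.exists_ch hyA
  have h4 : k (F.ch w - F.o) = w := by
    show k (F.o + F.L w - F.o) = w
    rw [add_sub_cancel_left, hkL]
  rwa [h4] at hy

end PFace

/-- regular levels with disjoint traces on a face -/
theorem fam_of {Ω Λ : Set V} (hΩ : IsOpen Ω) (h : ConHomeo Ω Λ) {A : Set V} (F : PFace A)
    (hA : A ⊆ Ω) {Lv : Set (Fin 3 × ℝ)} (hfin : Lv.Finite)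
    (hreg : ∀ x ∈ A, ∀ q ∈ Lv, h.toFun x q.1 = q.2 →
      H805.Reg (fun y => h.toFun y q.1) (fun _ : Unit => A) x)
    (hdisj : ∀ x ∈ A, ∀ q ∈ Lv, ∀ q' ∈ Lv, h.toFun x q.1 = q.2 → h.toFun x q'.1 = q'.2 → q = q') :
    Fam F.C (fun i z => h.toFun (F.ch z) i) Lv := by
  refine ⟨hfin, fun q hq => ⟨fun z hz => ?_, fun z hz => ?_, finite_singleton _,
    fun z hz hzL => ?_⟩, fun z hz => hdisj _ (F.ch_mem hz)⟩
  · have h1 : ContinuousAt h.toFun (F.ch z) :=
      h.cont.continuousAt (hΩ.mem_nhds (hA (F.ch_mem hz)))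
    have h2 : ContinuousAt (fun w => h.toFun (F.ch w)) z :=
      ContinuousAt.comp (g := h.toFun) h1 F.continuous_ch.continuousAt
    exact (continuous_apply q.1).continuousAt.comp h2
  · have h1 : ConicalAt (fun y => h.toFun y q.1) (F.ch z) :=
      (h.conical.linear_comp (LinearMap.proj q.1 : (Fin 3 → ℝ) →ₗ[ℝ] ℝ)).conicalAt hΩ
        (hA (F.ch_mem hz))
    exact H579.ConicalAt.comp_chart h1
  · obtain ⟨σ, r, hb⟩ := hreg _ (F.ch_mem hz) q hq hzL
    obtain ⟨σ', r', -, h'⟩ := H579.FlowBox.pull (i₀ := ()) F.inj F.eq hz hb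
    refine ⟨σ', r', ?_⟩
    have h3 : (fun w => F.o + F.L w) ⁻¹' A = F.C := F.ch_preimage
    rw [h3] at h'
    exact h'

end Vale.Agent.P073.H238
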