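import Vale.Agent.P073.H238.TSep
import Vale.Agent.P073.H345.Stage2
import Vale.Agent.P073.H236.GeoT

/-!
# P073, H238 (A14.19): the hypothesis of STAGE 2 (H345) from stage 1
-/

open Set Metric Topology Filter

namespace Vale.Agent.P073.H238

open _root_.P073 _root_.P073.TR _root_.P073.SCH _root_.P073.H339 _root_.P073.Net _root_.P073.PA691
open _root_.P073.PR720 (LF)
open Vale.Agent.P073.H471 Vale.Agent.P073.H267 Vale.Agent.P073.H267.Geo
open Vale.Agent.P073.H73 (Mesh)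
open Vale.Agent.P073.H193 (Edges)

variable {Ω Λ : Set V} {v : V} {K : BoxCx Λ v} {S : Rad K} {W : Wid K S} {B : Boxes W}

/-- the set of levels -/
def lset {G : Geo B} (Lv : _root_.P073.H236.TLev G) (b : TBx K) : Set ℝ :=
  {t | ∃ m < Lv.N b, t = Lv.a b m}

/-- two boxes meet only in their end planes -/
theorem TB_meet (G : Geo B) {b b' : TBx K} (hne : b ≠ b') {y : V} (hy : y ∈ G.TB false b)
    (hy' : y ∈ G.TB false b') : y b.ax ≤ G.tlo true b b.ax ∨ G.thi true b b.ax ≤ y b.ax := by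
  rcases b with e | h <;> rcases b' with e' | h'
  · exact absurd hy' ((disjoint_TB_inl (fun hh => hne (by rw [hh]))).notMem_of_mem_left hy)
  · obtain ⟨hd, hj⟩ := junction hy hy'
    have e1 : G.tlo true (.inl e) (TBx.ax (.inl e)) = K.w (K.a e) (K.dir e) + G.be (K.a e) := by
      simp [Geo.tlo, TBx.ax]
    have e2 : G.thi true (.inl e) (TBx.ax (.inl e)) = K.w (K.b e) (K.dir e) - G.be (K.b e) := by
      simp [Geo.thi, TBx.ax]
    rw [e1, e2]
    show y (K.dir e) ≤ _ ∨ _ ≤ y (K.dir e)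
    rw [hd]
    rcases hj with ⟨hi, hj⟩ | ⟨hi, hj⟩
    · left; rw [hj, hi]
    · right; rw [hj, hi]
  · obtain ⟨hd, hj⟩ := junction hy' hy
    have e1 : G.tlo true (.inr h) (TBx.ax (.inr h)) = K.w h.i h.l - G.be h.i := by
      simp [Geo.tlo, TBx.ax]
    have e2 : G.thi true (.inr h) (TBx.ax (.inr h)) = K.w h.i h.l + G.be h.i := by
      simp [Geo.thi, TBx.ax]
    rw [e1, e2]
    show y h.l ≤ _ ∨ _ ≤ y h.l
    rcases hj with ⟨hi, hj⟩ | ⟨hi, hj⟩
    · right; rw [hj]
    · left; rw [hj]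
  · exfalso
    by_cases hi : h.i = h'.i
    · have hs : h.s ≠ h'.s := fun hs => hne (by rw [hang_eq hi hs])
      exact (disjoint_ss (W := W) hs).notMem_of_mem_left
        (Zs_subset (TB_subset_Zs h hy)) (Zs_subset (TB_subset_Zs h' hy'))
    · have hb := G.be_pos h.i
      have hb' := G.be_pos h'.i
      have h32 := G.be_r h.i
      have h32' := G.be_r h'.i
      refine (S.U_disj _ _ hi).notMem_of_mem_left
        (closedBall_subset_closedBall (by linarith) (TB_inr_ball h hy))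
        (closedBall_subset_closedBall (by linarith) (TB_inr_ball h' hy'))

/-- the boxes of H236 form a family in the sense of H345 -/
theorem fam345 {G : Geo B} (hΛ : IsOpen Λ) (Lv : _root_.P073.H236.TLev G) :
    _root_.P073.H345.Fam Λ Lv.bx where
  op := hΛ
  sub := fun b => (Lv.K_sub b).trans (TB_sub b)
  dis := fun b b' hne y hy hy' => TB_meet G hne (Lv.K_sub b hy) (Lv.K_sub b' hy')
  lf := fun z hz => by
    obtain ⟨U, hU, hf⟩ := lf_TB G z hz
    refine ⟨U, hU, hf.subset ?_⟩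
    rintro b ⟨x, hx, hxU⟩
    exact ⟨x, Lv.K_sub b hx, hxU⟩

/-- **STAGE 1 ⟹ hypothesis of STAGE 2** -/
theorem regB {G : Geo B} {M : Mesh Ω} {E : Edges M} {h h' : ConHomeo Ω Λ} {Pr : Set M.ι}
    {Lv : _root_.P073.H236.TLev G} {ω : TBx K → ℝ} (O : TStage1 G M h h' Pr (lset Lv) ω)
    (T : TLev G M h (lset Lv) ω)
    (hr : ∀ k b, (∃ x ∈ M.F k, h.toFun x ∈ G.TB false b) → ∀ x ∈ M.F k,
      h.toFun x b.ax ∈ lset Lv b →
      H805.Reg (fun y => h.toFun y b.ax) (_root_.P073.H345.fam M E) x) :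
    _root_.P073.H345.RegB M E h' Lv.bx := by
  rintro k b ⟨_, hK, x₀, hx₀, rfl⟩ m hm x hx hxa
  exact O.regB T hr k b ⟨x₀, hx₀, Lv.K_sub b hK⟩ x hx ⟨m, hm, hxa⟩

end Vale.Agent.P073.H238
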