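import Vale.Agent.P073.H345.RoundP
import Vale.Agent.P073.H238.P12A
import Vale.Agent.P073.H238.VarEv
import Vale.Agent.P073.H267.RoundDefs

/-!
# P073, H238: **[NUM-P]**, the numbers of ROUND P

`We3_le_b`: the weight `We3 L e` (H345) of an edge is at most `12 C₀ (|h(e)| + ε e)`; `La_le_b`: the
same for the constant of the edge maps; `Lf_le_b`: the constant of the face maps.
-/

open Set Metric Topology Filter MeasureTheory
open scoped ENNReal

namespace Vale.Agent.P073.H238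

open _root_.P073 _root_.P073.Net _root_.P073.PA691
open Vale.Agent.P073.St (V)
open Vale.Agent.P073.H471 Vale.Agent.P073.H267
open Vale.Agent.P073.H73 (Mesh onSeg)
open Vale.Agent.P073.H193 (Edges)
open Vale.Agent.P073.H669 (PLv PK_convex)
open Vale.Agent.P073.H805 (near_T1 osc_T1)
open _root_.P073.Croft (varIn onS cross levs)
open _root_.P073.H267 (TNum TOut tvE lenE)
open _root_.P073.H142 (FStar)
open _root_.P073.H345 (tg tg_ne PK PB_sub_PK PLev We3 nrm_PK)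
open _root_.P073.H579 (laE)

section

variable {η₀ : ℝ} {Ω Λ : Set V} {w : V} {ρ : V → ℝ} {M : Mesh Ω} {h h1 : ConHomeo Ω Λ}
  {P : Set M.ι} {K : BoxCx Λ w} {E : Edges M}

section pos

variable (D : KIn η₀ w ρ M h P) (C : Cells ρ w K)

include D C

/-- position of a face with a point in `PK s` -/
theorem at_PK (hn : ∀ k, ∀ x ∈ M.F k, ∀ q, h.toFun x ∈ K.cube q →
      ‖h1.toFun x - h.toFun x‖ ≤ (D.G C).om q) {k : M.κ} {s : K.S} {x : V} (hx : x ∈ M.F k)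
    (hxs : h1.toFun x ∈ PK (D.G C) s) {y : V} (hy : y ∈ M.F k) :
    ((∀ l, l ≠ K.nrm s → K.slo s l + 5 / 8 * (D.G C).p s ≤ h1.toFun y l ∧
      h1.toFun y l ≤ K.shi s l - 5 / 8 * (D.G C).p s) ∧
      |h1.toFun y (K.nrm s) - K.slo s (K.nrm s)| ≤ (D.B C).τ s) ∧
    ((∀ l, l ≠ K.nrm s → K.slo s l + 5 / 8 * (D.G C).p s ≤ h.toFun y l ∧
      h.toFun y l ≤ K.shi s l - 5 / 8 * (D.G C).p s) ∧
      |h.toFun y (K.nrm s) - K.slo s (K.nrm s)| ≤ (D.B C).τ s) ∧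
    (∀ l, |h1.toFun x l - h1.toFun y l| ≤ 4 * (D.G C).oS s) ∧
    ∀ l, |h1.toFun y l - h.toFun y l| ≤ (D.G C).oS s := by
  have hp := Geo.p_pos (G := D.G C) s
  have hτ := (D.B C).τ_pos s
  have hoτ := (D.G C).oS_τ s
  have hop := Vale.Agent.P073.H805.oS_p (D.G C) s
  have ho := Vale.Agent.P073.H805.oS_pos (D.G C) s
  have h0 := nrm_PK D C hn hx hxs
  have hx34 : h1.toFun x ∈ (D.G C).PB (3 / 4) s := by
    rw [Geo.mem_PB]
    exact ⟨hxs.1, by linarith⟩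
  obtain ⟨h4, -⟩ := osc_T1 D C hn hx (by norm_num) hx34 hy
  have hco : ∀ l, |h1.toFun x l - h1.toFun y l| ≤ 4 * (D.G C).oS s := fun l =>
    (norm_le_pi_norm (h1.toFun x - h1.toFun y) l).trans h4
  have ht : ∀ l, l ≠ K.nrm s → K.slo s l + 3 / 4 * (D.G C).p s - 4 * (D.G C).oS s ≤
      h1.toFun y l ∧ h1.toFun y l ≤ K.shi s l - 3 / 4 * (D.G C).p s + 4 * (D.G C).oS s := by
    intro l hl
    have j1 := hxs.1 l hl
    have j2 := abs_le.1 (hco l)
    constructor <;> linarith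
  have hn1 : |h1.toFun y (K.nrm s) - K.slo s (K.nrm s)| ≤ (D.B C).τ s / 4 +
      4 * (D.G C).oS s := by
    have j1 := abs_le.1 (hco (K.nrm s))
    have j3 := abs_le.1 h0
    rw [abs_le]
    constructor <;> linarith
  have hy12 : h1.toFun y ∈ (D.G C).PB (1 / 2) s := by
    rw [Geo.mem_PB]
    refine ⟨fun l hl => ?_, by linarith⟩
    have := ht l hl
    constructor <;> linarith
  obtain ⟨-, h5, -, -⟩ := near_T1 D C hn hy (by norm_num) hy12
  have hc2 : ∀ l, |h1.toFun y l - h.toFun y l| ≤ (D.G C).oS s := fun l =>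
    (norm_le_pi_norm (h1.toFun y - h.toFun y) l).trans h5
  refine ⟨⟨fun l hl => ?_, by linarith⟩, ⟨fun l hl => ?_, ?_⟩, hco, hc2⟩
  · have := ht l hl
    constructor <;> linarith
  · have j1 := ht l hl
    have j2 := abs_le.1 (hc2 l)
    constructor <;> linarith
  · have j1 := abs_le.1 (hc2 (K.nrm s))
    have j2 := abs_le.1 hn1
    rw [abs_le]
    constructor <;> linarith

/-- one square for each face -/
theorem at_PK_unique (hn : ∀ k, ∀ x ∈ M.F k, ∀ q, h.toFun x ∈ K.cube q →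
      ‖h1.toFun x - h.toFun x‖ ≤ (D.G C).om q) {k : M.κ} {s s' : K.S} {x x' : V}
    (hx : x ∈ M.F k) (hxs : h1.toFun x ∈ PK (D.G C) s) (hx' : x' ∈ M.F k)
    (hxs' : h1.toFun x' ∈ PK (D.G C) s') : s = s' := by
  obtain ⟨⟨h2, h3⟩, -⟩ := at_PK D C hn hx hxs hx
  obtain ⟨⟨h4, h5⟩, -⟩ := at_PK D C hn hx' hxs' hx
  by_contra hne
  exact (disjoint_ss (W := D.W C) hne).notMem_of_mem_left (mem_ss_of (G := D.G C) h2 h3)
    (mem_ss_of (G := D.G C) h4 h5)

/-- **the levels near a plate and the boxes of round T** -/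
theorem dichK (hn : ∀ k, ∀ x ∈ M.F k, ∀ q, h.toFun x ∈ K.cube q →
      ‖h1.toFun x - h.toFun x‖ ≤ (D.G C).om q) {e : E.ε} {s : K.S} {x₁ : V}
    (hx₁ : x₁ ∈ E.seg e) (hx₁s : h1.toFun x₁ ∈ PK (D.G C) s) (β : Bool) :
    (∀ b, (h.toFun '' E.seg e ∩ (D.G C).TB false b).Nonempty → b.ax = tg s β) ∨
      ∀ x ∈ E.seg e, ¬ (K.slo s (tg s β) + (D.G C).a s ≤ h1.toFun x (tg s β) ∧
        h1.toFun x (tg s β) ≤ K.shi s (tg s β) - (D.G C).a s) := by
  obtain ⟨k, hk⟩ := E.own e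
  by_cases hcase : ∀ b, (h.toFun '' E.seg e ∩ (D.G C).TB false b).Nonempty → b.ax = tg s β
  · exact Or.inl hcase
  right
  push Not at hcase
  obtain ⟨b, ⟨_, ⟨x₀, hx₀, rfl⟩, hxb⟩, hax⟩ := hcase
  intro x hx
  have hp := Geo.p_pos (G := D.G C) s
  have hpa := Geo.p_a (G := D.G C) s
  have hop := Vale.Agent.P073.H805.oS_p (D.G C) s
  have ho := Vale.Agent.P073.H805.oS_pos (D.G C) s
  obtain ⟨-, ⟨h2, h3⟩, h4, h5⟩ := at_PK D C hn (hk hx₁) hx₁s (hk hx₀)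
  obtain ⟨-, -, h6, -⟩ := at_PK D C hn (hk hx₁) hx₁s (hk hx)
  have h7 := TB_side (G := D.G C) (mem_ss_of (G := D.G C) h2 h3) hxb (tg_ne s β) hax
  have j1 := abs_le.1 (h4 (tg s β))
  have j2 := abs_le.1 (h5 (tg s β))
  have j3 := abs_le.1 (h6 (tg s β))
  rintro ⟨h8, h9⟩
  rcases h7 with h7 | h7 <;> linarith

end pos

/-! ### the weights -/

variable (D : KIn η₀ w ρ M h P) (C : Cells ρ w K)
  {sl : TBx K → Finset (ℝ × ℝ)} {η : ℝ} {τ : Type*} {A : τ → Set V} {Cs : Set ℝ} {εE : E.ε → ℝ}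
  {μ δ : K.S → ℝ} (L : PLv (D.G C) E h1 P sl η A Cs εE μ δ)

/-- no weight if the edge does not meet `PK s` -/
theorem wtP_eq_zero {e : E.ε} {i : K.S × Bool}
    (hi : ∀ x ∈ E.seg e, h1.toFun x ∉ PK (D.G C) i.1) :
    L.lev.wtP E h1 (fun i => PK (D.G C) i.1) e i = 0 := by
  have h0 : L.lev.crP E h1 (fun i => PK (D.G C) i.1) e i = ∅ := by
    rw [eq_empty_iff_forall_notMem]
    rintro t ⟨ht, htP, -⟩
    refine hi (E.a e + t • (E.b e - E.a e)) ?_ htP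
    rw [Edges.seg, segment_eq_image']
    exact ⟨t, ht, rfl⟩
  unfold PLev.wtP
  rw [h0]
  simp [cnt]

/-- the weights of an edge at a plate, one direction -/
theorem wtP_oneK (hn : ∀ k, ∀ x ∈ M.F k, ∀ q, h.toFun x ∈ K.cube q →
      ‖h1.toFun x - h.toFun x‖ ≤ (D.G C).om q) {C₀ : ℝ} {ε : E.ε → ℝ}
    (htv : ∀ e j, (∀ b, (h.toFun '' E.seg e ∩ (D.G C).TB false b).Nonempty → b.ax = j) →
      tvE E h1.toFun e j ≤ ENNReal.ofReal C₀ * lenE E h.toFun e + ENNReal.ofReal (ε e))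
    {e : E.ε} {s : K.S} {x₁ : V} (hx₁ : x₁ ∈ E.seg e) (hx₁s : h1.toFun x₁ ∈ PK (D.G C) s)
    (β : Bool) : L.lev.wtP E h1 (fun i => PK (D.G C) i.1) e (s, β) ≤
      ENNReal.ofReal 2 * (ENNReal.ofReal 2 * (ENNReal.ofReal C₀ * lenE E h.toFun e +
        ENNReal.ofReal (ε e)) + ENNReal.ofReal (εE e)) := by
  rcases dichK D C hn hx₁ hx₁s β with h2 | h2
  · have h3 := L.lev.wtP_le (K₁ := 2) (L.crs e) (by norm_num) (s, β) (L.om_le_two s β)
    refine h3.trans (mul_le_mul_right (add_le_add (mul_le_mul' (ENNReal.ofReal_le_ofReal ?_) ?_)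
      le_rfl) _)
    · have h4 := L.η4
      have h5 := L.η0
      rw [inv_le_iff_one_le_mul₀ (by linarith)]
      linarith
    · refine le_trans ?_ (htv e (tg s β) h2)
      exact varIn_le_evar zero_le_one (Croft.conicalOn_onS h1.conical (E.seg_sub_Ω e)) (tg s β)
        (PK_convex (D.G C) s)
  · have h0 : L.lev.crP E h1 (fun i => PK (D.G C) i.1) e (s, β) = ∅ := by
      rw [eq_empty_iff_forall_notMem]
      rintro t ⟨ht, -, htl⟩
      have hx : E.a e + t • (E.b e - E.a e) ∈ E.seg e := by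
        rw [Edges.seg, segment_eq_image']
        exact ⟨t, ht, rfl⟩
      refine h2 _ hx (L.win s (tg s β) (tg_ne s β) _ ?_)
      exact L.mem_levs.1 htl
    unfold PLev.wtP
    rw [h0]
    simp [cnt]

/-- **the weights of an edge** -/
theorem tsum_wtP_all (hn : ∀ k, ∀ x ∈ M.F k, ∀ q, h.toFun x ∈ K.cube q →
      ‖h1.toFun x - h.toFun x‖ ≤ (D.G C).om q) {C₀ : ℝ} {ε : E.ε → ℝ}
    (htv : ∀ e j, (∀ b, (h.toFun '' E.seg e ∩ (D.G C).TB false b).Nonempty → b.ax = j) →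
      tvE E h1.toFun e j ≤ ENNReal.ofReal C₀ * lenE E h.toFun e + ENNReal.ofReal (ε e))
    (e : E.ε) : ∑' i, L.lev.wtP E h1 (fun i => PK (D.G C) i.1) e i ≤
      ENNReal.ofReal 4 * (ENNReal.ofReal 2 * (ENNReal.ofReal C₀ * lenE E h.toFun e +
        ENNReal.ofReal (ε e)) + ENNReal.ofReal (εE e)) := by
  classical
  by_cases hex : ∃ s, ∃ x ∈ E.seg e, h1.toFun x ∈ PK (D.G C) s
  · obtain ⟨s, x, hx, hxs⟩ := hex
    rw [tsum_eq_sum (s := ({(s, true), (s, false)} : Finset (K.S × Bool))) (fun i hi => ?_)]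
    · rw [Finset.sum_pair (by simp)]
      refine (add_le_add (wtP_oneK D C L hn htv hx hxs true)
        (wtP_oneK D C L hn htv hx hxs false)).trans (le_of_eq ?_)
      rw [← two_mul, ← mul_assoc, show (2:ℝ≥0∞) = ENNReal.ofReal 2 by simp,
        ← ENNReal.ofReal_mul (by norm_num)]
      norm_num
    · refine wtP_eq_zero D C L fun y hy hys => hi ?_
      obtain ⟨k, hk⟩ := E.own e
      have h1 := at_PK_unique D C hn (hk hx) hxs (hk hy) hys
      obtain ⟨s', β⟩ := i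
      dsimp only at h1
      subst h1
      cases β <;> simp
  · push Not at hex
    rw [ENNReal.tsum_eq_zero.2 fun i => wtP_eq_zero D C L fun y hy => hex i.1 y hy]
    exact zero_le

/-- **[NUM-P]**, the weights -/
theorem We3_le_b {T : ∀ k, FStar E k} {C₀ μ₁ : ℝ} {ε LaT : E.ε → ℝ} {Lf : M.κ → E.ε → ℝ}
    {Lam1 : M.κ → ℝ} (HT : TOut (D.G C) M E ρ w P h h1 (ωT η₀ C) T C₀ μ₁ ε LaT Lf Lam1 sl)
    (hC₀ : 1 ≤ C₀) (hε : ∀ e, 0 < ε e) (hεE : ∀ e, 0 < εE e) (hεEε : ∀ e, εE e ≤ ε e)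
    (e : E.ε) : We3 L e ≤ 12 * C₀ * ((lenE E h.toFun e).toReal + ε e) := by
  have h4 := tsum_wtP_all D C L HT.near HT.tv e
  have h6 : (0:ℝ) ≤ (lenE E h.toFun e).toReal := ENNReal.toReal_nonneg
  have h8 := hε e
  have h9 := hεE e
  have h10 := hεEε e
  have hlt : lenE E h.toFun e ≠ ⊤ :=
    (conical_len_lt_top zero_le_one (Croft.conicalOn_onS h.conical (E.seg_sub_Ω e))).ne
  unfold We3 PLev.WeP
  rw [one_mul]
  refine ENNReal.toReal_le_of_le_ofReal (by positivity) (h4.trans ?_)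
  rw [← ENNReal.ofReal_toReal hlt, ENNReal.toReal_ofReal h6]
  set ℓ := (lenE E h.toFun e).toReal
  rw [← ENNReal.ofReal_mul (by linarith), ← ENNReal.ofReal_add (by positivity) h8.le,
    ← ENNReal.ofReal_mul (by norm_num), ← ENNReal.ofReal_add (by positivity) h9.le,
    ← ENNReal.ofReal_mul (by norm_num)]
  refine ENNReal.ofReal_le_ofReal ?_
  have h11 : ε e ≤ C₀ * ε e := by nlinarith
  have h12 : 0 ≤ C₀ * ℓ := by positivity
  nlinarith

/-- **[NUM-P]**, the constants of the edges -/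
theorem La_le_b {T : ∀ k, FStar E k} {C₀ μ₁ : ℝ} {ε b LaT : E.ε → ℝ} {Lf : M.κ → E.ε → ℝ}
    {Lam1 : M.κ → ℝ} (HN : TNum M E h.toFun T C₀ ε b LaT Lf)
    (HT : TOut (D.G C) M E ρ w P h h1 (ωT η₀ C) T C₀ μ₁ ε LaT Lf Lam1 sl)
    (hC₀ : 1 ≤ C₀) (hε : ∀ e, 0 < ε e) (hεE : ∀ e, 0 < εE e) (hεEε : ∀ e, εE e ≤ ε e)
    (e : E.ε) : max (laE E (We3 L) e) (16 * LaT e) * ‖E.b e - E.a e‖ ≤
      96 * C₀ * ((lenE E h.toFun e).toReal + ε e) := by
  have hne : 0 < ‖E.b e - E.a e‖ := norm_pos_iff.2 (sub_ne_zero.2 (E.ne e).symm)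
  have h3 := We3_le_b D C L HT hC₀ hε hεE hεEε e
  have h4 := HN.La_le e
  have hlt : lenE E h.toFun e ≠ ⊤ :=
    (conical_len_lt_top zero_le_one (Croft.conicalOn_onS h.conical (E.seg_sub_Ω e))).ne
  have h6 : (0:ℝ) ≤ (lenE E h.toFun e).toReal := ENNReal.toReal_nonneg
  have h7 := hε e
  have h5 : b e ≤ (lenE E h.toFun e).toReal + ε e := by
    rw [← ENNReal.ofReal_le_ofReal_iff (by positivity), ENNReal.ofReal_add h6 h7.le,
      ENNReal.ofReal_toReal hlt]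
    exact HN.b_le e
  have h8 : laE E (We3 L) e * ‖E.b e - E.a e‖ = 8 * We3 L e := by
    unfold laE; exact div_mul_cancel₀ _ hne.ne'
  rw [max_mul_of_nonneg _ _ (norm_nonneg _), h8]
  refine max_le (by linarith) ?_
  have h9 : C₀ * b e ≤ C₀ * ((lenE E h.toFun e).toReal + ε e) :=
    mul_le_mul_of_nonneg_left h5 (by linarith)
  have h10 : 0 ≤ C₀ * ((lenE E h.toFun e).toReal + ε e) := by positivity
  calc 16 * LaT e * ‖E.b e - E.a e‖ = 16 * (LaT e * ‖E.b e - E.a e‖) := by ring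
    _ ≤ 16 * (C₀ * ((lenE E h.toFun e).toReal + ε e)) := by linarith
    _ ≤ _ := by linarith

/-- the constant on the cones is monotone -/
theorem con_mono' {k : M.κ} (T : FStar E k) {C₁ C₂ : ℝ} (hC : 0 ≤ C₁) (hCC : C₁ ≤ C₂)
    {b b' : E.ε → ℝ} (hb0 : ∀ e, 0 ≤ b e) (hb : ∀ e, b e ≤ b' e) (e : E.ε) :
    T.con C₁ b e ≤ T.con C₂ b' e := by
  unfold FStar.con
  have hρ : 0 < T.rho := T.star.rho0
  have h1 : b e / ‖E.b e - E.a e‖ ≤ b' e / ‖E.b e - E.a e‖ :=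
    div_le_div_of_nonneg_right (hb e) (norm_nonneg _)
  have h2 : (∑ e ∈ (E.fin_face k).toFinset, b e) / T.rho ≤
      (∑ e ∈ (E.fin_face k).toFinset, b' e) / T.rho :=
    div_le_div_of_nonneg_right (Finset.sum_le_sum fun e _ => hb e) hρ.le
  have h3 : 0 ≤ b e / ‖E.b e - E.a e‖ := div_nonneg (hb0 e) (norm_nonneg _)
  have h4 : 0 ≤ (∑ e ∈ (E.fin_face k).toFinset, b e) / T.rho :=
    div_nonneg (Finset.sum_nonneg fun e _ => hb0 e) hρ.le
  exact mul_le_mul hCC (add_le_add h1 h2) (add_nonneg h3 h4) (hC.trans hCC)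

/-- `TNum` with the number `|h(e)| + ε e` for the edge `e` -/
theorem TNum.toLen {T : ∀ k, FStar E k} {C₀ : ℝ} {ε b LaT : E.ε → ℝ} {Lf : M.κ → E.ε → ℝ}
    (HN : TNum M E h.toFun T C₀ ε b LaT Lf) (hC₀ : 0 ≤ C₀) (hε : ∀ e, 0 < ε e) :
    TNum M E h.toFun T C₀ ε (fun e => (lenE E h.toFun e).toReal + ε e) LaT Lf := by
  have hlt : ∀ e, lenE E h.toFun e ≠ ⊤ := fun e =>
    (conical_len_lt_top zero_le_one (Croft.conicalOn_onS h.conical (E.seg_sub_Ω e))).ne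
  have heq : ∀ e, ENNReal.ofReal ((lenE E h.toFun e).toReal + ε e) =
      lenE E h.toFun e + ENNReal.ofReal (ε e) := fun e => by
    rw [ENNReal.ofReal_add ENNReal.toReal_nonneg (hε e).le, ENNReal.ofReal_toReal (hlt e)]
  have hpos : ∀ e, 0 < (lenE E h.toFun e).toReal + ε e := fun e =>
    add_pos_of_nonneg_of_pos ENNReal.toReal_nonneg (hε e)
  have hb : ∀ e, b e ≤ (lenE E h.toFun e).toReal + ε e := fun e => by
    rw [← ENNReal.ofReal_le_ofReal_iff (hpos e).le, heq]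
    exact HN.b_le e
  refine ⟨hpos, fun e => (heq e).le, HN.La_nonneg, fun e => ?_, HN.Lf_nonneg, fun k e he => ?_⟩
  · exact (HN.La_le e).trans (mul_le_mul_of_nonneg_left (hb e) hC₀)
  · have hq : 0 ≤ (T k).R / (T k).rho := div_nonneg (T k).R0 (T k).star.rho0.le
    exact (HN.Lf_le k e he).trans (con_mono' (T k) (by positivity) le_rfl
      (fun e => (HN.b_pos e).le) hb e)

end

end Vale.Agent.P073.H238
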