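import Vale.Agent.P073.H238.StepB

/-!
# P073, H238 (A08, STEP S): hulls; the set up of the iteration and the invariant
-/

open Set Metric Topology Filter

namespace Vale.Agent.P073.H238

open _root_.P073 _root_.P073.TR _root_.P073.SCH _root_.P073.H339

/-- a compact set is in every closed convex set which contains its frontier -/
theorem subset_of_frontier {S Q : Set V} (hS : IsCompact S) (hQ : Convex ℝ Q) (hQc : IsClosed Q)
    (hne : Q.Nonempty) (hf : frontier S ⊆ Q) : S ⊆ Q := by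
  intro y hy
  by_contra hyQ
  obtain ⟨f, u, h1, h2⟩ := geometric_hahn_banach_closed_point hQ hQc hyQ
  have hf0 : f ≠ 0 := by
    rintro rfl
    obtain ⟨z, hz⟩ := hne
    have := h1 z hz
    have h3 : (0 : V →L[ℝ] ℝ) y = 0 := rfl
    have h4 : (0 : V →L[ℝ] ℝ) z = 0 := rfl
    rw [h3] at h2; rw [h4] at this
    linarith
  have hconv : Convex ℝ {z : V | u < f z} := convex_halfSpace_gt (f.toLinearMap.isLinear) u
  have hdis : ∀ z ∈ {z : V | u < f z}, z ∉ frontier S := fun z hz hz' =>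
    lt_asymm (h1 z (hf hz')) hz
  rcases hconv.isPreconnected.subset_or_subset isOpen_interior hS.isClosed.isOpen_compl (by
      rw [Set.disjoint_left]; intro w h3 h4; exact h4 (interior_subset h3)) (by
      intro w hw
      by_cases h3 : w ∈ S
      · left
        by_contra h4
        exact hdis w hw ⟨subset_closure h3, h4⟩
      · exact Or.inr h3) with h3 | h3
  · exact unbounded_halfspace f h2 hf0 (hS.isBounded.subset (h3.trans interior_subset))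
  · exact h3 h2 hy

namespace Rem

variable {i : Fin 3} {t s : ℝ} {E κ D b : Set V}

theorem frontier_sub (h : Rem i t s E κ D b) : frontier b ⊆ D ∪ E := by
  intro y hy
  by_contra h1
  have h2 : y ∈ b \ (D ∪ E) := ⟨h.isClosed_b.frontier_subset hy, h1⟩
  exact hy.2 (mem_interior.2 ⟨_, sdiff_subset, h.inner.1, h2⟩)

/-- the planar disc is in the hull of its boundary -/
theorem hullD (h : Rem i t s E κ D b) {Q : Set V} (hQ : Convex ℝ Q) (hQc : IsClosed Q)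
    (hκQ : κ ⊆ Q) : D ⊆ Q := by
  have hκP : κ ⊆ Pl i t := h.hD.1.trans h.DP
  intro y hy
  by_contra hyQ
  obtain ⟨f, u, h1, h2⟩ := geometric_hahn_banach_closed_point hQ hQc hyQ
  obtain ⟨z, hz⟩ := h.hE.conSphere.nonempty
  set v : V := y - z with hv
  have hvi : v i = 0 := by
    have e1 : y i = t := h.DP hy
    have e2 : z i = t := hκP hz
    show y i - z i = 0
    rw [e1, e2, sub_self]
  have hfv : 0 < f v := by
    have := h1 z (hκQ hz)
    rw [hv, map_sub]; linarith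
  have hv0 : v ≠ 0 := by
    intro h; rw [h, map_zero] at hfv; exact lt_irrefl _ hfv
  have hA : Disjoint ((fun r : ℝ => y + r • v) '' Ici 0) D := by
    refine h.planar _ ?_ ?_ ?_ (ray_unbounded hv0)
    · rintro _ ⟨r, hr, rfl⟩
      show (y + r • v) i = t
      rw [Pi.add_apply, Pi.smul_apply, hvi, smul_zero, add_zero]
      exact h.DP hy
    · exact (isPreconnected_Ici).image _ (by fun_prop)
    · rw [Set.disjoint_left]
      rintro _ ⟨r, hr, rfl⟩ hx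
      have h3 := h1 _ (hκQ hx)
      rw [map_add, map_smul, smul_eq_mul] at h3
      have : 0 ≤ r * f v := mul_nonneg hr hfv.le
      linarith
  exact Set.disjoint_left.1 hA ⟨0, mem_Ici.2 le_rfl, by simp⟩ hy

/-- a connected set which misses the disc, which is not in the ball, and whose trace is connected
and not in the planar disc, misses the ball -/
theorem wall (h : Rem i t s E κ D b) {Q : Set V} (hQ : IsPreconnected Q) (hQE : Disjoint Q E)
    (hQt : IsPreconnected (Q ∩ Pl i t)) (hQD : (Q ∩ Pl i t).Nonempty → ¬ Q ∩ Pl i t ⊆ D)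
    (hQb : ¬ Q ⊆ b) : Disjoint Q b := by
  have h1 : Disjoint Q D := by
    rw [Set.disjoint_left]
    intro y hy hyD
    refine hQD ⟨y, hy, h.DP hyD⟩ (subset_of_relOpen hQt inter_subset_right
      h.hD.isCompact.isClosed h.cl ?_ ⟨y, ⟨hy, h.DP hyD⟩, hyD⟩)
    rw [Set.disjoint_left]
    intro z hz hzκ
    exact Set.disjoint_left.1 hQE hz.1 (h.hE.1 hzκ)
  rcases hQ.subset_or_subset h.inner.1 h.isClosed_b.isOpen_compl (by
      rw [Set.disjoint_left]; intro w h3 h4; exact h4 h3.1) (by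
      intro w hw
      by_cases h3 : w ∈ b
      · exact Or.inl ⟨h3, fun h4 => h4.elim (Set.disjoint_left.1 h1 hw)
          (Set.disjoint_left.1 hQE hw)⟩
      · exact Or.inr h3) with h3 | h3
  · exact absurd (h3.trans sdiff_subset) hQb
  · rw [Set.disjoint_left]
    exact fun y hy => h3 hy

end Rem

/-- composition with an ambient homeomorphism supported in the target -/
noncomputable def comp {Ω Λ : Set V} (h : ConHomeo Ω Λ)
    (Θ : ConHomeo (univ : Set V) (univ : Set V)) (hΛ : IsOpen Λ)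
    (hfix : ∀ x ∉ Λ, Θ.toFun x = x) : ConHomeo Ω Λ :=
  h.trans (restrictAmb Θ hΛ hfix)

theorem comp_toFun {Ω Λ : Set V} (h : ConHomeo Ω Λ)
    (Θ : ConHomeo (univ : Set V) (univ : Set V)) (hΛ : IsOpen Λ)
    (hfix : ∀ x ∉ Λ, Θ.toFun x = x) (x : V) :
    (comp h Θ hΛ hfix).toFun x = Θ.toFun (h.toFun x) := rfl

/-- the set up of the iteration -/
structure Setup {J : Type*} (Ω Λ K P : Set V) (h : ConHomeo Ω Λ) (A : J → Set V)
    (F : ∀ j, PFace (A j)) (Lv : Set (Fin 3 × ℝ)) (ω : ℝ) : Prop where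
  oΩ : IsOpen Ω
  oΛ : IsOpen Λ
  AΩ : ∀ j, A j ⊆ Ω
  AK : ∀ j, A j ⊆ K
  Ao : ∀ j, ∀ z ∈ interior (F j).C, ∀ᶠ y in 𝓝 ((F j).ch z), y ∈ K → y ∈ A j
  fin : Lv.Finite
  reg : ∀ j, ∀ x ∈ A j, ∀ q ∈ Lv, h.toFun x q.1 = q.2 →
    H805.Reg (fun y => h.toFun y q.1) (fun _ : Unit => A j) x
  disj : ∀ j, ∀ x ∈ A j, ∀ q ∈ Lv, ∀ q' ∈ Lv, h.toFun x q.1 = q.2 → h.toFun x q'.1 = q'.2 → q = q'
  ω0 : 0 < ω
  diam : ∀ j, ∀ x ∈ A j, ∀ y ∈ A j, dist (h.toFun x) (h.toFun y) ≤ ω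
  oP : IsOpen P
  PΛ : P ⊆ Λ
  ball : ∀ j, ∀ x ∈ A j, closedBall (h.toFun x) (8 * ω) ⊆ P

/-- the union of the traces on the face `j` -/
def tr {Ω Λ : Set V} (h : ConHomeo Ω Λ) {A : Set V} (F : PFace A) (Lv : Set (Fin 3 × ℝ))
    (Θ : ConHomeo (univ : Set V) (univ : Set V)) : Set H579.P :=
  un F.C (fun i z => Θ.toFun (h.toFun (F.ch z)) i) Lv

/-- the identity -/
noncomputable def idV : ConHomeo (univ : Set V) (univ : Set V) :=
  ConHomeo.refl isOpen_univ.conicalSet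

/-- a finite family of walls: large connected closed sets with large connected traces, disjoint
from the relative interior of all faces on which there is a circle -/
structure Walls {J : Type*} {Ω Λ : Set V} (h : ConHomeo Ω Λ) {A : J → Set V}
    (F : ∀ j, PFace (A j)) (Lv : Set (Fin 3 × ℝ)) (ω : ℝ) (𝒬 : Set (Set V)) : Prop where
  fin : 𝒬.Finite
  closed : ∀ Q ∈ 𝒬, IsClosed Q
  conn : ∀ Q ∈ 𝒬, IsPreconnected Q
  off : ∀ Q ∈ 𝒬, ∀ j, (∃ σ, IsCircle σ ∧ σ ⊆ tr h (F j) Lv idV) →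
    Disjoint Q (h.toFun '' ((F j).ch '' interior (F j).C))
  tr_conn : ∀ Q ∈ 𝒬, ∀ q ∈ Lv, IsPreconnected (Q ∩ Pl q.1 q.2)
  tr_big : ∀ Q ∈ 𝒬, ∀ q ∈ Lv, (Q ∩ Pl q.1 q.2).Nonempty →
    ∃ y ∈ Q ∩ Pl q.1 q.2, ∃ z ∈ Q ∩ Pl q.1 q.2, 2 * ω < dist y z
  big : ∀ Q ∈ 𝒬, ∃ y ∈ Q, ∃ z ∈ Q, 14 * ω < dist y z

/-- the invariant -/
structure Inv {J : Type*} {Ω Λ : Set V} (K P : Set V) (h : ConHomeo Ω Λ) {A : J → Set V}
    (F : ∀ j, PFace (A j)) (Lv : Set (Fin 3 × ℝ)) (ω : ℝ)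
    (Θ : ConHomeo (univ : Set V) (univ : Set V)) : Prop where
  supp : ∃ C, IsCompact C ∧ C ⊆ P ∧ ∀ y ∉ C, Θ.toFun y = y
  keep : ∀ x ∈ Ω, x ∈ K → ∀ q ∈ Lv, Θ.toFun (h.toFun x) q.1 = q.2 →
    ∀ᶠ z in 𝓝 (h.toFun x), Θ.toFun z = z
  free : ∀ q ∈ Lv, (∀ j σ, IsCircle σ →
      ¬ σ ⊆ {z | z ∈ (F j).C ∧ h.toFun ((F j).ch z) q.1 = q.2}) →
    ∀ y, Θ.toFun y q.1 = q.2 → ∀ᶠ z in 𝓝 y, Θ.toFun z = z
  near : ∀ x ∈ Ω, x ∈ K → dist (Θ.toFun (h.toFun x)) (h.toFun x) ≤ 6 * ω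
  all : ∀ y, dist (Θ.toFun y) y ≤ 12 * ω
  disc : ∀ q ∈ Lv, ∀ D κ : Set V, D ⊆ Pl q.1 q.2 → κ ⊆ D → IsClosed D →
    IsClosed (Pl q.1 q.2 \ (D \ κ)) → (∀ y ∈ κ, ∃ x ∈ Ω, x ∈ K ∧ h.toFun x = y ∧ Θ.toFun y = y) →
    ∀ y, Θ.toFun y ∈ D → ∃ d ∈ D, dist y d < 2 * ω

end Vale.Agent.P073.H238
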