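import Vale.Agent.P073.H579.HFaceM
import Vale.Agent.P073.H805.PlateC
import Vale.Agent.P073.H345.Stage2

/-!
# P073, H238 (T2-FACE): the hypothesis `hface` of STAGE 2 of round T for the active faces
-/

open Set Metric Topology Filter

namespace Vale.Agent.P073.H238

open _root_.P073 _root_.P073.TR _root_.P073.H236 _root_.P073.H579 _root_.P073.H805
open Vale.Agent.P073.H73 (Mesh)
open Vale.Agent.P073.H193 (Edges Cyc)
open Vale.Agent.P073.H155 (vv)

/-! ### a fixed cyclic order of the edges and a fixed centre for each face -/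

section star

variable {Ω : Set V} {M : Mesh Ω} (E : Edges M) (k : M.κ)

/-- the edges of the face, in cyclic order -/
noncomputable def cyF : Cyc E k := (Vale.Agent.P073.H193.exists_cyc E k).some

/-- centre, inner radius and radius of the face -/
noncomputable def ctrF : V := (Vale.Agent.P073.H155.exists_star (cyF E k)).choose

/-- inner radius -/
noncomputable def rhoF : ℝ := (Vale.Agent.P073.H155.exists_star (cyF E k)).choose_spec.choose

/-- radius -/
noncomputable def radF : ℝ :=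
  (Vale.Agent.P073.H155.exists_star (cyF E k)).choose_spec.choose_spec.choose

theorem starF : ctrF E k ∈ M.F k ∧
    _root_.P073.H155.Star ((cyF E k).n + 1) (vv (cyF E k)) (ctrF E k) (rhoF E k) (radF E k)
      (M.F k) ∧ 0 ≤ radF E k ∧ radF E k / rhoF E k ≤ M.c k ^ 2 ∧
    M.r k ≤ 2 * M.c k * rhoF E k ∧
    ∀ (a : V) (l : Fin 3) (σ : ℝ), 0 < σ → M.F k = Vale.Agent.P073.H73.sqr a l σ →
      ctrF E k = a ∧ rhoF E k = σ ∧ radF E k = σ :=
  (Vale.Agent.P073.H155.exists_star (cyF E k)).choose_spec.choose_spec.choose_spec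

end star

/-! ### the data of a box -/

/-- the one-variable maps of the box -/
noncomputable def kB (B : BX 3) : Fin 3 → ℝ → ℝ :=
  fun i => if i = B.j then qm B.lvs.L B.c else fun t => t

/-- the levels of the box -/
noncomputable def LB (B : BX 3) : Fin 3 → Finset ℝ := fun i => if i = B.j then B.lvs.L else ∅

/-- lower ends of the flats -/
def loB (B : BX 3) : Fin 3 → ℝ → ℝ := fun _ a => a - B.c

/-- upper ends of the flats -/
def hiB (B : BX 3) : Fin 3 → ℝ → ℝ := fun _ a => a + B.c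

/-- the open full zone of the box -/
def FullO (B : BX 3) (y : V) : Prop := (B.al < y B.j ∧ y B.j < B.be) ∧ B.Full y

theorem FullO.mem {B : BX 3} {y : V} (h : FullO B y) : y ∈ B.K :=
  ⟨⟨h.1.1.le, h.1.2.le⟩, fun i hi => by
    have h1 := h.2 i hi
    have h2 := B.hr i
    constructor <;> linarith [h1.1, h1.2]⟩

theorem ins1_kB (B : BX 3) (j : Fin 3) : Ins1 (kB B j) (LB B j : Set ℝ) (loB B j) (hiB B j) := by
  unfold kB LB
  by_cases hj : j = B.j
  · rw [if_pos hj, if_pos hj]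
    exact ins1_qm B.lvs.c0 B.lvs.sepd
  · rw [if_neg hj, if_neg hj, Finset.coe_empty]
    exact Ins1.id _ _

theorem mem_LB {B : BX 3} {j : Fin 3} {t : ℝ} :
    t ∈ LB B j ↔ j = B.j ∧ ∃ m < B.N, B.a m = t := by
  unfold LB
  by_cases hj : j = B.j
  · rw [if_pos hj, B.lvs.mem_L]
    exact ⟨fun h => ⟨hj, h⟩, fun h => h.2⟩
  · rw [if_neg hj]
    exact ⟨fun h => absurd h (Finset.notMem_empty _), fun h => absurd h.1 hj⟩

theorem update_eq_prodK {B : BX 3} {y : V} :
    Function.update y B.j (qm B.lvs.L B.c (y B.j)) = prodK (kB B) y := by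
  ext i
  unfold prodK kB
  by_cases hi : i = B.j
  · subst hi; simp
  · simp [hi]

section zone

variable {γ : Type*} {Ω Λ : Set V} {B : γ → BX 3} {κ : V → V} {h : ConHomeo Ω Λ}

/-- `κ` is a product map near a set in the full zone of a box -/
theorem zone_box (H : _root_.P073.H345.Fam Λ B) (hκ : _root_.P073.H345.IsQ B κ) {g : γ}
    {C : Set V} (hC : ∀ x ∈ C, FullO (B g) (h.toFun x)) : Zone κ Λ h (kB (B g)) C where
  z1 := by
    rintro y ⟨x, hx, hxy⟩
    have h1 := hC x hx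
    rw [hxy] at h1
    have hne : ∀ i, i ≠ (B g).j → prodK (kB (B g)) y i = y i := fun i hi => by
      unfold prodK kB; rw [if_neg hi]
    have hj : prodK (kB (B g)) y (B g).j = qm (B g).lvs.L (B g).c (y (B g).j) := by
      unfold prodK kB; rw [if_pos rfl]
    have hfull : (B g).Full y := fun i hi => by
      have := h1.2 i hi
      rwa [hne i hi] at this
    have hyj : (B g).al < y (B g).j ∧ y (B g).j < (B g).be := by
      by_contra hcon
      have h2 : y (B g).j ≤ (B g).al ∨ (B g).be ≤ y (B g).j := by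
        rcases not_and_or.1 hcon with h3 | h3
        · exact Or.inl (not_lt.1 h3)
        · exact Or.inr (not_lt.1 h3)
      have h3 := h1.1
      rw [hj, (B g).lvs.qm_out h2] at h3
      exact hcon h3
    have hyK : y ∈ (B g).K := FullO.mem ⟨hyj, hfull⟩
    refine ⟨H.sub g hyK, ?_⟩
    rw [hκ.on g y hyK, (B g).Q_full hfull, update_eq_prodK]
  z2 := by
    rintro y - ⟨x, hx, hxy⟩
    have h1 := hC x hx
    rw [hxy] at h1
    have hyK : y ∈ (B g).K := (hκ.mem_iff H).1 h1.mem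
    rw [hκ.on g y hyK] at h1 ⊢
    have hfull : (B g).Full y := fun i hi => by
      have := h1.2 i hi
      rwa [(B g).Q_ne hi] at this
    rw [(B g).Q_full hfull, update_eq_prodK]

end zone

/-- a circle is not empty -/
theorem isCircle_nonempty {σ : Set V} (h : _root_.P073.IsCircle σ) : σ.Nonempty := by
  obtain ⟨φ⟩ := h
  obtain ⟨z, hz⟩ : (sphere (0 : ℝ × ℝ) 1).Nonempty := NormedSpace.sphere_nonempty.2 zero_le_one
  exact ⟨φ.toFun z, φ.mapsTo hz⟩

/-- the pattern of an active face -/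
theorem pat_box {Ω Λ : Set V} (hΩ : IsOpen Ω) {M : Mesh Ω} {E : Edges M} (h : ConHomeo Ω Λ)
    (B : BX 3) {k : M.κ}
    (hreg : ∀ m < B.N, ∀ x ∈ M.F k, h.toFun x B.j = B.a m →
      Reg (fun y => h.toFun y B.j) (_root_.P073.H345.fam M E) x)
    (hno : ∀ σ : Set V, _root_.P073.IsCircle σ → σ ⊆ M.F k →
      ¬ ∀ x ∈ σ, ∃ m < B.N, h.toFun x B.j = B.a m) :
    ∃ (A : Type) (_ : Finite A) (S : A → Set V) (cd : A → Fin 3) (lev : A → ℝ) (col : A → Bool),
      FacePat (M.F k) (intrinsicFrontier ℝ (M.F k)) h.toFun (fun l => (LB B l : Set ℝ)) S cd lev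
        col ∧ ∀ α β, α ≠ β → cd α = cd β → Disjoint (S α) (S β) := by
  obtain ⟨j', hj'⟩ := exists_ne B.j
  let P : Plate := { lo := 0, hi := 0, i := B.j, j := j', a := B.lvs.L, b := ∅, s := 0 }
  have hP : HasPat (M.F k) h.toFun P := by
    refine hasPat_clean (F := _root_.P073.H345.fam M E) hΩ h (P := P) hj'.symm ⟨Sum.inl k, rfl⟩
      ?_ ?_ ⟨?_, ?_⟩
    · intro x hx hxa
      obtain ⟨m, hm, hma⟩ := B.lvs.mem_L.1 hxa
      exact hreg m hm x hx hma.symm
    · intro x _ hxb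
      exact absurd hxb (Finset.notMem_empty _)
    · intro x _ _ hxb
      exact absurd hxb (Finset.notMem_empty _)
    · intro σ hσ hσk
      refine ⟨fun hall => hno σ hσ hσk fun x hx => ?_, fun hall => ?_⟩
      · obtain ⟨m, hm, hma⟩ := B.lvs.mem_L.1 (hall x hx)
        exact ⟨m, hm, hma.symm⟩
      · obtain ⟨x, hx⟩ := isCircle_nonempty hσ
        exact absurd (hall x hx) (Finset.notMem_empty _)
  obtain ⟨A, hA, S, col, lev, h1, h2⟩ := hP
  have hlv : P.lv = LB B := by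
    funext l
    unfold Plate.lv LB
    show (if l = B.j then B.lvs.L else if l = j' then ∅ else ∅) = _
    rw [ite_self]
  rw [hlv] at h1
  exact ⟨A, hA, S, _, lev, col, h1, h2⟩

/-! ### good edge maps and good face maps -/

section good

variable {γ : Type*} {Ω Λ : Set V} {M : Mesh Ω}

/-- **good edge maps**: on the edges whose image is in the zone `Z g` of a box `B g` -/
def GE (E : Edges M) (h : V → V) (B : γ → BX 3) (Z : γ → Set V) (om : γ → Fin 3 → ℝ → ℝ)
    (La : E.ε → ℝ) (e : E.ε) (f : V → V) : Prop :=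
  ∀ g, h '' E.seg e ⊆ Z g → ∃ s1 s2 s3 s4 : V → ℝ, EdgeNum (E.a e) (E.b e) h (kB (B g))
    (LB (B g)) (loB (B g)) (hiB (B g)) (om g) (La e) f s1 s2 s3 s4

/-- **good face maps**: on the faces whose image is in the zone `Z g` of a box `B g` -/
def GF (E : Edges M) (h : V → V) (B : γ → BX 3) (Z : γ → Set V) (om : γ → Fin 3 → ℝ → ℝ)
    (La We : E.ε → ℝ) (k : M.κ) (Φ : V → V) : Prop :=
  ∀ g, h '' M.F k ⊆ Z g →
    (∀ e, E.seg e ⊆ M.F k → ∀ x ∈ coneSetAt (ctrF E k) (E.seg e),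
      ∀ y ∈ coneSetAt (ctrF E k) (E.seg e),
      bandD (LB (B g)) (loB (B g)) (hiB (B g)) (om g) (Φ x) (Φ y) ≤
        156 * (1 + radF E k / rhoF E k) *
          (La e + (∑ e ∈ (E.fin_face k).toFinset, We e) / rhoF E k) * ‖x - y‖) ∧
    ∀ x ∈ M.F k, ∀ y ∈ M.F k, ∃ c : ℝ → V, ContinuousOn c (Icc 0 3) ∧
      MapsTo c (Icc 0 3) (M.F k) ∧ c 0 = x ∧ c 3 = y ∧
      _root_.P073.H880.cvar (fun s t => ENNReal.ofReal
        (bandD (LB (B g)) (loB (B g)) (hiB (B g)) (om g) (Φ (c s)) (Φ (c t)))) 0 3 ≤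
        ENNReal.ofReal (8 * ∑ e ∈ (E.fin_face k).toFinset, We e)

/-- **T2-FACE**: the hypothesis `hface` of `exists_stage2` -/
theorem hface_T (hΩ : IsOpen Ω) {E : Edges M} {h : ConHomeo Ω Λ} {B : γ → BX 3} {κ : V → V}
    (H : _root_.P073.H345.Fam Λ B) (hκ : _root_.P073.H345.IsQ B κ)
    (hreg : _root_.P073.H345.RegB M E h B) {Z : γ → Set V}
    (hZ : ∀ g g', g ≠ g' → Disjoint (Z g) (Z g')) {om : γ → Fin 3 → ℝ → ℝ}
    (hom : ∀ g j, ∀ c ∈ LB (B g) j, 0 < om g j c) {La We : E.ε → ℝ} (hLa : ∀ e, 0 ≤ La e)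
    {Act : Set M.κ}
    (hAct : ∀ k ∈ Act, ∃ g, (∀ x ∈ M.F k, FullO (B g) (h.toFun x) ∧ h.toFun x ∈ Z g) ∧
      ∀ σ : Set V, _root_.P073.IsCircle σ → σ ⊆ M.F k →
        ¬ ∀ x ∈ σ, ∃ m < (B g).N, h.toFun x (B g).j = (B g).a m)
    (hWe : ∀ k ∈ Act, ∀ e, E.seg e ⊆ M.F k → ∀ g, h.toFun '' E.seg e ⊆ Z g → ∀ Y : Finset V,
      (∀ x ∈ Y, CrsPt (E.a e) (E.b e) h.toFun (LB (B g)) x) →
      ∑ x ∈ Y, omX h.toFun (LB (B g)) (om g) x ≤ We e) :
    ∀ k ∈ Act, ∀ Φe : ∀ e, E.seg e ⊆ M.F k → ConHomeo (E.seg e) (Pre κ Λ h (E.seg e)),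
      (∀ e he, GE E h.toFun B Z om La e (Φe e he).toFun) →
      (∀ e he e' he', EqOn (Φe e he).toFun (Φe e' he').toFun (E.seg e ∩ E.seg e')) →
      (∀ e he, ∀ x ∈ E.seg e, x ∈ E.verts → κ ((Φe e he).toFun x) = h.toFun x) →
      ∃ Φ : ConHomeo (M.F k) (Pre κ Λ h (M.F k)), GF E h.toFun B Z om La We k Φ.toFun ∧
        ∀ e he, EqOn Φ.toFun (Φe e he).toFun (E.seg e) := by
  intro k hk Φe hGE _ hend
  obtain ⟨g, hfull, hno⟩ := hAct k hk
  obtain ⟨hO, hstar, hR, hRr, -, -⟩ := starF E k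
  have hne : (h.toFun '' M.F k).Nonempty := ⟨_, _, hO, rfl⟩
  have hsub : ∀ e, E.seg e ⊆ M.F k → h.toFun '' E.seg e ⊆ Z g := by
    rintro e he _ ⟨x, hx, rfl⟩
    exact (hfull x (he hx)).2
  have hrg : ∀ m < (B g).N, ∀ x ∈ M.F k, h.toFun x (B g).j = (B g).a m →
      Reg (fun y => h.toFun y (B g).j) (_root_.P073.H345.fam M E) x :=
    hreg k g ⟨h.toFun (ctrF E k), (hfull _ hO).1.mem, _, hO, rfl⟩
  obtain ⟨A, hA, S, cd, lev, col, HF, hdis⟩ := pat_box hΩ h (B g) hrg hno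
  obtain ⟨Φ, h1, h2, h3⟩ := hface_mesh_path (cyF E k) hstar
    (zone_box H hκ (g := g) fun x hx => (hfull x hx).1) (ins1_kB (B g)) HF hdis
    (fun x hx hxk j hj => by
      obtain ⟨rfl, m, hm, hma⟩ := mem_LB.1 hj
      exact hreg.vert hx (hfull x hxk).1.mem hm hma.symm)
    (hom g) hLa (fun e he Y hY => hWe k hk e he g (hsub e he) Y hY) Φe
    (fun e he => hGE e he g (hsub e he)) hend
  refine ⟨Φ, fun g' hg' => ?_, h2⟩
  have hgg : g' = g := by
    by_contra hne'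
    refine Set.disjoint_left.1 (hZ g' g hne') (hg' ⟨_, hO, rfl⟩) (hfull _ hO).2
  subst hgg
  exact ⟨h1, h3⟩

/-- regularity does not see the thickness -/
theorem regB_thin {E : Edges M} {h : ConHomeo Ω Λ} {B : γ → BX 3}
    (hreg : _root_.P073.H345.RegB M E h B) {c : γ → ℝ} (h0 : ∀ g, 0 < c g)
    (h1 : ∀ g, c g ≤ (B g).c) :
    _root_.P073.H345.RegB M E h fun g => _root_.P073.H345.thin (B g) (c g) (h0 g) (h1 g) :=
  fun k g hg m hm x hx hxa => hreg k g hg m hm x hx hxa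

end good

end Vale.Agent.P073.H238
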