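import Vale.Agent.P073.H669.TLevB
import Vale.Agent.P073.H579.ActE

/-!
# P073, H238: **[T12]** STAGE 1 and STAGE 2 of ROUND T, for the levels of H669

`Ac`: active faces; `wt`, `We`: weights of the edges; `exists_t12`.
-/

open Set Metric Topology Filter
open scoped ENNReal

namespace Vale.Agent.P073.H669.TLv

open _root_.P073 _root_.P073.TR _root_.P073.Net _root_.P073.PA691
open _root_.P073.PR720 (LF)
open Vale.Agent.P073.St (V)
open Vale.Agent.P073.H471 Vale.Agent.P073.H267 Vale.Agent.P073.H267.Geo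
open Vale.Agent.P073.H73 (Mesh)
open Vale.Agent.P073.H193 (Edges Cyc)
open Vale.Agent.P073.H155 (vv)
open Vale.Agent.P073.H238 (oT marg TStage1 TAct TProt skel mesh_sub exists_tstage1)
open _root_.P073.Croft (Cells Crs levs Generic onS cross varIn TransAt SepL)
open _root_.P073.H345 (fam Fam RegB Out2 Miss IsQ)
open _root_.P073.H236 (BX Lvs BFam stp dsp LQ omQ kQ loQ hiQ crsPt_Q omX_Q_of_crs)
open _root_.P073.H579 (FAct EAct actF GEd GFd CrsPt omX Pre InsMap hface_act)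

variable {Ω Λ : Set V} {v : V} {K : BoxCx Λ v} {S : Rad K} {W : Wid K S} {B : Boxes W}
  {G : Geo B} {M : Mesh Ω} {E : Edges M} {h h' : ConHomeo Ω Λ} {ω : TBx K → ℝ}
  {T : TBx K → Finset (ℝ × ℝ)} {η : ℝ} {τ : Type*} {A : τ → Set V} {C : Set ℝ} {εE : E.ε → ℝ}
  {δ : TBx K → ℝ}

variable (L : TLv G E h ω T η A C εE δ)

/-- the weight of the box `b` -/
noncomputable def om (b : TBx K) : ℝ := stp (L.N b) (G.tlo true b b.ax) (G.thi true b b.ax)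

theorem om_pos (b : TBx K) : 0 < L.om b := lt_of_lt_of_le (L.δ0 b) (L.stp_ge b)

/-- the faces with a level point of `h'` in the full zone of the box -/
def Ac (h' : ConHomeo Ω Λ) (b : TBx K) (k : M.κ) : Prop := TAct G M h' L.lev b k

/-- weight of the crossings of `h'` with the levels of the box `b` in `TB f b`, on the edge `e` -/
noncomputable def wt (h' : ConHomeo Ω Λ) (f : Bool) (e : E.ε) (b : TBx K) : ℝ≥0∞ :=
  ENNReal.ofReal (L.om b) * cnt (cross (onS h'.toFun (E.a e) (E.b e)) b.ax (L.lev b) (G.TB f b))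

/-- weight of the edge `e` -/
noncomputable def We (h' : ConHomeo Ω Λ) (e : E.ε) : ℝ := (∑' b, L.wt h' false e b).toReal

theorem We_nonneg (h' : ConHomeo Ω Λ) (e : E.ε) : 0 ≤ L.We h' e := ENNReal.toReal_nonneg

theorem wt_le_of (h' : ConHomeo Ω Λ) (f : Bool) (e : E.ε) (b : TBx K) :
    L.wt h' f e b ≤ L.wt h' false e b := by
  unfold wt
  refine mul_le_mul_right (Croft.cnt_mono ?_) _
  rintro t ⟨h1, h2, h3⟩
  exact ⟨h1, TB_sub_false G f b h2, h3⟩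

section stage1

variable {Pr : Set M.ι} (O : TStage1 G M h h' Pr L.lev ω)
include O

theorem cross_fin (f : Bool) (e : E.ε) (b : TBx K) :
    (cross (onS h'.toFun (E.a e) (E.b e)) b.ax (L.lev b) (G.TB f b)).Finite :=
  ((L.crs f e).fin b).subset (L.cross_sub O f e b)

theorem wt_ne_top (f : Bool) (e : E.ε) (b : TBx K) : L.wt h' f e b ≠ ⊤ := by
  refine ENNReal.mul_ne_top ENNReal.ofReal_ne_top ?_
  unfold cnt
  have h1 := (L.cross_fin O f e b).encard_lt_top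
  exact ENat.toENNReal_ne_top.2 h1.ne

theorem tsum_wt_ne_top (f : Bool) (e : E.ε) : ∑' b, L.wt h' f e b ≠ ⊤ := by
  classical
  have hfin : {b | (h'.toFun '' segment ℝ (E.a e) (E.b e) ∩ G.TB false b).Nonempty}.Finite :=
    Croft.finite_inter_image h' (lf_TB G) (E.isCompact_seg e) (E.seg_sub_Ω e)
  have hzero : ∀ b, b ∉ hfin.toFinset → L.wt h' f e b = 0 := by
    intro b hb
    have : cross (onS h'.toFun (E.a e) (E.b e)) b.ax (L.lev b) (G.TB f b) = ∅ := by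
      rw [Set.eq_empty_iff_forall_notMem]
      rintro t ⟨ht, htP, -⟩
      refine hb ?_
      rw [Finite.mem_toFinset]
      exact ⟨_, ⟨_, Croft.onS_mem ht, rfl⟩, TB_sub_false G f b htP⟩
    unfold wt
    rw [this]
    simp [cnt]
  rw [tsum_eq_sum hzero]
  exact ENNReal.sum_ne_top.2 fun b _ => L.wt_ne_top O f e b

theorem ofReal_We (e : E.ε) : ENNReal.ofReal (L.We h' e) = ∑' b, L.wt h' false e b :=
  ENNReal.ofReal_toReal (L.tsum_wt_ne_top O false e)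

theorem wt_le_We (f : Bool) (e : E.ε) (b : TBx K) :
    L.wt h' f e b ≤ ENNReal.ofReal (L.We h' e) := by
  rw [L.ofReal_We O]
  exact (L.wt_le_of h' f e b).trans (ENNReal.le_tsum b)

/-- **the sharp bound** for one box -/
theorem wt_sharp {μ : ℝ} (hμ : μ < 1) (b : TBx K)
    (hb : 60 * ω b + dsp (T b) (δ b) ≤ μ * (G.thi true b b.ax - G.tlo true b b.ax))
    (f : Bool) (e : E.ε) : L.wt h' f e b ≤ ENNReal.ofReal (1 - μ)⁻¹ *
      (ENNReal.ofReal (1 - 2 * η)⁻¹ * varIn (onS h.toFun (E.a e) (E.b e)) b.ax (G.TB f b) 0 1 +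
        ENNReal.ofReal (εE e)) := by
  have h1 : L.om b ≤ (1 - μ)⁻¹ * δ b := by
    have h2 := L.stp_le b hb
    have h3 : 0 < 1 - μ := by linarith
    rw [← div_eq_inv_mul, le_div_iff₀ h3, mul_comm]
    exact h2
  have h4 : 0 ≤ (1 - μ)⁻¹ := inv_nonneg.2 (by linarith)
  calc L.wt h' f e b ≤ ENNReal.ofReal ((1 - μ)⁻¹ * δ b) *
        cnt (cross (onS h'.toFun (E.a e) (E.b e)) b.ax (L.lev b) (G.TB f b)) :=
        mul_le_mul_left (ENNReal.ofReal_le_ofReal h1) _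
    _ = ENNReal.ofReal (1 - μ)⁻¹ * (ENNReal.ofReal (δ b) *
        cnt (cross (onS h'.toFun (E.a e) (E.b e)) b.ax (L.lev b) (G.TB f b))) := by
        rw [ENNReal.ofReal_mul h4, mul_assoc]
    _ ≤ _ := mul_le_mul_right (L.cnt_one O f e b) _

/-- **the bound of the weights** -/
theorem We_le {μ : ℝ} (hμ : μ < 1)
    (hb : ∀ b, 60 * ω b + dsp (T b) (δ b) ≤ μ * (G.thi true b b.ax - G.tlo true b b.ax))
    (e : E.ε) : ENNReal.ofReal (L.We h' e) ≤ ENNReal.ofReal (1 - μ)⁻¹ *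
      (ENNReal.ofReal (1 - 2 * η)⁻¹ * (2 * len (onS h.toFun (E.a e) (E.b e)) (Icc 0 1)) +
        ENNReal.ofReal (εE e)) := by
  rw [L.ofReal_We O]
  have h4 : 0 ≤ (1 - μ)⁻¹ := inv_nonneg.2 (by linarith)
  have h5 : ∀ b, L.wt h' false e b ≤ ENNReal.ofReal (1 - μ)⁻¹ * (ENNReal.ofReal (δ b) *
        cnt (cross (onS h'.toFun (E.a e) (E.b e)) b.ax (L.lev b) (G.TB false b))) := by
    intro b
    have h1 : L.om b ≤ (1 - μ)⁻¹ * δ b := by
      have h2 := L.stp_le b (hb b)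
      have h3 : 0 < 1 - μ := by linarith
      rw [← div_eq_inv_mul, le_div_iff₀ h3, mul_comm]
      exact h2
    rw [← mul_assoc, ← ENNReal.ofReal_mul h4]
    exact mul_le_mul_left (ENNReal.ofReal_le_ofReal h1) _
  calc ∑' b, L.wt h' false e b ≤ ∑' b, ENNReal.ofReal (1 - μ)⁻¹ * (ENNReal.ofReal (δ b) *
        cnt (cross (onS h'.toFun (E.a e) (E.b e)) b.ax (L.lev b) (G.TB false b))) :=
        ENNReal.tsum_le_tsum h5
    _ = ENNReal.ofReal (1 - μ)⁻¹ * ∑' b, ENNReal.ofReal (δ b) *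
        cnt (cross (onS h'.toFun (E.a e) (E.b e)) b.ax (L.lev b) (G.TB false b)) :=
        ENNReal.tsum_mul_left
    _ ≤ _ := mul_le_mul_right (L.cnt_sum O false e) _

variable {c : TBx K → ℝ} (hc0 : ∀ b, 0 < c b) (hc : ∀ b, c b ≤ δ b / 8)

/-- active faces are in the full part of the box -/
theorem inB {b : TBx K} {k : M.κ} (hk : TAct G M h L.lev b k) :
    _root_.P073.H579.InB (L.bxQ c hc0 hc b) (h'.toFun '' M.F k) := by
  rintro _ ⟨x, hx, rfl⟩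
  obtain ⟨h1, h2, -⟩ := L.act hc0 hc O hk hx
  exact ⟨h2, h1⟩

theorem fact {b : TBx K} {k : M.κ} (hk : L.Ac h' b k) : FAct M h' (L.bxQ c hc0 hc) b k := by
  refine ⟨L.inB O hc0 hc (O.act b k hk), ?_⟩
  obtain ⟨x, hx, -, ⟨m, hm, hxm⟩⟩ := hk
  exact ⟨x, hx, m, hm, hxm⟩

/-- no circles -/
theorem hno {b : TBx K} {k : M.κ} (hk : L.Ac h' b k) {σ : Set V} (hσ : IsCircle σ)
    (hs : σ ⊆ M.F k) :
    ¬ ∀ x ∈ σ, ∃ m < (L.bxQ c hc0 hc b).N, (L.bxQ c hc0 hc b).a m =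
      h'.toFun x (L.bxQ c hc0 hc b).j := by
  intro hall
  refine O.noCircV L.lev_fin (O.act b k hk) hσ hs fun x hx => ?_
  obtain ⟨m, hm, h1⟩ := hall x hx
  exact ⟨m, hm, h1.symm⟩

/-- **[T2-WE]**, one box: the sum of the weights of the crossing points -/
theorem sum_omX {b : TBx K} {k : M.κ} (hk : L.Ac h' b k) {e : E.ε} (he : E.seg e ⊆ M.F k)
    (Y : Finset V) (hY : ∀ x ∈ Y, CrsPt (E.a e) (E.b e) h'.toFun (LQ (L.bxQ c hc0 hc b)) x) :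
    ENNReal.ofReal (∑ x ∈ Y, omX h'.toFun (LQ (L.bxQ c hc0 hc b)) (omQ (L.bxQ c hc0 hc b)) x) ≤
      L.wt h' false e b := by
  classical
  have h1 : ∑ x ∈ Y, omX h'.toFun (LQ (L.bxQ c hc0 hc b)) (omQ (L.bxQ c hc0 hc b)) x =
      Y.card * L.om b := by
    rw [Finset.sum_congr rfl fun x hx => omX_Q_of_crs (hY x hx), Finset.sum_const, nsmul_eq_mul]
    rfl
  rw [h1, mul_comm, ENNReal.ofReal_mul (L.om_pos b).le]
  unfold wt
  refine mul_le_mul_right ?_ _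
  rw [ENNReal.ofReal_natCast]
  have h2 : (Y : Set V) ⊆ (fun t : ℝ => E.a e + t • (E.b e - E.a e)) ''
      cross (onS h'.toFun (E.a e) (E.b e)) b.ax (L.lev b) (G.TB false b) := by
    intro x hx
    obtain ⟨hxs, m, hm, hxm⟩ := crsPt_Q.1 (hY x hx)
    have hxK := (L.inB O hc0 hc (O.act b k hk) _ ⟨x, he hxs, rfl⟩).1
    have hxT := L.K_sub hc0 hc b hxK
    rw [segment_eq_image'] at hxs
    obtain ⟨t, ht, rfl⟩ := hxs
    exact ⟨t, ⟨ht, hxT, m, hm, hxm.symm⟩, rfl⟩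
  have h3 : (Y : Set V).encard ≤
      (cross (onS h'.toFun (E.a e) (E.b e)) b.ax (L.lev b) (G.TB false b)).encard :=
    (encard_le_encard h2).trans (encard_image_le _ _)
  unfold cnt
  rw [Set.encard_coe_eq_coe_finsetCard] at h3
  exact_mod_cast h3

/-- **[T2-WE]** -/
theorem hWe {b : TBx K} {e : E.ε} (hA : EAct E (L.Ac h') b e) (Y : Finset V)
    (hY : ∀ x ∈ Y, CrsPt (E.a e) (E.b e) h'.toFun (LQ (L.bxQ c hc0 hc b)) x) :
    ∑ x ∈ Y, omX h'.toFun (LQ (L.bxQ c hc0 hc b)) (omQ (L.bxQ c hc0 hc b)) x ≤ L.We h' e := by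
  obtain ⟨k, hk, he⟩ := hA
  exact (ENNReal.ofReal_le_ofReal_iff (L.We_nonneg h' e)).1
    ((L.sum_omX O hc0 hc hk he Y hY).trans (L.wt_le_We O false e b))

theorem not_miss {b : TBx K} {k : M.κ} (hk : L.Ac h' b k) {X : Set V} (hX : X ⊆ M.F k)
    (hne : X.Nonempty) {l : M.κ} (hl : l ∈ Miss M h' (L.bxQ c hc0 hc)) : ¬ X ⊆ M.F l := by
  intro h1
  obtain ⟨x, hx⟩ := hne
  exact Set.disjoint_left.1 (hl b) (L.inB O hc0 hc (O.act b k hk) _ ⟨x, hX hx, rfl⟩).1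
    ⟨x, h1 hx, rfl⟩

end stage1

/-- **STAGE 2** after STAGE 1 -/
theorem stage2 (hΩ : IsOpen Ω) (hΛ : IsOpen Λ) {Pr : Set M.ι}
    (O : TStage1 G M h h' Pr L.lev ω)
    (hosc : ∀ b k, ∀ x ∈ M.F k, ∀ y ∈ M.F k, h.toFun x ∈ G.TB false b →
      dist (h.toFun x) (h.toFun y) ≤ ω b)
    (Cy : ∀ k, Cyc E k) {ctr : M.κ → V} {r0 R : M.κ → ℝ}
    (hS : ∀ k, _root_.P073.H155.Star ((Cy k).n + 1) (vv (Cy k)) (ctr k) (r0 k) (R k) (M.F k)) :
    ∃ c₀ : TBx K → ℝ, (∀ b, 0 < c₀ b) ∧ ∀ (c : TBx K → ℝ) (hc0 : ∀ b, 0 < c b)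
      (hc : ∀ b, c b ≤ δ b / 8), (∀ b, c b ≤ c₀ b) → ∀ κ, IsQ (L.bxQ c hc0 hc) κ →
      InsMap κ Λ Λ →
      ∃ g : ConHomeo Ω Λ, Out2 M E h' κ (actF (L.Ac h'))
        (GEd E h' (L.bxQ c hc0 hc) (L.Ac h') (L.We h'))
        (GFd E (L.bxQ c hc0 hc) (L.Ac h') (L.We h') ctr r0 R) g ∧
        ∀ k ∈ Miss M h' (L.bxQ c hc0 hc), EqOn g.toFun h'.toFun (M.F k) := by
  have hd0 : ∀ b, 0 < δ b / 8 := fun b => by have := L.δ0 b; positivity
  have hdd : ∀ b, δ b / 8 ≤ δ b / 8 := fun b => le_rfl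
  have hneF : ∀ k, (M.F k).Nonempty := by
    intro k
    obtain ⟨φ, -⟩ := (M.fat k).chart
    exact ⟨_, φ.mapsTo (show ((0:ℝ), (0:ℝ)) ∈ Vale.Agent.P073.H73.usq from
      ⟨⟨le_rfl, zero_le_one⟩, ⟨le_rfl, zero_le_one⟩⟩)⟩
  obtain ⟨c₀, hc₀, H⟩ := _root_.P073.H345.exists_stage2 hΩ M E h' (B := L.bxQ _ hd0 hdd)
    (L.fam345 hd0 hdd hΛ) (L.regB hd0 hdd O hosc) (actF (L.Ac h'))
    (by
      rintro k ⟨b, hk⟩ hm
      exact L.not_miss O hd0 hdd hk Subset.rfl (hneF k) hm Subset.rfl)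
    (by
      rintro k ⟨b, hk⟩ e he l hl
      exact L.not_miss O hd0 hdd hk he ⟨_, left_mem_segment ℝ _ _⟩ hl)
  refine ⟨c₀, hc₀, fun c hc0 hc hcc κ hκ hI => ?_⟩
  refine H c hc0 hc hcc κ hκ hI _ _ (_root_.P073.H579.hedge_act (L.fam345 hc0 hc hΛ)
    (L.regB hc0 hc O hosc) hκ (fun b k hk => L.fact O hc0 hc hk)
    (fun b e hA Y hY => L.hWe O hc0 hc hA Y hY)) ?_
  intro k hk Φe hGE _ hv
  exact hface_act hΩ (L.fam345 hc0 hc hΛ) (L.regB hc0 hc O hosc) hκ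
    (fun b k hk => L.fact O hc0 hc hk) (fun b k hk σ hσ hs => L.hno O hc0 hc hk hσ hs) Cy hS
    (L.We_nonneg h') (fun b e hA Y hY => L.hWe O hc0 hc hA Y hY) hk Φe hGE hv

/-- **[T12]** STAGE 1 and STAGE 2 of ROUND T -/
theorem exists_t12 (hΩ : IsOpen Ω) (hΛ : IsOpen Λ) {Pr : Set M.ι} (R' : TProt K M h Pr)
    (hosc : ∀ b k, ∀ x ∈ M.F k, ∀ y ∈ M.F k, h.toFun x ∈ G.TB false b →
      dist (h.toFun x) (h.toFun y) ≤ ω b)
    (Cy : ∀ k, Cyc E k) {ctr : M.κ → V} {r0 R : M.κ → ℝ}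
    (hS : ∀ k, _root_.P073.H155.Star ((Cy k).n + 1) (vv (Cy k)) (ctr k) (r0 k) (R k) (M.F k)) :
    ∃ h' : ConHomeo Ω Λ, TStage1 G M h h' Pr L.lev ω ∧
      ∃ c₀ : TBx K → ℝ, (∀ b, 0 < c₀ b) ∧ ∀ (c : TBx K → ℝ) (hc0 : ∀ b, 0 < c b)
      (hc : ∀ b, c b ≤ δ b / 8), (∀ b, c b ≤ c₀ b) → ∀ κ, IsQ (L.bxQ c hc0 hc) κ →
      InsMap κ Λ Λ →
      ∃ g : ConHomeo Ω Λ, Out2 M E h' κ (actF (L.Ac h'))
        (GEd E h' (L.bxQ c hc0 hc) (L.Ac h') (L.We h'))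
        (GFd E (L.bxQ c hc0 hc) (L.Ac h') (L.We h') ctr r0 R) g ∧
        ∀ k ∈ Miss M h' (L.bxQ c hc0 hc), EqOn g.toFun h'.toFun (M.F k) := by
  obtain ⟨h', O⟩ := exists_tstage1 hΩ hΛ (L.lev238 hosc) R'
  exact ⟨h', O, L.stage2 hΩ hΛ O hosc Cy hS⟩

end Vale.Agent.P073.H669.TLv
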