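import Vale.Agent.P073.H238.T12
import Vale.Agent.P073.H238.VarEv
import Vale.Agent.P073.H267.RoundDefs
import Vale.Agent.P073.H236.OutC
import Vale.Agent.P073.H581.TileBX

/-!
# P073, H238: **[ROUND-T]** the statement `H267.RoundT`, from (T5)
-/

open Set Metric Topology Filter MeasureTheory
open scoped ENNReal

namespace Vale.Agent.P073.H238

open _root_.P073 _root_.P073.Net _root_.P073.PA691
open _root_.P073.PR720 (LF)
open Vale.Agent.P073.St (V)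
open Vale.Agent.P073.H471 Vale.Agent.P073.H267
open Vale.Agent.P073.H73 (Mesh onSeg Aligned)
open Vale.Agent.P073.H193 (Edges)
open Vale.Agent.P073.H669 (TLv)
open Vale.Agent.P073.H581
open _root_.P073.Croft (varIn onS)
open _root_.P073.H236 (St2 T3Out BFam dsp exists_t3out)
open _root_.P073.H267 (TNum TOut OscT RoundT tvE lenE)
open _root_.P073.H142 (FStar)
open _root_.P073.H579 (laE)

/-! ### estimates -/

theorem tv_aux {C₅ e₀ ε : ℝ} {ℓ W : ℝ≥0∞} (hC : 0 ≤ C₅) (he : 0 < e₀)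
    (h1 : e₀ * (8 * (1 + C₅)) = ε) (h2 : W ≤ ENNReal.ofReal 3 * ℓ + ENNReal.ofReal (2 * e₀)) :
    ENNReal.ofReal C₅ * (W + ℓ) + ENNReal.ofReal (ε / 4) ≤
      ENNReal.ofReal (3745 + 4 * C₅) * ℓ + ENNReal.ofReal ε := by
  have hε : 0 < ε := by rw [← h1]; positivity
  calc ENNReal.ofReal C₅ * (W + ℓ) + ENNReal.ofReal (ε / 4)
      ≤ ENNReal.ofReal C₅ * ((ENNReal.ofReal 3 * ℓ + ENNReal.ofReal (2 * e₀)) + ℓ) +
        ENNReal.ofReal (ε / 4) := by gcongr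
    _ = ENNReal.ofReal (4 * C₅) * ℓ + ENNReal.ofReal (C₅ * (2 * e₀) + ε / 4) := by
        rw [ENNReal.ofReal_add (by positivity) (by positivity), ENNReal.ofReal_mul hC,
          ENNReal.ofReal_mul (by norm_num : (0:ℝ) ≤ 4)]
        have h3 : ENNReal.ofReal 3 = 3 := by simp
        have h4 : ENNReal.ofReal 4 = 4 := by simp
        rw [h3, h4]
        ring
    _ ≤ _ := by
        refine add_le_add (mul_le_mul' (ENNReal.ofReal_le_ofReal (by linarith)) le_rfl)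
          (ENNReal.ofReal_le_ofReal ?_)
        nlinarith

theorem inv_aux1 {m : ℝ} (h0 : 0 < m) (h1 : m ≤ 1) : (1 - m / 4)⁻¹ ≤ 1 + m / 3 := by
  rw [inv_le_iff_one_le_mul₀ (by linarith)]
  nlinarith

theorem inv_aux2 {m : ℝ} (h0 : 0 < m) (h1 : m ≤ 1) : (1 - 2 * (m / 32))⁻¹ ≤ 1 + m / 15 := by
  rw [inv_le_iff_one_le_mul₀ (by linarith)]
  nlinarith

theorem tvs_aux {m μ e₀ ε : ℝ} {t v W : ℝ≥0∞} (hm0 : 0 < m) (hm1 : m ≤ 1) (hmμ : m ≤ μ)
    (he : 0 < e₀) (h1 : 8 * e₀ ≤ ε) (h2 : W ≤ ENNReal.ofReal (1 - m / 4)⁻¹ *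
      (ENNReal.ofReal (1 - 2 * (m / 32))⁻¹ * v + ENNReal.ofReal e₀)) (h3 : v ≤ t) :
    W + ENNReal.ofReal (ε / 4) ≤ ENNReal.ofReal (1 + μ) * t + ENNReal.ofReal ε := by
  have hε : 0 < ε := by linarith
  have i1 := inv_aux1 hm0 hm1
  have i2 := inv_aux2 hm0 hm1
  have i1' : (0:ℝ) ≤ (1 - m / 4)⁻¹ := inv_nonneg.2 (by linarith)
  have i2' : (0:ℝ) ≤ (1 - 2 * (m / 32))⁻¹ := inv_nonneg.2 (by linarith)
  calc W + ENNReal.ofReal (ε / 4)
      ≤ ENNReal.ofReal (1 - m / 4)⁻¹ * (ENNReal.ofReal (1 - 2 * (m / 32))⁻¹ * t +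
        ENNReal.ofReal e₀) + ENNReal.ofReal (ε / 4) := by
        refine add_le_add (h2.trans ?_) le_rfl
        gcongr
    _ = ENNReal.ofReal ((1 - m / 4)⁻¹ * (1 - 2 * (m / 32))⁻¹) * t +
        ENNReal.ofReal ((1 - m / 4)⁻¹ * e₀ + ε / 4) := by
        rw [ENNReal.ofReal_add (mul_nonneg i1' he.le) (by positivity),
          ENNReal.ofReal_mul i1', ENNReal.ofReal_mul i1']
        ring
    _ ≤ _ := by
        refine add_le_add (mul_le_mul' (ENNReal.ofReal_le_ofReal ?_) le_rfl)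
          (ENNReal.ofReal_le_ofReal ?_)
        · have : (1 - m / 4)⁻¹ * (1 - 2 * (m / 32))⁻¹ ≤ (1 + m / 3) * (1 + m / 15) :=
            mul_le_mul i1 i2 i2' (by linarith)
          nlinarith
        · nlinarith

/-! ### (T5), the hypothesis -/

/-- **(T5)**: variation of the coordinates after ROUND T -/
def T5 (C₅ : ℝ) : Prop :=
  ∀ (Ω Λ : Set V) (v : V) (K : BoxCx Λ v) (S₀ : Rad K) (W : Wid K S₀) (B : Boxes W) (G : Geo B)
    (M : Mesh Ω) (E : Edges M) (h h' : ConHomeo Ω Λ) (ω : TBx K → ℝ)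
    (T : TBx K → Finset (ℝ × ℝ)) (η : ℝ) (A : Empty → Set V) (C : Set ℝ) (εE : E.ε → ℝ)
    (δ : TBx K → ℝ) (L : TLv G E h ω T η A C εE δ) (Pr : Set M.ι), IsOpen Ω → IsOpen Λ →
    TStage1 G M h h' Pr L.lev ω → OscT G M h.toFun ω →
    ∃ c₁ : TBx K → ℝ, (∀ b, 0 < c₁ b) ∧ ∀ (c : TBx K → ℝ) (hc0 : ∀ b, 0 < c b)
      (hc : ∀ b, c b ≤ δ b / 8), (∀ b, c b ≤ c₁ b) → ∀ (κ : V → V) (g : ConHomeo Ω Λ),
      St2 L hc0 hc Pr h' κ g → ∀ ε : E.ε → ℝ, (∀ e, 0 < ε e) →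
      ∃ e₁ : TBx K → ℝ, (∀ b, 0 < e₁ b) ∧ ∀ (e : TBx K → ℝ) (he : ∀ b, 0 < e b)
        (he8 : ∀ b, e b ≤ δ b / 8)
        (hD : ∀ b, dsp (T b) (δ b) + δ b + 60 * ω b ≤ 62 * ω b) (S : ConHomeo Λ Λ),
        (∀ b, e b ≤ e₁ b) → (L.bfam hc0 hc e (fun b => 62 * ω b) he he8 hD).IsS S →
        (∀ ed j, (∀ b, (h.toFun '' E.seg ed ∩ G.TB false b).Nonempty → b.ax = j) →
          tvE E (g.trans S).toFun ed j ≤ ENNReal.ofReal C₅ *
            (∑' b, L.wt h' false ed b + lenE E h.toFun ed) + ENNReal.ofReal (ε ed)) ∧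
        ∀ ed b, (∀ x ∈ E.seg ed, closedBall (h.toFun x) (30 * ω b) ⊆ G.TB true b) →
          tvE E (g.trans S).toFun ed b.ax ≤ L.wt h' true ed b + ENNReal.ofReal (ε ed)

/-! ### (T1) -/

section T1

variable {Ω Λ : Set V} {v : V} {K : BoxCx Λ v} {S₀ : Rad K} {W : Wid K S₀} {B : Boxes W}
  {G : Geo B} {M : Mesh Ω} {E : Edges M} {h h' : ConHomeo Ω Λ} {ω : TBx K → ℝ}
  {T : TBx K → Finset (ℝ × ℝ)} {η : ℝ} {τ : Type*} {A : τ → Set V} {Cs : Set ℝ} {εE : E.ε → ℝ}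
  {δ : TBx K → ℝ} {L : TLv G E h ω T η A Cs εE δ} {c : TBx K → ℝ} {hc0 : ∀ b, 0 < c b}
  {hc : ∀ b, c b ≤ δ b / 8} {Pr : Set M.ι} {κ : V → V} {g : ConHomeo Ω Λ} {S : ConHomeo Λ Λ}
  {ρ : V → ℝ} {e D : TBx K → ℝ}

/-- **(T1)** -/
theorem t1_of (D2 : St2 L hc0 hc Pr h' κ g) (hρ : SizeFn Λ ρ) (Cl : Cells ρ v K)
    (hA : Aligned v ρ M h.toFun Pr) {he : ∀ b, 0 < e b} {he8 : ∀ b, e b ≤ δ b / 8}
    {hD : ∀ b, dsp (T b) (δ b) + δ b + 60 * ω b ≤ D b}
    (hS : (L.bfam hc0 hc e D he he8 hD).IsS S) :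
    TileAt ρ v M Pr h.toFun (g.trans S).toFun ∧ ImgAt M Pr h.toFun (g.trans S).toFun := by
  have hsat : ∀ b, Sat ρ v (L.bxQ c hc0 hc b).K {(L.bxQ c hc0 hc b).j} := fun b =>
    (sat_TB Cl G b).mono (L.K_sub hc0 hc b) Subset.rfl
  have hκ : TileIff Λ ρ v κ := tileIff_Q (L.bxQ c hc0 hc)
    (fun b => (L.K_sub hc0 hc b).trans (Geo.TB_sub b)) hsat D2.isQ.on D2.isQ.off
  have hST : TileIff Λ ρ v S.toFun := tileIff_isS hS hsat
  have hw : ∀ i ∈ Pr, ∀ x ∈ M.Q i, h'.toFun x = h.toFun x := fun i hi x hx =>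
    (D2.O.wall i hi x hx).self_of_nhds
  have hgen : ∀ i ∈ Pr, OneGen ρ v (h.toFun '' M.Q i) := by
    intro i hi m z m' z' ht ht' h1 h2
    obtain ⟨m₀, hm₀⟩ := hA.gen i hi
    rw [hm₀ m z ht h1, hm₀ m' z' ht' h2]
  refine ⟨round_tile D2.hΩ hρ hA E hgen TileAt.refl (h₂ := h')
    (fun i hi x hx => hw i hi x ((M.poly i).cpt.isClosed.frontier_subset hx)) hκ D2.face
    (fun e _ _ => D2.edge e) (fun x hx _ _ => D2.vert x hx) hST fun x _ => rfl, ?_⟩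
  refine round_image hρ hA (h₂ := h') (fun i hi => ?_) hκ D2.cell S hST fun x _ => rfl
  exact image_congr (hw i hi)

end T1

/-! ### the main theorem -/

/-- the number of the edge -/
noncomputable def bE {Ω : Set V} {M : Mesh Ω} (E : Edges M) (h : V → V) (ε : E.ε → ℝ) (e : E.ε) :
    ℝ := (lenE E h e).toReal + ε e

theorem lenE_ne_top {Ω Λ : Set V} {M : Mesh Ω} (E : Edges M) (h : ConHomeo Ω Λ) (e : E.ε) :
    lenE E h.toFun e ≠ ⊤ :=
  (conical_len_lt_top zero_le_one (Croft.conicalOn_onS h.conical (E.seg_sub_Ω e))).ne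

/-- **[ROUND-T]** from (T5) -/
theorem roundT_of {C₅ : ℝ} (h5 : T5 C₅) (hC₅ : 0 ≤ C₅) : RoundT := by
  refine ⟨3745 + 4 * C₅, by linarith, ?_⟩
  intro η₀ Ω Λ w ρ M h P D K Cl E T μ hμ ω Osc hlen ε hε
  have hΩ : IsOpen Ω := D.bΩ.1
  have hΛ : IsOpen Λ := D.bΛ.1
  -- the numbers
  set μ₁ : ℝ := min μ 1 with hμ₁
  have hμ₁0 : 0 < μ₁ := lt_min hμ one_pos
  have hμ₁1 : μ₁ ≤ 1 := min_le_right _ _
  have hμ₁μ : μ₁ ≤ μ := min_le_left _ _
  have hωo : ∀ b, ω b ≤ oT (D.G Cl) b := fun b => by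
    have := Osc.le b; have := Osc.pos b; linarith
  have hwin : ∀ b, 300 * ω b ≤ μ₁ * ((D.G Cl).thi true b b.ax - (D.G Cl).tlo true b b.ax) := by
    intro b
    rcases le_total μ 1 with h1 | h1
    · rw [hμ₁, min_eq_left h1]; exact hlen b
    · rw [hμ₁, min_eq_right h1, one_mul]
      have h2 := H669.win (D.G Cl) b
      have h3 := Osc.le b
      have h4 := Osc.pos b
      linarith
  set η : ℝ := μ₁ / 32 with hη
  have hη0 : 0 < η := by positivity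
  have hη4 : η ≤ 1 / 4 := by rw [hη]; linarith
  set μ' : ℝ := μ₁ / 4 with hμ'
  have hμ'1 : μ' < 1 := by rw [hμ']; linarith
  set εE : E.ε → ℝ := fun e => ε e / (8 * (1 + C₅)) with hεE
  have hεE0 : ∀ e, 0 < εE e := fun e => div_pos (hε e) (by linarith)
  have hεEε : ∀ e, εE e * (8 * (1 + C₅)) = ε e := fun e => by
    rw [hεE]; field_simp
  have hεE1 : ∀ e, 8 * εE e ≤ ε e := fun e => by
    have h1 := hεEε e
    have h2 := hεE0 e
    nlinarith
  -- the levels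
  obtain ⟨δ, hδω, ⟨L⟩⟩ := H669.exists_tlv hΩ (D.G Cl) E h (ω := ω) Osc.pos hωo
    (A := fun _ : Empty => (∅ : Set V)) (fun t => t.elim)
    (fun x hx => ⟨univ, univ_mem, Set.toFinite _⟩) hεE0 (C := ∅) countable_empty hη0 hη4
    (dmax := ω) Osc.pos (fun _ => ∅) (fun b p hp => absurd hp (Finset.notMem_empty _))
    (fun b => by
      rw [Finset.sum_empty]
      have h2 := H669.win (D.G Cl) b
      have h3 := hωo b
      have h4 := Osc.pos b
      linarith)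
  have hdsp0 : ∀ b, dsp (∅ : Finset (ℝ × ℝ)) (δ b) = δ b := fun b => by
    unfold dsp; rw [Finset.sum_empty, Finset.card_empty]; push_cast; ring
  have hdsp : ∀ b, dsp (∅ : Finset (ℝ × ℝ)) (δ b) + δ b + 60 * ω b ≤ 62 * ω b := fun b => by
    rw [hdsp0]; linarith [hδω b]
  have hb : ∀ b, 60 * ω b + dsp (∅ : Finset (ℝ × ℝ)) (δ b) ≤
      μ' * ((D.G Cl).thi true b b.ax - (D.G Cl).tlo true b b.ax) := fun b => by
    rw [hdsp0]
    have h1 := hwin b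
    have h2 := hδω b
    have h3 := Osc.pos b
    rw [hμ']
    linarith
  -- stages 1 and 2
  obtain ⟨h', O, c₀, hc₀, H12⟩ := L.exists_t12 hΩ hΛ (D.tprot Cl) Osc.osc (fun k => (T k).C)
    (ctr := fun k => (T k).O) (r0 := fun k => (T k).rho) (R := fun k => (T k).R)
    (fun k => (T k).star)
  obtain ⟨c₁, hc₁, H5⟩ := h5 Ω Λ w K _ _ _ (D.G Cl) M E h h' ω _ η _ _ _ δ L P hΩ hΛ O Osc
  set c : TBx K → ℝ := fun b => min (min (c₀ b) (c₁ b)) (δ b / 8) with hcd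
  have hc0 : ∀ b, 0 < c b := fun b =>
    lt_min (lt_min (hc₀ b) (hc₁ b)) (by have := L.δ0 b; positivity)
  have hc : ∀ b, c b ≤ δ b / 8 := fun b => min_le_right _ _
  obtain ⟨κ, hκ, hI, -⟩ := (L.fam345 hc0 hc hΛ).exists_isQ
  obtain ⟨g, Og, hW⟩ := H12 c hc0 hc
    (fun b => (min_le_left _ _).trans (min_le_left _ _)) κ hκ hI
  have D2 : St2 L hc0 hc P h' κ g :=
    ⟨hΩ, hΛ, Osc.osc, O, hκ, Og.img_face, Og.img_edge, Og.img_cell, Og.vert⟩
  -- the numbers of the edges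
  set b : E.ε → ℝ := bE E h.toFun ε with hbd
  have hlt : ∀ e, lenE E h.toFun e ≠ ⊤ := lenE_ne_top E h
  have hb0 : ∀ e, 0 < b e := fun e => add_pos_of_nonneg_of_pos ENNReal.toReal_nonneg (hε e)
  have hble : ∀ e, ENNReal.ofReal (b e) = lenE E h.toFun e + ENNReal.ofReal (ε e) := fun e => by
    rw [hbd, bE, ENNReal.ofReal_add ENNReal.toReal_nonneg (hε e).le, ENNReal.ofReal_toReal (hlt e)]
  have hi1 : (1 - μ')⁻¹ ≤ 1 + μ₁ / 3 := by
    rw [inv_le_iff_one_le_mul₀ (by linarith), hμ']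
    nlinarith
  have hi2 : (1 - 2 * η)⁻¹ ≤ 1 + μ₁ / 15 := by
    rw [inv_le_iff_one_le_mul₀ (by rw [hη]; linarith), hη]
    nlinarith
  have hi1' : (0:ℝ) ≤ (1 - μ')⁻¹ := inv_nonneg.2 (by linarith)
  have hi2' : (0:ℝ) ≤ (1 - 2 * η)⁻¹ := inv_nonneg.2 (by rw [hη]; linarith)
  have hWeE : ∀ e, ENNReal.ofReal (L.We h' e) ≤ ENNReal.ofReal 3 * lenE E h.toFun e +
      ENNReal.ofReal (2 * εE e) := by
    intro e
    refine (L.We_le O hμ'1 hb e).trans ?_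
    rw [mul_add, ← mul_assoc, ← ENNReal.ofReal_mul hi1', ← mul_assoc,
      ← ENNReal.ofReal_mul hi1', show (2:ℝ≥0∞) = ENNReal.ofReal 2 by simp,
      ← ENNReal.ofReal_mul (mul_nonneg hi1' hi2')]
    refine add_le_add (mul_le_mul' (ENNReal.ofReal_le_ofReal ?_) le_rfl)
      (ENNReal.ofReal_le_ofReal ?_)
    · have : (1 - μ')⁻¹ * (1 - 2 * η)⁻¹ ≤ (1 + μ₁ / 3) * (1 + μ₁ / 15) :=
        mul_le_mul hi1 hi2 hi2' (by linarith)
      nlinarith
    · have := hεE0 e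
      nlinarith
  have hWe : ∀ e, L.We h' e ≤ 3 * b e := by
    intro e
    rw [← ENNReal.ofReal_le_ofReal_iff (by linarith [hb0 e])]
    refine (hWeE e).trans ?_
    rw [ENNReal.ofReal_mul (p := 3) (q := b e) (by norm_num), hble, mul_add,
      ← ENNReal.ofReal_mul (by norm_num)]
    refine add_le_add le_rfl (ENNReal.ofReal_le_ofReal ?_)
    have h1 := hεE1 e
    have h2 := hεE0 e
    linarith
  have hWe0 : ∀ e, 0 ≤ L.We h' e := L.We_nonneg h'
  have hne : ∀ e, 0 < ‖E.b e - E.a e‖ := fun e => norm_pos_iff.2 (sub_ne_zero.2 (E.ne e).symm)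
  set La : E.ε → ℝ := laE E (L.We h') with hLa
  have hrho : ∀ k, 0 < (T k).rho := fun k => (T k).star.rho0
  set Sb : M.κ → ℝ := fun k => ∑ e ∈ (E.fin_face k).toFinset, b e with hSb
  have hSb0 : ∀ k, 0 ≤ Sb k := fun k => Finset.sum_nonneg fun e _ => (hb0 e).le
  set εk : M.κ → ℝ := fun k => if 0 < Sb k then Sb k / (T k).rho else 1 with hεk
  have hεk0 : ∀ k, 0 < εk k := fun k => by
    rw [hεk]; dsimp only
    split_ifs with h1
    · exact div_pos h1 (hrho k)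
    · exact one_pos
  set Lf₀ : M.κ → E.ε → ℝ := fun k e => 156 * (1 + (T k).R / (T k).rho) *
    (laE E (L.We h') e + (∑ e ∈ (E.fin_face k).toFinset, L.We h' e) / (T k).rho) with hLf₀
  have hq : ∀ k, 0 ≤ (T k).R / (T k).rho := fun k => div_nonneg (T k).R0 (hrho k).le
  have hlaE0 : ∀ e, 0 ≤ laE E (L.We h') e := fun e =>
    div_nonneg (mul_nonneg (by norm_num) (hWe0 e)) (norm_nonneg _)
  have hLf₀0 : ∀ k e, 0 ≤ Lf₀ k e := fun k e =>
    mul_nonneg (mul_nonneg (by norm_num) (by linarith [hq k])) (add_nonneg (hlaE0 e)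
      (div_nonneg (Finset.sum_nonneg fun e _ => hWe0 e) (hrho k).le))
  obtain ⟨Lam1, hLam0, -, H3⟩ := exists_t3out D2 hW
    (fun b y q hy hq => by
      have h1 := (D.ωT_om Cl hy hq).1
      have h2 := D.ωT_oT Cl b
      have h3 := Osc.le b
      linarith)
    (fun k x hx x' hx' q q' hq hq' => D.cmp Cl hx hx' hq hq')
    hdsp (fun b => by linarith [hc b, hδω b, L.δ0 b, Osc.pos b])
    (O := fun k => (T k).O) (fun k => (T k).mem) (La := La) (Lf := Lf₀) hlaE0 hLf₀0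
    (by
      rintro ed b ⟨k, hk, hed⟩
      obtain ⟨f, hf, hEq⟩ := Og.edge k ⟨b, hk⟩ ed hed
      exact ⟨f, hEq, hf b ⟨k, hk, hed⟩⟩)
    (by
      intro k b hk
      obtain ⟨Φ, hΦ, hEq⟩ := Og.face k ⟨b, hk⟩
      exact ⟨Φ.toFun, hEq, fun e he x hx y hy => (hΦ b hk).1 e he x hx y hy⟩)
  set εe : E.ε → ℝ := fun e => b e / ‖E.b e - E.a e‖ with hεe
  have hεe0 : ∀ e, 0 < εe e := fun e => div_pos (hb0 e) (hne e)
  refine ⟨b, fun e => La e + εe e, fun k e => Lf₀ k e + εk k, ⟨hb0, fun e => (hble e).le,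
    fun e => add_nonneg (hlaE0 e) (hεe0 e).le, fun e => ?_,
    fun k e => add_nonneg (hLf₀0 k e) (hεk0 k).le, fun k e he => ?_⟩, Lam1, hLam0,
    fun σ hσ => ?_⟩
  · -- `La`
    have h1 : (La e + εe e) * ‖E.b e - E.a e‖ = 8 * L.We h' e + b e := by
      have h2 : La e * ‖E.b e - E.a e‖ = 8 * L.We h' e := by
        rw [hLa]; unfold laE; exact div_mul_cancel₀ _ (hne e).ne'
      have h3 : εe e * ‖E.b e - E.a e‖ = b e := by
        rw [hεe]; exact div_mul_cancel₀ _ (hne e).ne'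
      rw [add_mul, h2, h3]
    rw [h1]
    have := hWe e
    have := hb0 e
    nlinarith
  · -- `Lf`
    have hSpos : 0 < Sb k := by
      refine Finset.sum_pos (fun e _ => hb0 e) ⟨e, ?_⟩
      rw [Finite.mem_toFinset]; exact he
    have h1 : εk k = Sb k / (T k).rho := by rw [hεk]; exact if_pos hSpos
    have h2 : laE E (L.We h') e ≤ 24 * (b e / ‖E.b e - E.a e‖) := by
      unfold laE
      rw [← mul_div_assoc]
      exact div_le_div_of_nonneg_right (by linarith [hWe e]) (norm_nonneg _)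
    have h3 : (∑ e ∈ (E.fin_face k).toFinset, L.We h' e) / (T k).rho ≤ 3 * (Sb k / (T k).rho) := by
      rw [← mul_div_assoc]
      refine div_le_div_of_nonneg_right ?_ (hrho k).le
      rw [hSb, Finset.mul_sum]
      exact Finset.sum_le_sum fun e _ => hWe e
    have h4 : 0 ≤ b e / ‖E.b e - E.a e‖ := div_nonneg (hb0 e).le (norm_nonneg _)
    have h5 : 0 ≤ Sb k / (T k).rho := div_nonneg (hSb0 k) (hrho k).le
    show Lf₀ k e + εk k ≤ (3745 + 4 * C₅) * (1 + (T k).R / (T k).rho) *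
      (b e / ‖E.b e - E.a e‖ + Sb k / (T k).rho)
    rw [h1]
    have h6 : 0 ≤ (T k).R / (T k).rho := hq k
    set q := (T k).R / (T k).rho
    set u := b e / ‖E.b e - E.a e‖
    set s := Sb k / (T k).rho
    have h7 : Lf₀ k e ≤ 156 * (1 + q) * (24 * u + 3 * s) := by
      rw [hLf₀]
      exact mul_le_mul_of_nonneg_left (add_le_add h2 h3) (by positivity)
    have h8 : 0 ≤ (1 + q) * u := by positivity
    have h9 : 0 ≤ (1 + q) * s := by positivity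
    have h10 : s ≤ (1 + q) * s := by nlinarith
    have h11 : 0 ≤ C₅ * ((1 + q) * (u + s)) := by positivity
    have e1 : (3745 + 4 * C₅) * (1 + q) * (u + s) = 3745 * ((1 + q) * u) + 3745 * ((1 + q) * s) +
      4 * (C₅ * ((1 + q) * (u + s))) := by ring
    have e2 : 156 * (1 + q) * (24 * u + 3 * s) = 3744 * ((1 + q) * u) + 468 * ((1 + q) * s) := by
      ring
    rw [e1]
    rw [e2] at h7
    linarith
  · obtain ⟨e₁, he₁, H5'⟩ := H5 c hc0 hc
      (fun b => (min_le_left _ _).trans (min_le_right _ _)) κ g D2 (fun e => ε e / 4)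
      fun e => by have := hε e; positivity
    obtain ⟨e, he, he8, S, hee, hS, hsl, HT⟩ := H3 σ e₁ εk εe hσ he₁ hεk0 hεe0
    obtain ⟨htv, htvs⟩ := H5' e he he8 hdsp S hee hS
    obtain ⟨hti, him⟩ := t1_of D2 D.hρ Cl D.al hS
    refine ⟨_, g.trans S, hsl, { toT3Out := HT, tile := hti, img := him, tv := ?_, tvs := ?_ }⟩
    · intro ed j hj
      refine (htv ed j hj).trans ?_
      rw [← L.ofReal_We O]
      exact tv_aux hC₅ (hεE0 ed) (hεEε ed) (hWeE ed)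
    · intro ed b hed
      refine (htvs ed b hed).trans ?_
      exact tvs_aux hμ₁0 hμ₁1 hμ₁μ (hεE0 ed) (hεE1 ed) (L.wt_sharp O hμ'1 b (hb b) true ed)
        (varIn_le_evar zero_le_one (Croft.conicalOn_onS h.conical (E.seg_sub_Ω ed)) b.ax
          (convex_Icc _ _))

end Vale.Agent.P073.H238
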