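import Vale.Agent.P073.H238.StepS

/-!
# P073, H238 (A14.7): locally finite union of ambient homeomorphisms with disjoint supports
-/

open Set Metric Topology Filter

namespace Vale.Agent.P073.H238

open _root_.P073

theorem inv_fix {C : Set V} {Θ : ConHomeo (univ : Set V) (univ : Set V)}
    (hΘ : ∀ y ∉ C, Θ.toFun y = y) : ∀ y ∉ C, Θ.invFun y = y := by
  intro y hy
  have h1 := Θ.inv_apply y
  rwa [hΘ y hy] at h1

theorem maps_supp {C : Set V} {Θ : ConHomeo (univ : Set V) (univ : Set V)}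
    (hΘ : ∀ y ∉ C, Θ.toFun y = y) : ∀ y ∈ C, Θ.toFun y ∈ C := by
  intro y hy
  by_contra h'
  have h2 : Θ.toFun y = y := Θ.injective (hΘ _ h')
  exact h' (by rw [h2]; exact hy)

theorem maps_supp_inv {C : Set V} {Θ : ConHomeo (univ : Set V) (univ : Set V)}
    (hΘ : ∀ y ∉ C, Θ.toFun y = y) : ∀ y ∈ C, Θ.invFun y ∈ C := by
  intro y hy
  by_contra h'
  have h1 := hΘ _ h'
  rw [Θ.apply_inv] at h1
  exact h' (h1 ▸ hy)

/-- **gluing of ambient homeomorphisms with disjoint compact supports, locally finite in `Λ`** -/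
theorem exists_glueAmb {γ : Type*} {Λ : Set V} (hΛ : IsOpen Λ) {P C : γ → Set V}
    (hPo : ∀ c, IsOpen (P c)) (hPΛ : ∀ c, P c ⊆ Λ) (hC : ∀ c, IsCompact (C c))
    (hCP : ∀ c, C c ⊆ P c) (hdis : ∀ c d, c ≠ d → Disjoint (P c) (P d))
    (hlf : ∀ z ∈ Λ, ∃ O ∈ 𝓝 z, {c | (P c ∩ O).Nonempty}.Finite)
    (Θ : γ → ConHomeo (univ : Set V) (univ : Set V))
    (hΘ : ∀ c, ∀ y ∉ C c, (Θ c).toFun y = y) :
    ∃ T : ConHomeo Λ Λ, (∀ c, ∀ y ∈ P c, T.toFun y = (Θ c).toFun y) ∧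
      (∀ c, ∀ y ∈ P c, T.invFun y = (Θ c).invFun y) ∧
      ∀ z ∈ Λ, (∀ c, z ∉ C c) → ∀ᶠ y in 𝓝 z, T.toFun y = y := by
  classical
  have hun : ∀ c d y, y ∈ P c → y ∈ C d → d = c := by
    intro c d y hc hd
    by_contra h1
    exact Set.disjoint_left.1 (hdis d c h1) (hCP d hd) hc
  set f : V → V := fun y => if h : ∃ c, y ∈ C c then (Θ h.choose).toFun y else y with hf
  set k : V → V := fun y => if h : ∃ c, y ∈ C c then (Θ h.choose).invFun y else y with hk
  have hfP : ∀ c, ∀ y ∈ P c, f y = (Θ c).toFun y := by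
    intro c y hy
    by_cases h : ∃ d, y ∈ C d
    · have e : f y = (Θ h.choose).toFun y := dif_pos h
      rw [e, hun c _ y hy h.choose_spec]
    · have e : f y = y := dif_neg h
      rw [e, hΘ c y fun h' => h ⟨c, h'⟩]
  have hkP : ∀ c, ∀ y ∈ P c, k y = (Θ c).invFun y := by
    intro c y hy
    by_cases h : ∃ d, y ∈ C d
    · have e : k y = (Θ h.choose).invFun y := dif_pos h
      rw [e, hun c _ y hy h.choose_spec]
    · have e : k y = y := dif_neg h
      rw [e, inv_fix (hΘ c) y fun h' => h ⟨c, h'⟩]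
  have hf0 : ∀ y, (∀ c, y ∉ C c) → f y = y := fun y hy => dif_neg fun ⟨c, hc⟩ => hy c hc
  have hk0 : ∀ y, (∀ c, y ∉ C c) → k y = y := fun y hy => dif_neg fun ⟨c, hc⟩ => hy c hc
  -- off the supports
  have hoff : ∀ z ∈ Λ, (∀ c, z ∉ C c) → ∀ᶠ y in 𝓝 z, ∀ c, y ∉ C c := by
    intro z hz hzC
    obtain ⟨O, hO, hfin⟩ := hlf z hz
    have h1 : ∀ᶠ y in 𝓝 z, ∀ c ∈ {c | (P c ∩ O).Nonempty}, y ∉ C c :=
      (eventually_all_finite hfin).2 fun c _ =>
        (hC c).isClosed.isOpen_compl.mem_nhds (hzC c)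
    filter_upwards [h1, hO] with y hy hyO c hyc
    exact hy c ⟨y, hCP c hyc, hyO⟩ hyc
  have hloc : ∀ z ∈ Λ, (∃ c, ∀ᶠ y in 𝓝 z, f y = (Θ c).toFun y ∧ k y = (Θ c).invFun y) ∨
      ∀ᶠ y in 𝓝 z, f y = y ∧ k y = y := by
    intro z hz
    by_cases h : ∃ c, z ∈ C c
    · obtain ⟨c, hc⟩ := h
      refine Or.inl ⟨c, ?_⟩
      filter_upwards [(hPo c).mem_nhds (hCP c hc)] with y hy
      exact ⟨hfP c y hy, hkP c y hy⟩
    · push Not at h
      refine Or.inr ?_
      filter_upwards [hoff z hz h] with y hy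
      exact ⟨hf0 y hy, hk0 y hy⟩
  have hmf : MapsTo f Λ Λ := by
    intro y hy
    by_cases h : ∃ c, y ∈ C c
    · obtain ⟨c, hc⟩ := h
      rw [hfP c y (hCP c hc)]
      exact hPΛ c (hCP c (maps_supp (hΘ c) y hc))
    · push Not at h
      rw [hf0 y h]; exact hy
  have hmk : MapsTo k Λ Λ := by
    intro y hy
    by_cases h : ∃ c, y ∈ C c
    · obtain ⟨c, hc⟩ := h
      rw [hkP c y (hCP c hc)]
      exact hPΛ c (hCP c (maps_supp_inv (hΘ c) y hc))
    · push Not at h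
      rw [hk0 y h]; exact hy
  have hkf : ∀ y, k (f y) = y := by
    intro y
    by_cases h : ∃ c, y ∈ C c
    · obtain ⟨c, hc⟩ := h
      rw [hfP c y (hCP c hc), hkP c _ (hCP c (maps_supp (hΘ c) y hc)), (Θ c).inv_apply]
    · push Not at h
      rw [hf0 y h, hk0 y h]
  have hfk : ∀ y, f (k y) = y := by
    intro y
    by_cases h : ∃ c, y ∈ C c
    · obtain ⟨c, hc⟩ := h
      rw [hkP c y (hCP c hc), hfP c _ (hCP c (maps_supp_inv (hΘ c) y hc)), (Θ c).apply_inv]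
    · push Not at h
      rw [hk0 y h, hf0 y h]
  have hcf : ∀ z ∈ Λ, ContinuousAt f z := by
    intro z hz
    rcases hloc z hz with ⟨c, hc⟩ | hc
    · exact (Θ c).continuous.continuousAt.congr (hc.mono fun y hy => hy.1.symm)
    · exact continuousAt_id.congr (hc.mono fun y hy => hy.1.symm)
  have hck : ∀ z ∈ Λ, ContinuousAt k z := by
    intro z hz
    rcases hloc z hz with ⟨c, hc⟩ | hc
    · exact (Θ c).continuous_inv.continuousAt.congr (hc.mono fun y hy => hy.2.symm)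
    · exact continuousAt_id.congr (hc.mono fun y hy => hy.2.symm)
  have hcon : ConicalOn f Λ := by
    intro z hz
    have hΛz : ∀ᶠ y in 𝓝 z, (y ∈ Λ ↔ y ∈ (univ : Set V)) := by
      filter_upwards [hΛ.mem_nhds hz] with y hy
      exact iff_of_true hy (mem_univ y)
    rcases hloc z hz with ⟨c, hc⟩ | hc
    · exact ((Θ c).conical z (mem_univ z)).congr_nhds hΛz (hc.mono fun y hy _ => hy.1)
        hc.self_of_nhds.1
    · exact (conicalOn_id (E := V) isOpen_univ.conicalSet z (mem_univ z)).congr_nhds hΛz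
        (hc.mono fun y hy _ => hy.1) hc.self_of_nhds.1
  refine ⟨⟨f, k, hmf, hmk, fun y _ => hkf y, fun y _ => hfk y,
    fun z hz => (hcf z hz).continuousWithinAt, fun z hz => (hck z hz).continuousWithinAt,
    hcon⟩, hfP, hkP, ?_⟩
  intro z hz hzC
  exact (hoff z hz hzC).mono fun y hy => hf0 y hy

end Vale.Agent.P073.H238
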