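import Vale.Agent.P073.H238.P12A
import Vale.Agent.P073.H238.RoundT
import Vale.Agent.P073.H669.PLevD
import Vale.Agent.P073.H244.PWe

/-!
# P073, H238: **[P12]**, ROUND P up to the map `h3`

`POut`: the output of the exchange (H805) and of the insertion (H345) in ROUND P, with numbers
`La`, `We` which are bounded by the number `b e` of the edge.  `exists_roundP`: existence, from the
output `TOut` of ROUND T; the levels are those of H669 (`PLv`).
-/

open Set Metric Topology Filter MeasureTheory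
open scoped ENNReal

namespace Vale.Agent.P073.H238

open _root_.P073 _root_.P073.Net _root_.P073.PA691
open Vale.Agent.P073.St (V)
open Vale.Agent.P073.H471 Vale.Agent.P073.H267
open Vale.Agent.P073.H73 (Mesh onSeg Aligned)
open Vale.Agent.P073.H193 (Edges)
open Vale.Agent.P073.H669 (PLv PK_convex)
open Vale.Agent.P073.H581 (TileAt ImgAt)
open Vale.Agent.P073.H805 (RIn ROut)
open _root_.P073.Croft (varIn onS cross Crs levs)
open _root_.P073.H236 (T3Out NoSl)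
open _root_.P073.H267 (TNum TOut OscT RoundT tvE lenE)
open _root_.P073.H142 (FStar)
open _root_.P073.H345 (tg tg_ne tg_ne_not PK PB_sub_PK PK_unique PLev Out3P Peel IsQ)
open _root_.P073.H579 (laE AkP EAct CrsPt omX GEP GFP PAct pact_P InsMap)

/-! ### numbers -/

theorem lenE_le_bE {Ω Λ : Set V} {M : Mesh Ω} (E : Edges M) (h : ConHomeo Ω Λ) {ε : E.ε → ℝ}
    (hε : ∀ e, 0 ≤ ε e) (e : E.ε) :
    ENNReal.ofReal (bE E h.toFun ε e) = lenE E h.toFun e + ENNReal.ofReal (ε e) := by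
  rw [bE, ENNReal.ofReal_add ENNReal.toReal_nonneg (hε e), ENNReal.ofReal_toReal (lenE_ne_top E h e)]

theorem bE_pos {Ω Λ : Set V} {M : Mesh Ω} (E : Edges M) (h : ConHomeo Ω Λ) {ε : E.ε → ℝ}
    (hε : ∀ e, 0 < ε e) (e : E.ε) : 0 < bE E h.toFun ε e :=
  add_pos_of_nonneg_of_pos ENNReal.toReal_nonneg (hε e)

theorem TNum.b_le_bE {Ω Λ : Set V} {M : Mesh Ω} {E : Edges M} {h : ConHomeo Ω Λ}
    {T : ∀ k, FStar E k} {C₀ : ℝ} {ε b La : E.ε → ℝ} {Lf : M.κ → E.ε → ℝ}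
    (H : TNum M E h.toFun T C₀ ε b La Lf) (hε : ∀ e, 0 < ε e) (e : E.ε) :
    b e ≤ bE E h.toFun ε e := by
  rw [← ENNReal.ofReal_le_ofReal_iff (bE_pos E h hε e).le, lenE_le_bE E h fun e => (hε e).le]
  exact H.b_le e

theorem con_mono {Ω : Set V} {M : Mesh Ω} {E : Edges M} {k : M.κ} (T : FStar E k) {C C' : ℝ}
    (hC : 0 ≤ C) (hCC : C ≤ C') {b b' : E.ε → ℝ} (hb0 : ∀ e, 0 ≤ b e) (hb : ∀ e, b e ≤ b' e)
    (e : E.ε) : T.con C b e ≤ T.con C' b' e := by
  unfold FStar.con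
  have hρ : 0 < T.rho := T.star.rho0
  have h1 : b e / ‖E.b e - E.a e‖ ≤ b' e / ‖E.b e - E.a e‖ :=
    div_le_div_of_nonneg_right (hb e) (norm_nonneg _)
  have h2 : (∑ e ∈ (E.fin_face k).toFinset, b e) / T.rho ≤
      (∑ e ∈ (E.fin_face k).toFinset, b' e) / T.rho :=
    div_le_div_of_nonneg_right (Finset.sum_le_sum fun e _ => hb e) hρ.le
  have h3 : 0 ≤ b e / ‖E.b e - E.a e‖ := div_nonneg (hb0 e) (norm_nonneg _)
  have h4 : 0 ≤ (∑ e ∈ (E.fin_face k).toFinset, b e) / T.rho :=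
    div_nonneg (Finset.sum_nonneg fun e _ => hb0 e) hρ.le
  exact mul_le_mul hCC (add_le_add h1 h2) (add_nonneg h3 h4) (hC.trans hCC)

/-! ### the output -/

/-- **the output of the exchange and of the insertion in ROUND P** -/
structure POut {η₀ : ℝ} {Ω Λ : Set V} {w : V} {ρ : V → ℝ} {M : Mesh Ω} {h : ConHomeo Ω Λ}
    {P : Set M.ι} {K : BoxCx Λ w} (D : KIn η₀ w ρ M h P) (C : Cells ρ w K) (E : Edges M)
    (h1 : ConHomeo Ω Λ) (T : ∀ k, FStar E k) (b : E.ε → ℝ) (C₂ : ℝ) (L : PLev (D.G C))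
    (mu La We : E.ε → ℝ) (κ₀ κ₁ : V → V) (h2 h3 : ConHomeo Ω Λ) : Prop where
  rin : RIn (D.G C) M h1 P univ L.lv E
  rout : ROut (D.G C) M h1 h2 P univ L.lv E
  isQ₀ : IsQ (L.bx false) κ₀
  isQ₁ : IsQ (L.bx true) κ₁
  ins₀ : InsMap κ₀ Λ Λ
  ins₁ : InsMap κ₁ Λ Λ
  ins : InsMap (κ₁ ∘ κ₀) Λ Λ
  act : PAct M E h2 (κ₁ ∘ κ₀) Λ (AkP (D.G C) M h1 univ) L.kP L.lv L.loP L.hiP L.omP
  out : Out3P (D.G C) M E h1 h2 (κ₁ ∘ κ₀)
    (GEP E h2 (AkP (D.G C) M h1 univ) L.kP L.lv L.loP L.hiP L.omP La mu)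
    (GFP E (AkP (D.G C) M h1 univ) L.lv L.loP L.hiP L.omP La We (fun k => (T k).O)
      (fun k => (T k).rho) fun k => (T k).R) h3
  hWe : ∀ s e, EAct E (AkP (D.G C) M h1 univ) s e → ∀ Y : Finset V,
    (∀ x ∈ Y, CrsPt (E.a e) (E.b e) h2.toFun (L.lv s) x) →
      ∑ x ∈ Y, omX h2.toFun (L.lv s) (L.omP s) x ≤ We e
  We_nonneg : ∀ e, 0 ≤ We e
  We_le : ∀ e, We e ≤ C₂ * b e
  La_nonneg : ∀ e, 0 ≤ La e
  La_le : ∀ e, La e * ‖E.b e - E.a e‖ ≤ C₂ * b e
  /-- the constant of `GFP` -/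
  Lf_le : ∀ k e, 156 * (1 + (T k).R / (T k).rho) *
    (La e + (∑ e ∈ (E.fin_face k).toFinset, We e) / (T k).rho) ≤
      (T k).con (C₂ * (1 + (T k).R / (T k).rho)) b e

section

variable {η₀ : ℝ} {Ω Λ : Set V} {w : V} {ρ : V → ℝ} {M : Mesh Ω} {h h1 : ConHomeo Ω Λ}
  {P : Set M.ι} {K : BoxCx Λ w} {E : Edges M} (D : KIn η₀ w ρ M h P) (C : Cells ρ w K)
  {sl : TBx K → Finset (ℝ × ℝ)} {η : ℝ} {τ : Type*} {A : τ → Set V} {Cs : Set ℝ} {εE : E.ε → ℝ}
  {μ δ : K.S → ℝ} (L : PLv (D.G C) E h1 P sl η A Cs εE μ δ)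

/-- the weights of an edge in a face of a plate: one square and one direction -/
theorem wtP_zero_of_ne (hn : ∀ k, ∀ x ∈ M.F k, ∀ q, h.toFun x ∈ K.cube q →
      ‖h1.toFun x - h.toFun x‖ ≤ (D.G C).om q) {k : M.κ} {s : K.S}
    (hk : AkP (D.G C) M h1 univ s k) {e : E.ε} (he : E.seg e ⊆ M.F k) {i : K.S × Bool}
    (hi : i.1 ≠ s) : L.lev.wtP E h1 (fun i => PK (D.G C) i.1) e i = 0 := by
  have h0 : L.lev.crP E h1 (fun i => PK (D.G C) i.1) e i = ∅ := by
    rw [eq_empty_iff_forall_notMem]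
    rintro t ⟨ht, htP, -⟩
    have h1' : onS h1.toFun (E.a e) (E.b e) t ∈ PK (D.G C) s := by
      refine PB_sub_PK le_rfl s (mem_PB_of_akP D C hn hk (he ?_))
      rw [Edges.seg, segment_eq_image']
      exact ⟨t, ht, rfl⟩
    exact hi (PK_unique htP h1')
  unfold PLev.wtP
  rw [h0]
  simp [cnt]

/-- the weights of an edge in a face of a plate, one direction -/
theorem wtP_one_le (hn : ∀ k, ∀ x ∈ M.F k, ∀ q, h.toFun x ∈ K.cube q →
      ‖h1.toFun x - h.toFun x‖ ≤ (D.G C).om q) {C₀ : ℝ} {ε : E.ε → ℝ}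
    (htv : ∀ e j, (∀ b, (h.toFun '' E.seg e ∩ (D.G C).TB false b).Nonempty → b.ax = j) →
      tvE E h1.toFun e j ≤ ENNReal.ofReal C₀ * lenE E h.toFun e + ENNReal.ofReal (ε e))
    {k : M.κ} {s : K.S} (hk : AkP (D.G C) M h1 univ s k) {e : E.ε} (he : E.seg e ⊆ M.F k)
    (β : Bool) : L.lev.wtP E h1 (fun i => PK (D.G C) i.1) e (s, β) ≤
      ENNReal.ofReal 2 * (ENNReal.ofReal 2 * (ENNReal.ofReal C₀ * lenE E h.toFun e +
        ENNReal.ofReal (ε e)) + ENNReal.ofReal (εE e)) := by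
  rcases dich D C hn hk he β with h2 | h2
  · have h3 := L.lev.wtP_le (K₁ := 2) (L.crs e) (by norm_num) (s, β) (L.om_le_two s β)
    refine h3.trans (mul_le_mul_right (add_le_add (mul_le_mul' (ENNReal.ofReal_le_ofReal ?_) ?_)
      le_rfl) _)
    · have h4 := L.η4
      have h5 := L.η0
      rw [inv_le_iff_one_le_mul₀ (by linarith)]
      linarith
    · refine le_trans ?_ (htv e (tg s β) h2)
      exact varIn_le_evar zero_le_one (Croft.conicalOn_onS h1.conical (E.seg_sub_Ω e)) (tg s β)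
        (PK_convex (D.G C) s)
  · have h0 : L.lev.crP E h1 (fun i => PK (D.G C) i.1) e (s, β) = ∅ := by
      rw [eq_empty_iff_forall_notMem]
      rintro t ⟨ht, -, htl⟩
      have hx : E.a e + t • (E.b e - E.a e) ∈ E.seg e := by
        rw [Edges.seg, segment_eq_image']
        exact ⟨t, ht, rfl⟩
      refine h2 _ hx (L.win s (tg s β) (tg_ne s β) _ ?_)
      exact L.mem_levs.1 htl
    unfold PLev.wtP
    rw [h0]
    simp [cnt]

/-- **the weights of an edge in a face of a plate** -/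
theorem tsum_wtP_act (hn : ∀ k, ∀ x ∈ M.F k, ∀ q, h.toFun x ∈ K.cube q →
      ‖h1.toFun x - h.toFun x‖ ≤ (D.G C).om q) {C₀ : ℝ} {ε : E.ε → ℝ}
    (htv : ∀ e j, (∀ b, (h.toFun '' E.seg e ∩ (D.G C).TB false b).Nonempty → b.ax = j) →
      tvE E h1.toFun e j ≤ ENNReal.ofReal C₀ * lenE E h.toFun e + ENNReal.ofReal (ε e))
    {k : M.κ} {s : K.S} (hk : AkP (D.G C) M h1 univ s k) {e : E.ε} (he : E.seg e ⊆ M.F k) :
    ∑' i, L.lev.wtP E h1 (fun i => PK (D.G C) i.1) e i ≤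
      ENNReal.ofReal 4 * (ENNReal.ofReal 2 * (ENNReal.ofReal C₀ * lenE E h.toFun e +
        ENNReal.ofReal (ε e)) + ENNReal.ofReal (εE e)) := by
  classical
  rw [tsum_eq_sum (s := ({(s, true), (s, false)} : Finset (K.S × Bool))) (fun i hi => ?_)]
  · rw [Finset.sum_pair (by simp)]
    refine (add_le_add (wtP_one_le D C L hn htv hk he true)
      (wtP_one_le D C L hn htv hk he false)).trans (le_of_eq ?_)
    rw [← two_mul, ← mul_assoc, show (2:ℝ≥0∞) = ENNReal.ofReal 2 by simp,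
      ← ENNReal.ofReal_mul (by norm_num)]
    norm_num
  · refine wtP_zero_of_ne D C L hn hk he fun h1 => hi ?_
    obtain ⟨s', β⟩ := i
    dsimp only at h1
    subst h1
    cases β <;> simp

/-- the cells of the levels avoid the slivers -/
theorem bandP_of : _root_.P073.H155.BandP L.lev sl := by
  intro s β n hn b hb p hp
  have h1 := L.lt_a s β n
  have hb' : Vale.Agent.P073.H669.Rel s (tg s β) b := by
    rcases b with e | H
    · exact hb
    · exact hb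
  have h2 := (L.cells s β).sliver n (hn.trans_le (L.N_le s β)) p
    (Vale.Agent.P073.H669.mem_plT.2 ⟨b, hb', hp⟩)
  show p.2 < L.a s β n - 2 * (δ s / 8) ∨ L.a s β n + 2 * (δ s / 8) < p.1
  rcases h2 with h2 | h2
  · right; linarith [h1.2]
  · left; linarith [h1.1]

/-- the input of ROUND P -/
theorem rin_of_tout {T : ∀ k, FStar E k} {C₀ μ₁ : ℝ} {ε LaT : E.ε → ℝ} {Lf : M.κ → E.ε → ℝ}
    {Lam1 : M.κ → ℝ} (HT : TOut (D.G C) M E ρ w P h h1 (ωT η₀ C) T C₀ μ₁ ε LaT Lf Lam1 sl) :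
    RIn (D.G C) M h1 P univ L.lev.lv E := by
  refine Vale.Agent.P073.H805.rin_of D C HT.toT3Out (fun i hi => HT.img i hi) ?_ L.win ?_
    L.reg1 L.reg2
  · intro i hi x hx q hq
    obtain ⟨m, z, h3, h4, -⟩ := Vale.Agent.P073.H267.tile_of C q
    rw [h4] at hq ⊢
    exact HT.tile i hi x hx m z h3 hq
  · intro s l hl t ht b hb
    refine L.hns s l hl t ht b ?_
    rcases b with e | H
    · exact hb
    · exact hb

end

/-- **[P12]**: ROUND P up to `h3`, with a further family `A` for the regularity of the levels -/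
theorem exists_roundP {η₀ : ℝ} {Ω Λ : Set V} {w : V} {ρ : V → ℝ} {M : Mesh Ω}
    {h : ConHomeo Ω Λ} {P : Set M.ι} {K : BoxCx Λ w} (D : KIn η₀ w ρ M h P) (C : Cells ρ w K)
    (E : Edges M) {μ : K.S → ℝ} (hμ : ∀ s, 0 < μ s) :
    ∃ (μ' : K.S → ℝ) (σ : TBx K → ℝ), (∀ s, 0 < μ' s) ∧ (∀ s, μ' s ≤ μ s) ∧ (∀ b, 0 < σ b) ∧
      ∀ {h1 : ConHomeo Ω Λ} {T : ∀ k, FStar E k} {C₀ μ₁ : ℝ} {ε b LaT : E.ε → ℝ}
        {Lf : M.κ → E.ε → ℝ} {Lam1 : M.κ → ℝ} {sl : TBx K → Finset (ℝ × ℝ)} (_ : 1 ≤ C₀)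
        (_ : ∀ e, 0 < ε e) (_ : TNum M E h.toFun T C₀ ε b LaT Lf)
        (_ : TOut (D.G C) M E ρ w P h h1 (ωT η₀ C) T C₀ μ₁ ε LaT Lf Lam1 sl)
        (_ : ∀ b, ∑ p ∈ sl b, (p.2 - p.1) ≤ σ b) {mu : E.ε → ℝ}
        (_ : ∀ e, mu e ∈ Ioc (0:ℝ) (1 / 4)) {τ : Type} {A : τ → Set V}
        (_ : ∀ t, ∀ x ∈ Ω, LocConeAt (A t) x)
        (_ : ∀ x ∈ Ω, ∃ U ∈ 𝓝 x, {t | (A t ∩ U).Nonempty}.Finite)
        {εE : E.ε → ℝ} (_ : ∀ e, 0 < εE e) (_ : ∀ e, εE e ≤ ε e) {Cs : Set ℝ}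
        (_ : Cs.Countable) {η : ℝ} (_ : 0 < η) (_ : η ≤ 1 / 4) {dmax : K.S → ℝ}
        (_ : ∀ s, 0 < dmax s),
        ∃ (δ : K.S → ℝ) (L : PLv (D.G C) E h1 P sl η A Cs εE μ' δ) (La We : E.ε → ℝ)
          (κ₀ κ₁ : V → V) (h2 h3 : ConHomeo Ω Λ), (∀ s, δ s ≤ dmax s) ∧
          POut D C E h1 T (bE E h.toFun ε) (14976 * C₀) L.lev mu La We κ₀ κ₁ h2 h3 := by
  classical
  obtain ⟨μ', σ, hμ'0, hμ', hσ0, H⟩ := H669.exists_plev C (D.G C) hμ
  refine ⟨μ', σ, hμ'0, hμ', hσ0, ?_⟩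
  intro h1 T C₀ μ₁ ε b LaT Lf Lam1 sl hC₀ hε HN HT hσ mu hmu τ A hA hAlf εE hεE hεEε Cs hCs η hη
    hη4 dmax hd
  have hΩ : IsOpen Ω := D.bΩ.1
  have hΛ : IsOpen Λ := D.bΛ.1
  obtain ⟨δ, hδ, ⟨L⟩⟩ := H hΩ E h1 P HT.sl_le hσ hA hAlf hεE hCs hη hη4 hd
  have hR := rin_of_tout D C L HT
  obtain ⟨h2, O⟩ := Vale.Agent.P073.H805.exists_pin hΩ hΛ hR
  obtain ⟨κ₀, κ₁, i₀, i₁, I₀, I₁, I⟩ := _root_.P073.H345.exists_kappaP L.lev hΛ
  have hb0 : ∀ e, 0 < bE E h.toFun ε e := bE_pos E h hε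
  have hne : ∀ e, 0 < ‖E.b e - E.a e‖ := fun e => norm_pos_iff.2 (sub_ne_zero.2 (E.ne e).symm)
  -- the weights
  set We : E.ε → ℝ := fun e => if ∃ s, EAct E (AkP (D.G C) M h1 univ) s e then
    L.lev.WeP E h1 (fun i => PK (D.G C) i.1) 1 e else 0 with hWedef
  have hWe0 : ∀ e, 0 ≤ We e := fun e => by
    rw [hWedef]; dsimp only
    split_ifs
    · exact L.lev.WeP_nonneg zero_le_one e
    · exact le_rfl
  have hfin : ∀ e, ∑' i, L.lev.wtP E h1 (fun i => PK (D.G C) i.1) e i ≠ ⊤ := fun e =>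
    L.lev.tsum_wtP_ne_top (K₁ := 2) (L.crs e) (fun i => PK_convex (D.G C) i.1)
      (fun y => PLev.encard_PK (D.G C) y) (by norm_num) (fun i => L.om_le_two i.1 i.2)
  have hWe : ∀ s e, EAct E (AkP (D.G C) M h1 univ) s e → ∀ Y : Finset V,
      (∀ x ∈ Y, CrsPt (E.a e) (E.b e) h2.toFun (L.lev.lv s) x) →
        ∑ x ∈ Y, omX h2.toFun (L.lev.lv s) (L.lev.omP s) x ≤ We e := by
    intro s e he Y hY
    have h3 : We e = L.lev.WeP E h1 (fun i => PK (D.G C) i.1) 1 e := by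
      rw [hWedef]; exact if_pos ⟨s, he⟩
    rw [h3]
    refine L.lev.hWeP O (fun s β => PB_sub_PK le_rfl s) le_rfl (fun s β => ?_) hfin s e he Y hY
    rw [one_mul]
    exact (L.om_eq s β (!β)).le
  have hWele : ∀ e, We e ≤ 12 * C₀ * bE E h.toFun ε e := by
    intro e
    by_cases he : ∃ s, EAct E (AkP (D.G C) M h1 univ) s e
    · have h3 : We e = L.lev.WeP E h1 (fun i => PK (D.G C) i.1) 1 e := by
        rw [hWedef]; exact if_pos he
      obtain ⟨s, k, hk, hek⟩ := he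
      have h4 := tsum_wtP_act D C L HT.near HT.tv hk hek
      rw [h3]
      unfold PLev.WeP
      rw [one_mul]
      refine ENNReal.toReal_le_of_le_ofReal (by have := hb0 e; positivity) (h4.trans ?_)
      have h5 : lenE E h.toFun e = ENNReal.ofReal (lenE E h.toFun e).toReal :=
        (ENNReal.ofReal_toReal (lenE_ne_top E h e)).symm
      have h6 : (0:ℝ) ≤ (lenE E h.toFun e).toReal := ENNReal.toReal_nonneg
      have h7 : bE E h.toFun ε e = (lenE E h.toFun e).toReal + ε e := rfl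
      have h8 := hε e
      have h9 := hεE e
      have h10 := hεEε e
      rw [h7, h5]
      set ℓ := (lenE E h.toFun e).toReal
      rw [ENNReal.toReal_ofReal h6] 
      rw [← ENNReal.ofReal_mul (by linarith), ← ENNReal.ofReal_add (by positivity) h8.le,
        ← ENNReal.ofReal_mul (by norm_num), ← ENNReal.ofReal_add (by positivity) h9.le,
        ← ENNReal.ofReal_mul (by norm_num)]
      refine ENNReal.ofReal_le_ofReal ?_
      have h11 : ε e ≤ C₀ * ε e := by nlinarith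
      have h12 : 0 ≤ C₀ * ℓ := by positivity
      nlinarith
    · have h3 : We e = 0 := by rw [hWedef]; exact if_neg he
      rw [h3]
      have := hb0 e
      positivity
  -- the numbers of the edges
  set La : E.ε → ℝ := fun e => max (laE E We e) (16 * LaT e) with hLadef
  have hLa0 : ∀ e, 0 ≤ La e := fun e =>
    (mul_nonneg (by norm_num) (HN.La_nonneg e)).trans (le_max_right _ _)
  have hlaE : ∀ e, laE E We e * ‖E.b e - E.a e‖ = 8 * We e := fun e => by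
    unfold laE; exact div_mul_cancel₀ _ (hne e).ne'
  have hLale : ∀ e, La e * ‖E.b e - E.a e‖ ≤ 96 * C₀ * bE E h.toFun ε e := by
    intro e
    have h3 := hWele e
    have h4 := HN.La_le e
    have h5 := TNum.b_le_bE HN hε e
    have h6 := hb0 e
    rw [hLadef]; dsimp only
    rw [max_mul_of_nonneg _ _ (norm_nonneg _), hlaE e]
    refine max_le (by linarith) ?_
    have h7 : C₀ * b e ≤ C₀ * bE E h.toFun ε e := mul_le_mul_of_nonneg_left h5 (by linarith)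
    have h8 : 0 ≤ C₀ * bE E h.toFun ε e := by positivity
    calc 16 * LaT e * ‖E.b e - E.a e‖ = 16 * (LaT e * ‖E.b e - E.a e‖) := by ring
      _ ≤ 16 * (C₀ * bE E h.toFun ε e) := by linarith
      _ ≤ _ := by linarith
  have hLaT : ∀ e s β t, L.lev.omP s (tg s β) t * LaT e ≤ L.lev.c s β * La e := by
    intro e s β t
    rw [L.om_eq_omP]
    have h3 := L.om_le_two s β
    have h4 : 16 * LaT e ≤ La e := le_max_right _ _
    have h5 := L.δ0 s
    have h6 := HN.La_nonneg e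
    show L.om s β * LaT e ≤ δ s / 8 * La e
    calc L.om s β * LaT e ≤ 2 * δ s * LaT e := mul_le_mul_of_nonneg_right h3 h6
      _ = δ s / 8 * (16 * LaT e) := by ring
      _ ≤ _ := mul_le_mul_of_nonneg_left h4 (by linarith)
  obtain ⟨h3, H3⟩ := _root_.P073.H345.exists_insP_gfp (L := L.lev) hΩ HT.toT3Out HT.ends
    (fun k x hx s hxs => _root_.P073.H345.nrm_PK D C HT.near hx hxs) hR O (bandP_of D C L) i₀ i₁ I
    (La := La) (We := We) (mu := mu) hmu hLa0 (fun e => le_max_left _ _) hLaT hWe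
    (fun k => (T k).C) (r0 := fun k => (T k).rho) (Rr := fun k => (T k).R)
    (fun k => (T k).star)
  refine ⟨δ, L, La, We, κ₀, κ₁, h2, h3, hδ, ⟨hR, O, i₀, i₁, I₀, I₁, I, pact_P L.lev hR O i₀ i₁,
    H3, hWe, hWe0, fun e => ?_, hLa0, fun e => ?_, fun k e => ?_⟩⟩
  · have h4 := hWele e
    have h5 := hb0 e
    have h6 : 0 ≤ C₀ * bE E h.toFun ε e := by positivity
    linarith
  · have h4 := hLale e
    have h5 := hb0 e
    have h6 : 0 ≤ C₀ * bE E h.toFun ε e := by positivity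
    linarith
  · have hρ : 0 < (T k).rho := (T k).star.rho0
    have hq : 0 ≤ (T k).R / (T k).rho := div_nonneg (T k).R0 hρ.le
    have h4 : La e ≤ 96 * C₀ * (bE E h.toFun ε e / ‖E.b e - E.a e‖) := by
      rw [← mul_div_assoc, le_div_iff₀ (hne e)]
      exact hLale e
    have h5 : (∑ e ∈ (E.fin_face k).toFinset, We e) / (T k).rho ≤
        12 * C₀ * ((∑ e ∈ (E.fin_face k).toFinset, bE E h.toFun ε e) / (T k).rho) := by
      rw [← mul_div_assoc]
      refine div_le_div_of_nonneg_right ?_ hρ.le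
      rw [Finset.mul_sum]
      exact Finset.sum_le_sum fun e _ => hWele e
    have h6 : 0 ≤ (∑ e ∈ (E.fin_face k).toFinset, bE E h.toFun ε e) / (T k).rho :=
      div_nonneg (Finset.sum_nonneg fun e _ => (hb0 e).le) hρ.le
    unfold FStar.con
    set q := (T k).R / (T k).rho
    set u := bE E h.toFun ε e / ‖E.b e - E.a e‖
    set s := (∑ e ∈ (E.fin_face k).toFinset, bE E h.toFun ε e) / (T k).rho
    have h7 : La e + (∑ e ∈ (E.fin_face k).toFinset, We e) / (T k).rho ≤ 96 * C₀ * (u + s) := by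
      have h8 : 0 ≤ C₀ * s := by positivity
      have h9 : 96 * C₀ * (u + s) = 96 * C₀ * u + 12 * C₀ * s + 84 * (C₀ * s) := by ring
      rw [h9]
      linarith
    calc 156 * (1 + q) * (La e + (∑ e ∈ (E.fin_face k).toFinset, We e) / (T k).rho)
        ≤ 156 * (1 + q) * (96 * C₀ * (u + s)) := mul_le_mul_of_nonneg_left h7 (by positivity)
      _ = _ := by ring

end Vale.Agent.P073.H238
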