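import Vale.Agent.P073.H579.RTA

/-!
# P073, H238: **[ZW]**: STEP S leaves the map alone on further closed boxes

`ZWall`: large closed boxes; on the faces which are cleaned and meet them the map is affine.
-/

open Set Metric Topology Filter
open scoped ENNReal

namespace Vale.Agent.P073.H238

open _root_.P073 _root_.P073.TR _root_.P073.SCH _root_.P073.H339 _root_.P073.Net _root_.P073.PA691
open _root_.P073.PR720 (LF)
open Vale.Agent.P073.H471 Vale.Agent.P073.H267 Vale.Agent.P073.H267.Geo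
open Vale.Agent.P073.H73 (Mesh)
open Vale.Agent.P073.H579 (TLevG TStageW PWall setupW)

open Vale.Agent.P073.H238.K3 (ZWall)

variable {Ω Λ : Set V} {v : V} {K : BoxCx Λ v} {S : Rad K} {Wd : Wid K S} {B : Boxes Wd}

/-- no circles in the traces on a face on which the map is affine -/
theorem noCirc_aff {M : Mesh Ω} {h : ConHomeo Ω Λ} {k : M.κ} {A : V →ᴬ[ℝ] V}
    (hA : EqOn h.toFun A (M.F k)) {n : Fin 3} {t : ℝ}
    (hreg : ∀ x ∈ M.F k, h.toFun x n = t →
      H805.Reg (fun y => h.toFun y n) (fun _ : Unit => M.F k) x)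
    {σ : Set H579.P} (hσ : IsCircle σ)
    (hs : σ ⊆ {z | z ∈ (meshFace M k).C ∧ h.toFun ((meshFace M k).ch z) n = t}) : False := by
  set F := meshFace M k with hF
  obtain ⟨z0, hz0⟩ := Fam.circle_nonempty hσ
  let ℓ : H579.P →L[ℝ] ℝ := LinearMap.toContinuousLinearMap
    ((LinearMap.proj n : V →ₗ[ℝ] ℝ) ∘ₗ (A.linear : V →ₗ[ℝ] V) ∘ₗ F.L)
  have hℓ : ∀ z ∈ F.C, h.toFun (F.ch z) n = A F.o n + ℓ z := by
    intro z hz
    rw [hA (F.ch_mem hz)]
    show A (F.o + F.L z) n = A F.o n + (A.linear (F.L z)) n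
    have h1 : F.o + F.L z = F.L z +ᵥ F.o := add_comm _ _
    rw [h1, A.map_vadd]
    show (A.linear (F.L z) + A F.o) n = _
    rw [Pi.add_apply, add_comm]
  have hne : ℓ ≠ 0 := by
    intro h0
    have hx0 : F.ch z0 ∈ M.F k := F.ch_mem (hs hz0).1
    obtain ⟨τ, r, hr, hadd, hiff⟩ := hreg _ hx0 (hs hz0).2
    have hr2 : ‖r / 2‖ < r := by rw [Real.norm_eq_abs, abs_of_pos (by linarith)]; linarith
    have h0r : ‖(0 : V)‖ < r := by rw [norm_zero]; exact hr
    have h1 := (hiff () 0 (r / 2) h0r hr2).2 (by rw [add_zero]; exact hx0)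
    have h2 := hadd 0 (r / 2) h0r hr2
    obtain ⟨z1, hz1, hz1e⟩ := F.exists_ch h1
    rw [← hz1e, add_zero] at h2
    have h3 := hℓ z1 hz1
    have h4 := hℓ z0 (hs hz0).1
    rw [h0, zero_apply, add_zero] at h3 h4
    simp only [h3, h4] at h2
    linarith
  refine no_circle_line hne (t := t - A F.o n) hσ fun z hz => ?_
  have h1 := hℓ z (hs hz).1
  have h2 : h.toFun (F.ch z) n = t := (hs hz).2
  linarith

theorem walls_of_zwall {G : Geo B} {M : Mesh Ω} {h : ConHomeo Ω Λ} {Act₀ : Set M.κ}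
    {G₀ : Set (TBx K)} {L : TBx K → Set ℝ} {ω : TBx K → ℝ} {Zw : Set (Set V)}
    (R : ZWall G M h Act₀ G₀ ω Zw) (T : TLevG G M h G₀ L ω) {b : TBx K} (hb : b ∈ G₀) :
    Walls h (fun j : {k // k ∈ Act₀ ∧ TAct G M h L b k} => meshFace M j.1) (lvl b (L b)) (ω b)
      {Q | Q ∈ Zw ∧ (Q ∩ G.TB false b).Nonempty} := by
  have hω := T.ω0 b
  refine ⟨R.fin b hb, ?_, ?_, ?_, ?_, ?_, ?_⟩
  · rintro Q ⟨hQ, hne⟩
    obtain ⟨lo, hi', he, -⟩ := R.box Q hQ b hb hne
    rw [he]; exact isClosed_Icc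
  · rintro Q ⟨hQ, hne⟩
    obtain ⟨lo, hi', he, -⟩ := R.box Q hQ b hb hne
    rw [he]; exact (convex_Icc _ _).isPreconnected
  · rintro Q ⟨hQ, -⟩ ⟨k, hk0, hk⟩ ⟨σ, hσ, hs⟩
    rw [Set.disjoint_left]
    rintro y hyQ ⟨_, ⟨z, hz, rfl⟩, hzy⟩
    obtain ⟨A, hA⟩ := R.aff Q hQ k hk0
      ⟨y, ⟨_, (meshFace M k).ch_mem (interior_subset hz), hzy⟩, hyQ⟩
    -- all points of the circle are at one level
    obtain ⟨z0, hz0⟩ := Fam.circle_nonempty hσ
    have hlev : ∀ z ∈ σ, z ∈ (meshFace M k).C ∧ h.toFun ((meshFace M k).ch z) b.ax ∈ L b := by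
      intro z hz
      obtain ⟨hzC, q, ⟨t, ht, rfl⟩, hzq⟩ := hs hz
      refine ⟨hzC, ?_⟩
      have h1 : h.toFun ((meshFace M k).ch z) b.ax = t := hzq
      rw [h1]; exact ht
    have hpre : IsPreconnected σ := by
      obtain ⟨D, hD, rfl⟩ := schoenflies hσ
      exact _root_.P073.SCH.AmbDisc.isPreconnected_frontier hD
    have hcont : ContinuousOn (fun z => h.toFun ((meshFace M k).ch z) b.ax) σ := by
      have h1 : ContinuousOn (fun z => h.toFun ((meshFace M k).ch z)) σ :=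
        h.cont.comp (meshFace M k).continuous_ch.continuousOn fun z hz =>
          mesh_sub M k ((meshFace M k).ch_mem (hlev z hz).1)
      exact (continuous_apply b.ax).comp_continuousOn h1
    have hsub : ((fun z => h.toFun ((meshFace M k).ch z) b.ax) '' σ).Subsingleton := by
      by_contra hnt
      rw [Set.not_subsingleton_iff] at hnt
      refine (hpre.image _ hcont).infinite_of_nontrivial hnt ((T.fin b).subset ?_)
      rintro _ ⟨z, hz, rfl⟩
      exact (hlev z hz).2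
    refine noCirc_aff hA (n := b.ax) (t := h.toFun ((meshFace M k).ch z0) b.ax) ?_ hσ ?_
    · intro x hx hxt
      exact T.reg b k x hx (interior_subset (T.mem hb hk hx)) (by rw [hxt]; exact (hlev z0 hz0).2)
    · intro z hz
      exact ⟨(hlev z hz).1, hsub ⟨z, hz, rfl⟩ ⟨z0, hz0, rfl⟩⟩
  · rintro Q ⟨hQ, hne⟩ q -
    obtain ⟨lo, hi', he, -⟩ := R.box Q hQ b hb hne
    rw [he]
    have hP : Convex ℝ (Pl q.1 q.2) := by
      intro x hx y hy a c ha hc hac
      have e1 : x q.1 = q.2 := hx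
      have e2 : y q.1 = q.2 := hy
      show (a • x + c • y) q.1 = q.2
      rw [Pi.add_apply, Pi.smul_apply, Pi.smul_apply, e1, e2, smul_eq_mul, smul_eq_mul,
        ← add_mul, hac, one_mul]
    exact ((convex_Icc _ _).inter hP).isPreconnected
  · rintro Q ⟨hQ, hne⟩ q - ⟨w, hw, hwq⟩
    obtain ⟨lo, hi', he, hl⟩ := R.box Q hQ b hb hne
    have hlt : ∀ k, lo k < hi' k := fun k => by linarith [hl k]
    rw [he] at hw ⊢
    obtain ⟨k, hk⟩ := exists_ne q.1
    have hmem : ∀ s, lo k ≤ s → s ≤ hi' k → Function.update w k s ∈ Icc lo hi' ∩ Pl q.1 q.2 := by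
      intro s h1 h2
      refine ⟨⟨fun j => ?_, fun j => ?_⟩, ?_⟩
      · by_cases hj : j = k
        · subst hj; simpa using h1
        · simpa [hj] using hw.1 j
      · by_cases hj : j = k
        · subst hj; simpa using h2
        · simpa [hj] using hw.2 j
      · show Function.update w k s q.1 = q.2
        rw [Function.update_of_ne hk.symm]; exact hwq
    refine ⟨_, hmem (lo k) le_rfl (hlt k).le, _, hmem (hi' k) (hlt k).le le_rfl, ?_⟩
    have h1 := dist_le_pi_dist (Function.update w k (lo k)) (Function.update w k (hi' k)) k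
    rw [Function.update_self, Function.update_self, Real.dist_eq,
      abs_sub_comm, abs_of_pos (by linarith [hlt k])] at h1
    have := hl k
    linarith
  · rintro Q ⟨hQ, hne⟩
    obtain ⟨lo, hi', he, hl⟩ := R.box Q hQ b hb hne
    have hlt : ∀ k, lo k < hi' k := fun k => by linarith [hl k]
    rw [he]
    refine ⟨lo, ⟨fun _ => le_rfl, fun k => (hlt k).le⟩, hi', ⟨fun k => (hlt k).le, fun _ => le_rfl⟩,
      ?_⟩
    have h1 := dist_le_pi_dist lo hi' 0
    rw [Real.dist_eq, abs_sub_comm, abs_of_pos (by linarith [hlt 0])] at h1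
    have := hl 0
    linarith

/-- the union of two families of walls -/
theorem Walls.union {J : Type*} {h : ConHomeo Ω Λ} {A : J → Set V}
    {F : ∀ j, PFace (A j)} {Lv : Set (Fin 3 × ℝ)} {ω : ℝ} {𝒬 𝒬' : Set (Set V)}
    (H : Walls h F Lv ω 𝒬) (H' : Walls h F Lv ω 𝒬') : Walls h F Lv ω (𝒬 ∪ 𝒬') where
  fin := H.fin.union H'.fin
  closed := fun Q hQ => hQ.elim (H.closed Q) (H'.closed Q)
  conn := fun Q hQ => hQ.elim (H.conn Q) (H'.conn Q)
  off := fun Q hQ => hQ.elim (H.off Q) (H'.off Q)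
  tr_conn := fun Q hQ => hQ.elim (H.tr_conn Q) (H'.tr_conn Q)
  tr_big := fun Q hQ => hQ.elim (H.tr_big Q) (H'.tr_big Q)
  big := fun Q hQ => hQ.elim (H.big Q) (H'.big Q)

/-- **[tstage1-W] with further walls** -/
theorem exists_tstageWZ {G : Geo B} {M : Mesh Ω} {h : ConHomeo Ω Λ} {Pr : Set M.ι}
    {L : TBx K → Set ℝ} {ω : TBx K → ℝ} (hΩ : IsOpen Ω) (hΛ : IsOpen Λ) {G₀ : Set (TBx K)}
    (T : TLevG G M h G₀ L ω) (R : PWall G M h Pr G₀) {W : Set M.ι} {Act₀ : Set M.κ}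
    (hA : ∀ k ∈ Act₀, ∀ i ∈ Pr, ¬ M.F k ⊆ M.Q i)
    (hW : ∀ k ∈ Act₀, ∀ i ∈ W, ¬ M.F k ⊆ M.Q i) {Zw : Set (Set V)}
    (HZ : ZWall G M h Act₀ G₀ ω Zw) :
    ∃ h' : ConHomeo Ω Λ, TStageW G M h h' Pr W Act₀ G₀ L ω ∧
      ∀ Q ∈ Zw, ∀ x ∈ Ω, h.toFun x ∈ Q → ∀ᶠ y in 𝓝 x, h'.toFun y = h.toFun y := by
  have hfin : ∀ b : G₀, Finite {k // k ∈ Act₀ ∧ TAct G M h L b.1 k} := by
    intro b
    obtain ⟨hc, hcΩ, hcm⟩ := cpt_preimage h (Q := G.TB false b.1) isCompact_Icc (TB_sub b.1)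
    refine ((M.ffin _ hcΩ hc).subset ?_).to_subtype
    rintro k ⟨-, x, hx, hxb, -⟩
    exact ⟨x, hx, hcm x (mesh_sub M k hx) (TB_true_subset b.1 hxb)⟩
  obtain ⟨h', O⟩ := step_t hΩ hΛ (fun b : G₀ => setupW hΩ hΛ T hW b.2)
    (fun b => (R.walls T hA b.2).union (walls_of_zwall HZ T b.2))
    (fun b b' hne => ((disjoint_TB fun hh => hne (Subtype.ext hh)).mono_right
      interior_subset).mono (T.sub b.1) (T.sub b'.1))
    (fun z hz => by
      obtain ⟨U, hU, hf⟩ := lf_TB G z hz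
      refine ⟨U, hU, (hf.preimage (f := fun b : G₀ => b.1) Subtype.val_injective.injOn).subset ?_⟩
      rintro b ⟨y, hy, hyU⟩
      exact ⟨y, interior_subset (T.sub b.1 hy), hyU⟩)
  -- a point in a middle zone is not in another box
  have hone : ∀ b b' (y : V), y ∈ interior (TMid G b (ω b)) → y ∈ G.TB false b' → b = b' := by
    intro b b' y hy hy'
    by_contra hbb
    exact (disjoint_TB hbb).notMem_of_mem_left (T.sub b hy) hy'
  have hoff' : ∀ x ∈ Ω, (∀ b ∈ G₀, h.toFun x ∉ interior (TMid G b (ω b))) →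
      ∀ᶠ y in 𝓝 x, h'.toFun y = h.toFun y := fun x hx h1 => O.off x hx fun b => h1 b.1 b.2
  have hmemM : ∀ b, ∀ x ∈ Ω, (h'.toFun x ∈ interior (TMid G b (ω b)) ↔
      h.toFun x ∈ interior (TMid G b (ω b))) := by
    intro b x hx
    by_cases hb : b ∈ G₀
    · exact O.mem ⟨b, hb⟩ x hx
    by_cases h1 : ∃ b' ∈ G₀, h.toFun x ∈ interior (TMid G b' (ω b'))
    · obtain ⟨b', hb'G, hb'⟩ := h1
      have hb'' := (O.mem ⟨b', hb'G⟩ x hx).2 hb'
      constructor
      · intro h2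
        have h3 := hone b' b _ hb'' (interior_subset (T.sub b h2))
        exact absurd (h3 ▸ hb'G) hb
      · intro h2
        have h3 := hone b' b _ hb' (interior_subset (T.sub b h2))
        exact absurd (h3 ▸ hb'G) hb
    · push Not at h1
      rw [(hoff' x hx h1).self_of_nhds]
  have hmemB : ∀ b, ∀ x ∈ Ω, (h'.toFun x ∈ G.TB false b ↔ h.toFun x ∈ G.TB false b) := by
    intro b x hx
    by_cases h1 : ∃ b' ∈ G₀, h.toFun x ∈ interior (TMid G b' (ω b'))
    · obtain ⟨b', -, hb'⟩ := h1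
      have hb'' := (hmemM b' x hx).2 hb'
      constructor
      · intro h2
        have h3 := hone b' b _ hb'' h2
        subst h3
        exact interior_subset (T.sub b' hb')
      · intro h2
        have h3 := hone b' b _ hb' h2
        subst h3
        exact interior_subset (T.sub b' hb'')
    · push Not at h1
      rw [(hoff' x hx h1).self_of_nhds]
  have hmemI : ∀ b, ∀ x ∈ Ω, (h'.toFun x ∈ interior (G.TB false b) ↔
      h.toFun x ∈ interior (G.TB false b)) := by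
    intro b x hx
    by_cases h1 : ∃ b' ∈ G₀, h.toFun x ∈ interior (TMid G b' (ω b'))
    · obtain ⟨b', -, hb'⟩ := h1
      have hb'' := (hmemM b' x hx).2 hb'
      constructor
      · intro h2
        have h3 := hone b' b _ hb'' (interior_subset h2)
        subst h3
        exact T.sub b' hb'
      · intro h2
        have h3 := hone b' b _ hb' (interior_subset h2)
        subst h3
        exact T.sub b' hb''
    · push Not at h1
      rw [(hoff' x hx h1).self_of_nhds]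
  have hother : ∀ b ∉ G₀, ∀ x ∈ Ω, h.toFun x ∈ G.TB false b →
      ∀ᶠ y in 𝓝 x, h'.toFun y = h.toFun y := by
    intro b hb x hx hxb
    refine hoff' x hx fun b' hb' h2 => hb ?_
    rw [← hone b' b _ h2 hxb]
    exact hb'
  have hkeep : ∀ b, ∀ x ∈ _root_.Vale.Agent.P073.H579.skelW M W, h'.toFun x ∈ G.TB false b → h'.toFun x b.ax ∈ L b →
      ∀ᶠ y in 𝓝 x, h'.toFun y = h.toFun y := by
    intro b x hx hxb hxL
    have hxΩ : x ∈ Ω := _root_.Vale.Agent.P073.H579.skelW_sub M W hx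
    by_cases h1 : ∃ b' ∈ G₀, h.toFun x ∈ interior (TMid G b' (ω b'))
    · obtain ⟨b', hb'G, hb'⟩ := h1
      have h3 := hone b' b _ ((hmemM b' x hxΩ).2 hb') hxb
      subst h3
      exact O.keep ⟨b', hb'G⟩ x hxΩ hx hb' (b'.ax, h'.toFun x b'.ax) ⟨_, hxL, rfl⟩ rfl
    · push Not at h1
      exact hoff' x hxΩ h1
  have hnear : ∀ b, ∀ x ∈ _root_.Vale.Agent.P073.H579.skelW M W, h.toFun x ∈ G.TB false b →
      dist (h'.toFun x) (h.toFun x) ≤ 6 * ω b := by
    intro b x hx hxb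
    have hxΩ : x ∈ Ω := _root_.Vale.Agent.P073.H579.skelW_sub M W hx
    by_cases h1 : ∃ b' ∈ G₀, h.toFun x ∈ interior (TMid G b' (ω b'))
    · obtain ⟨b', hb'G, hb'⟩ := h1
      have h3 := hone b' b _ hb' hxb
      subst h3
      exact O.near ⟨b', hb'G⟩ x hxΩ hx hb'
    · push Not at h1
      rw [(hoff' x hxΩ h1).self_of_nhds, dist_self]
      linarith [T.ω0 b]
  refine ⟨h', ⟨fun x hx h1 => hoff' x hx fun b hb hb' => h1 b hb (T.sub b hb'), hoff', hmemM,
    hmemI, hmemB, hother, hkeep, hnear, ?_, ?_, ?_, ?_, ?_⟩, ?_⟩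
  · intro b x hxΩ hxb
    by_cases h1 : ∃ b' ∈ G₀, h.toFun x ∈ interior (TMid G b' (ω b'))
    · obtain ⟨b', hb'G, hb'⟩ := h1
      have h3 := hone b' b _ hb' hxb
      subst h3
      exact O.all ⟨b', hb'G⟩ x hxΩ hb'
    · push Not at h1
      rw [(hoff' x hxΩ h1).self_of_nhds, dist_self]
      linarith [T.ω0 b]
  · intro b hb k hk0 hk t ht σ hσ
    exact O.noCirc ⟨b, hb⟩ ⟨k, hk0, hk⟩ (b.ax, t) ⟨t, ht, rfl⟩ σ hσ
  · rintro b k ⟨x, hx, hxb, hxL⟩
    have h1 := (hkeep b x (_root_.Vale.Agent.P073.H579.skel_subW M W (mem_iUnion.2 ⟨k, hx⟩)) (TB_true_subset b hxb)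
      hxL).self_of_nhds
    rw [h1] at hxb hxL
    exact ⟨x, hx, hxb, hxL⟩
  · intro b hbG k hk x hx
    have hxΩ := mesh_sub M k hx
    have hxI := T.memM hbG hk hx
    refine ⟨T.sub b ((hmemM b x hxΩ).2 hxI), ?_⟩
    obtain ⟨x0, hx0, hxb, hxL⟩ := hk
    have h1 := T.osc b hbG k x0 hx0 x hx (TB_true_subset b hxb)
    have h2 := hnear b x (_root_.Vale.Agent.P073.H579.skel_subW M W (mem_iUnion.2 ⟨k, hx⟩)) (interior_subset (T.sub b hxI))
    have h3 := dist_triangle_right (h'.toFun x) (h.toFun x0) (h.toFun x)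
    have h4 : dist (h'.toFun x) (h.toFun x0) ≤ 7 * ω b := by linarith
    have hω := T.ω0 b
    rw [dist_pi_le_iff (by positivity)] at h4
    have h5 := T.lev b _ hxL
    constructor
    · have h6 := h4 b.ax
      rw [Real.dist_eq, abs_le] at h6
      constructor <;> linarith [h6.1, h6.2, h5.1, h5.2]
    · intro j _
      have h6 := h4 j
      rw [Real.dist_eq, abs_le] at h6
      have h7 := hxb.1 j
      have h8 := hxb.2 j
      constructor <;> linarith [h6.1, h6.2]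
  · intro i hi x hx
    have hxΩ := M.sub i hx
    by_cases h1 : ∃ b ∈ G₀, h.toFun x ∈ interior (TMid G b (ω b))
    · obtain ⟨b, hbG, hb⟩ := h1
      exact O.wall ⟨b, hbG⟩ _ (Or.inl ⟨i, hi, rfl, ⟨_, ⟨x, hx, rfl⟩, interior_subset (T.sub b hb)⟩⟩) x hxΩ
        hb ⟨x, hx, rfl⟩
    · push Not at h1
      exact hoff' x hxΩ h1
  · intro Q hQ x hx hxQ
    by_cases h1 : ∃ b ∈ G₀, h.toFun x ∈ interior (TMid G b (ω b))
    · obtain ⟨b, hbG, hb⟩ := h1
      exact O.wall ⟨b, hbG⟩ Q (Or.inr ⟨hQ, _, hxQ, interior_subset (T.sub b hb)⟩) x hx hb hxQ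
    · push Not at h1
      exact hoff' x hx h1

end Vale.Agent.P073.H238
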