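import Vale.Agent.P073.H238.RT1Defs
import Vale.Agent.P073.H238.ZW
import Vale.Agent.P073.H196.RTLam
import Vale.Agent.P073.H196.RTRect
import Vale.Agent.P073.H155.RT3D

/-!
# P073, H238: **[K3-RT]**, composition, first half: everything before the staircases
-/

open Set Metric Topology Filter
open scoped ENNReal

namespace Vale.Agent.P073.H238.K3

open _root_.P073 _root_.P073.Net _root_.P073.PA691 _root_.P073.H236 _root_.P073.H579
open _root_.P073.H267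
open _root_.P073.H196 (FixD)
open _root_.P073.H142 (FStar)
open _root_.P073.H345 (PK IsQ)
open _root_.P073.PR720 (LF)
open Vale.Agent.P073.St (V)
open Vale.Agent.P073.H471 Vale.Agent.P073.H267 Vale.Agent.P073.H267.Geo
open Vale.Agent.P073.H73 (Mesh)
open Vale.Agent.P073.H193 (Edges Cyc)
open Vale.Agent.P073.H304 (Nb In Zmax)
open Vale.Agent.P073.H669 (TLv pV)
open Vale.Agent.P073.H669.TLv (OutW offT)
open Vale.Agent.P073.H579 (TStageW)
open _root_.P073.H155 (Giv)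
open Vale.Agent.P073.H926

/-! ### gaps -/

theorem exists_pos_le (F : Finset ℝ) (h : ∀ t ∈ F, 0 < t) : ∃ g > 0, ∀ t ∈ F, g ≤ t := by
  rcases F.eq_empty_or_nonempty with rfl | hne
  · exact ⟨1, one_pos, fun t ht => absurd ht (Finset.notMem_empty _)⟩
  · exact ⟨F.min' hne, h _ (F.min'_mem hne), fun t ht => F.min'_le t ht⟩

theorem exists_gap {lo hi : ℝ} (hlh : lo < hi) (s : Finset ℝ)
    (hs : ∀ x ∈ s, lo < x ∧ x < hi) : ∃ g > 0, lo + g ≤ hi ∧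
      (∀ x ∈ s, lo + g ≤ x ∧ x + g ≤ hi) ∧ ∀ x ∈ s, ∀ y ∈ s, x < y → x + g ≤ y := by
  classical
  obtain ⟨g₁, h1, h1'⟩ := exists_pos_le (s.image fun x => x - lo) (by
    intro t ht
    obtain ⟨x, hx, rfl⟩ := Finset.mem_image.1 ht
    linarith [(hs x hx).1])
  obtain ⟨g₂, h2, h2'⟩ := exists_pos_le (s.image fun x => hi - x) (by
    intro t ht
    obtain ⟨x, hx, rfl⟩ := Finset.mem_image.1 ht
    linarith [(hs x hx).2])
  obtain ⟨g₃, h3, h3'⟩ := exists_pos_le (((s ×ˢ s).filter fun p => p.1 < p.2).image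
    fun p => p.2 - p.1) (by
    intro t ht
    obtain ⟨p, hp, rfl⟩ := Finset.mem_image.1 ht
    linarith [(Finset.mem_filter.1 hp).2])
  refine ⟨min (min g₁ g₂) (min g₃ (hi - lo)), lt_min (lt_min h1 h2)
    (lt_min h3 (by linarith)), ?_, fun x hx => ⟨?_, ?_⟩, fun x hx y hy hxy => ?_⟩
  · have := (min_le_right (min g₁ g₂) (min g₃ (hi - lo))).trans (min_le_right _ _)
    linarith
  · have a1 := (min_le_left (min g₁ g₂) (min g₃ (hi - lo))).trans (min_le_left _ _)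
    have a2 : g₁ ≤ x - lo := h1' _ (Finset.mem_image_of_mem (fun x => x - lo) hx)
    linarith
  · have a1 := (min_le_left (min g₁ g₂) (min g₃ (hi - lo))).trans (min_le_right _ _)
    have a2 : g₂ ≤ hi - x := h2' _ (Finset.mem_image_of_mem (fun x => hi - x) hx)
    linarith
  · have a1 := (min_le_right (min g₁ g₂) (min g₃ (hi - lo))).trans (min_le_left _ _)
    have a2 : g₃ ≤ y - x := h3' _ (Finset.mem_image_of_mem (fun p : ℝ × ℝ => p.2 - p.1)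
      (Finset.mem_filter.2 ⟨Finset.mem_product.2 ⟨hx, hy⟩, hxy⟩ : (x, y) ∈ _))
    linarith

/-- a positive function on the boxes, below the values at all boxes which meet the box -/
theorem exists_nbmin {Λ : Set V} {w : V} {K : BoxCx Λ w} {S₀ : Rad K} {Wd : Wid K S₀}
    {B : Boxes Wd} (G : Geo B) {f : TBx K → ℝ} (hf : ∀ b, 0 < f b) :
    ∃ f' : TBx K → ℝ, (∀ b, 0 < f' b) ∧ (∀ b, f' b ≤ f b) ∧
      ∀ b b', (G.TB false b ∩ G.TB false b').Nonempty → f' b ≤ f b' := by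
  classical
  have hfin : ∀ b, {b' | (G.TB false b' ∩ G.TB false b).Nonempty}.Finite := by
    intro b
    have hc : IsCompact (G.TB false b) := isCompact_Icc
    have hlf : ∀ y ∈ Λ, ∃ O ∈ 𝓝 y, {b : TBx K | (G.TB false b ∩ O).Nonempty}.Finite := lf_TB G
    choose! U hU hf using hlf
    obtain ⟨t, ht, hcov⟩ := hc.elim_nhds_subcover U fun z hz => hU z (TB_sub b hz)
    refine (Set.Finite.biUnion t.finite_toSet fun z hz => hf z (TB_sub b (ht z hz))).subset ?_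
    rintro b' ⟨y, hy, hyb⟩
    obtain ⟨z, hz, hyz⟩ := mem_iUnion₂.1 (hcov hyb)
    exact mem_iUnion₂.2 ⟨z, hz, y, hy, hyz⟩
  have key : ∀ b, ∃ g > 0, g ≤ f b ∧ ∀ b', (G.TB false b ∩ G.TB false b').Nonempty → g ≤ f b' := by
    intro b
    obtain ⟨g, hg, hg'⟩ := exists_pos_le ((hfin b).toFinset.image f) (by
      intro t ht
      obtain ⟨b', -, rfl⟩ := Finset.mem_image.1 ht
      exact hf b')
    refine ⟨min g (f b), lt_min hg (hf b), min_le_right _ _, fun b' hb' =>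
      (min_le_left _ _).trans (hg' _ (Finset.mem_image_of_mem f ?_))⟩
    rw [Finite.mem_toFinset]
    obtain ⟨y, hy, hy'⟩ := hb'
    exact ⟨y, hy', hy⟩
  choose f' h1 h2 h3 using key
  exact ⟨f', h1, h2, h3⟩

section

variable {c₀ n δ : ℝ} {j : ℕ} {Ω Λ : Set V} {v w : V} {ρ : V → ℝ} {M : Mesh Ω} {h : ConHomeo Ω Λ}
  {J₀ J : Set (ℕ × (Fin 3 → ℤ))} {P Z : Set M.ι} {K : BoxCx Λ w}

open Classical in
/-- the coordinates of the vertices of the protected cells, inside of the window -/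
noncomputable def V0 (D : KIn3 c₀ n j δ v w ρ M h J₀ J P Z) (C : Cells ρ w K) (E : Edges M)
    (b : TBx K) : Finset ℝ :=
  (pV (D.G C) E h P b).filter fun t => (D.G C).tlo true b b.ax < t ∧ t < (D.G C).thi true b b.ax

theorem mem_V0 {D : KIn3 c₀ n j δ v w ρ M h J₀ J P Z} {C : Cells ρ w K} {E : Edges M}
    {b : TBx K} {t : ℝ} : t ∈ V0 D C E b ↔ t ∈ pV (D.G C) E h P b ∧
      (D.G C).tlo true b b.ax < t ∧ t < (D.G C).thi true b b.ax := by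
  unfold V0
  exact Finset.mem_filter

/-- **everything before the staircases** -/
structure RTD (D : KIn3 c₀ n j δ v w ρ M h J₀ J P Z) (C : Cells ρ w K) (E : Edges M)
    (T : ∀ k, FStar E k) (A₁ C₅ μ₁ : ℝ) (ε : E.ε → ℝ) (εd : pB C J₀ → ℝ) where
  gp : TBx K → ℝ
  lamb : TBx K → ℝ
  Tt : TBx K → Finset (ℝ × ℝ)
  dl : TBx K → ℝ
  L : TLv (D.G C) E h (ω3T δ C) Tt (μ₁ / 32) (fun _ : Empty => (∅ : Set V)) ∅
    (εN E h.toFun ε C₅) dl
  h' : ConHomeo Ω Λ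
  c : TBx K → ℝ
  hc0 : ∀ b, 0 < c b
  hc : ∀ b, c b ≤ dl b / 8
  κ : V → V
  g : ConHomeo Ω Λ
  gp0 : ∀ b, 0 < gp b
  gwin : ∀ b, (D.G C).tlo true b b.ax + gp b ≤ (D.G C).thi true b b.ax
  gmem : ∀ b, ∀ x ∈ V0 D C E b, (D.G C).tlo true b b.ax + gp b ≤ x ∧
    x + gp b ≤ (D.G C).thi true b b.ax
  gsep : ∀ b, ∀ x ∈ V0 D C E b, ∀ y ∈ V0 D C E b, x < y → x + gp b ≤ y
  pts : ∀ b, ∀ t ∈ V0 D C E b, (t, t) ∈ Tt b
  lam0 : ∀ b, 0 < lamb b
  lamle : ∀ b i, (h.toFun '' M.Q i ∩ (D.G C).TB false b).Nonempty → ∀ q : ℝ,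
    (∀ x ∈ M.Q i, ∀ y ∈ M.Q i, ‖h.toFun x - h.toFun y‖ ≤ q * ‖x - y‖) → lamb b ≤ q
  lamlf : ∀ b k, (h.toFun '' M.F k ∩ (D.G C).TB false b).Nonempty → ∀ q : ℝ,
    (∀ x ∈ M.F k, ∀ y ∈ M.F k, ‖h.toFun x - h.toFun y‖ ≤ q * ‖x - y‖) → lamb b ≤ q
  lamd : ∀ b : pB C J₀, 12 * lamb b.1 ≤ εd b
  lamd' : ∀ b, ∀ b' : pB C J₀, ((D.G C).TB false b ∩ (D.G C).TB false b'.1).Nonempty →
    12 * lamb b ≤ εd b'
  dspω : ∀ b, 8 * dsp (Tt b) (dl b) ≤ ω3T δ C b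
  dspg : ∀ b, 256 * dsp (Tt b) (dl b) ≤ μ₁ * gp b
  dspd : ∀ b, ∀ b' : pB C J₀, ((D.G C).TB false b ∩ (D.G C).TB false b'.1).Nonempty →
    32 * dsp (Tt b) (dl b) ≤ εd b'
  cω : ∀ b, c b ≤ ω3T δ C b
  D2 : St2W L hc0 hc P (P ∪ Wc D C) (Act D C) (pB C J₀) h' κ g
  OW : OutW L hc0 hc (Act D C) (pB C J₀) (L.weN (P ∪ Wc D C) A₁ (pB C J₀) h')
    (fun k => (T k).O) (fun k => (T k).rho) (fun k => (T k).R) h' κ g
  miss : ∀ k ∈ offT (D.G C) M h (pB C J₀), EqOn g.toFun h'.toFun (M.F k)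
  go : GivOut D C E L hc0 hc A₁ lamb h' g
  t5 : T5At C₅ L (pB C J₀) hc0 hc h' g

/-- **STAGES 1 and 2 of ROUND T of `K3C`**, with further walls -/
theorem exists_rt12Z (D : KIn3 c₀ n j δ v w ρ M h J₀ J P Z) (C : Cells ρ w K) {E : Edges M}
    (T : ∀ k, FStar E k) {Tt : TBx K → Finset (ℝ × ℝ)} {η : ℝ} {τ : Type*} {A : τ → Set V}
    {Cs : Set ℝ} {εE : E.ε → ℝ} {δ' : TBx K → ℝ}
    (L : TLv (D.G C) E h (ω3T δ C) Tt η A Cs εE δ') {Zw : Set (Set V)}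
    (HZ : ZWall (D.G C) M h (Act D C) (pB C J₀) (ω3T δ C) Zw) :
    ∃ h' : ConHomeo Ω Λ, TStageW (D.G C) M h h' P (P ∪ Wc D C) (Act D C) (pB C J₀) L.lev
      (ω3T δ C) ∧ (∀ Q ∈ Zw, ∀ x ∈ Ω, h.toFun x ∈ Q → ∀ᶠ y in 𝓝 x, h'.toFun y = h.toFun y) ∧
      ∃ c₀ : TBx K → ℝ, (∀ b, 0 < c₀ b) ∧ ∀ (c : TBx K → ℝ) (hc0 : ∀ b, 0 < c b)
      (hc : ∀ b, c b ≤ δ' b / 8), (∀ b ∈ pB C J₀, c b ≤ c₀ b) →
      ∃ κ, IsQ (fun b : pB C J₀ => L.bxQ c hc0 hc b.1) κ ∧ InsMap κ Λ Λ ∧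
      ∀ We : E.ε → ℝ, (∀ e, L.WeW (pB C J₀) h' e ≤ We e) →
      ∀ Ψ : ∀ j ∈ Gv D C, ConHomeo (M.Q j) (Pre κ Λ h' (M.Q j)),
      Giv M E h' κ (actF (L.AcW (Act D C) (pB C J₀) h')) (offT (D.G C) M h (pB C J₀))
        (GEd E h' (fun b : pB C J₀ => L.bxQ c hc0 hc b.1) (L.AcW (Act D C) (pB C J₀) h') We)
        (Gv D C) Ψ →
      ∃ g : ConHomeo Ω Λ, St2W L hc0 hc P (P ∪ Wc D C) (Act D C) (pB C J₀) h' κ g ∧
        OutW L hc0 hc (Act D C) (pB C J₀) We (fun k => (T k).O) (fun k => (T k).rho)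
          (fun k => (T k).R) h' κ g ∧
        (∀ k ∈ offT (D.G C) M h (pB C J₀), EqOn g.toFun h'.toFun (M.F k)) ∧
        ∀ j hj, EqOn g.toFun (Ψ j hj).toFun (M.Q j) := by
  have hΩ : IsOpen Ω := D.bΩ.1
  have hΛ : IsOpen Λ := D.bΛ.1
  obtain ⟨h', O, hZ⟩ := exists_tstageWZ hΩ hΛ (L.levG (D.rt_osc C)) (D.rt_wall C)
    (W := P ∪ Wc D C) (D.rt_act C) (fun k hk i hi => hk i hi) HZ
  refine ⟨h', O, hZ, ?_⟩
  obtain ⟨c₀, hc₀, H2⟩ := L.stage2We hΩ hΛ O (D.rt_osc C) (fun k => (T k).C)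
    (ctr := fun k => (T k).O) (r0 := fun k => (T k).rho) (R := fun k => (T k).R)
    (fun k => (T k).star) (act_gv D C)
  refine ⟨c₀, hc₀, fun c hc0 hc hcc => ?_⟩
  obtain ⟨κ, hκ, hI, -⟩ := (fam_comp (L.fam345 hc0 hc hΛ)
    (Subtype.val_injective : Function.Injective (Subtype.val : pB C J₀ → TBx K))).exists_isQ
  refine ⟨κ, hκ, hI, fun We hWe Ψ hΨ => ?_⟩
  obtain ⟨g, hg, h1, h2⟩ := H2 c hc0 hc hcc κ hκ hI We hWe Ψ hΨ
  exact ⟨g, ⟨hΩ, hΛ, D.rt_osc C, O, hκ, hg.img_face, hg.img_edge, hg.img_cell, hg.vert⟩, hg, h1,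
    h2⟩

/-- **first half of ROUND T** -/
theorem exists_rtdZ {A₁ C₅ : ℝ} (hA₁ : 0 ≤ A₁) (hC₅ : 0 ≤ C₅) (hG : GivT3 A₁) (h5 : T5G C₅)
    (D : KIn3 c₀ n j δ v w ρ M h J₀ J P Z) (C : Cells ρ w K) (E : Edges M)
    (T : ∀ k, FStar E k) {μ₁ : ℝ} (hμ0 : 0 < μ₁) (hμ1 : μ₁ ≤ 1) {Zw : Set (Set V)}
    (HZ : ZWall (D.G C) M h (Act D C) (pB C J₀) (ω3T δ C) Zw) {ε : E.ε → ℝ}
    (hε : ∀ e, 0 < ε e) {εd : pB C J₀ → ℝ} (hεd : ∀ b, 0 < εd b) :
    ∃ R : RTD D C E T A₁ C₅ μ₁ ε εd,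
      ∀ Q ∈ Zw, ∀ x ∈ Ω, h.toFun x ∈ Q → R.h'.toFun x = h.toFun x := by
  classical
  have hΩ : IsOpen Ω := D.bΩ.1
  have hΛ : IsOpen Λ := D.bΛ.1
  have hω0 : ∀ b, 0 < ω3T δ C b := D.ω3T_pos C
  have hωo : ∀ b, ω3T δ C b ≤ oT (D.G C) b := fun b => by
    have h1 := D.ω3T_oT C b
    have h2 := hω0 b
    linarith
  have hwin : ∀ b, (D.G C).tlo true b b.ax < (D.G C).thi true b b.ax := fun b => by
    have h1 := H669.win (D.G C) b
    have h2 := hωo b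
    have h3 := hω0 b
    linarith
  -- the gaps
  have hgap : ∀ b, ∃ g > 0, (D.G C).tlo true b b.ax + g ≤ (D.G C).thi true b b.ax ∧
      (∀ x ∈ V0 D C E b, (D.G C).tlo true b b.ax + g ≤ x ∧
        x + g ≤ (D.G C).thi true b b.ax) ∧
      ∀ x ∈ V0 D C E b, ∀ y ∈ V0 D C E b, x < y → x + g ≤ y := fun b =>
    exists_gap (hwin b) _ fun x hx => (mem_V0.1 hx).2
  choose gp gp0 gwin gmem gsep using hgap
  -- the small numbers
  obtain ⟨lam₁, hlam0, hlam, hlamf⟩ := H196.exists_lamHF (D.G C) M h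
  set ed₀ : TBx K → ℝ := fun b => if hb : b ∈ pB C J₀ then εd ⟨b, hb⟩ else 1 with hed
  have hed0' : ∀ b, 0 < ed₀ b := fun b => by
    rw [hed]; dsimp only
    split_ifs with hb
    · exact hεd _
    · exact one_pos
  obtain ⟨ed, hed0, hed1, hed2⟩ := exists_nbmin (D.G C) hed0'
  have hede₀ : ∀ b : pB C J₀, ed₀ b.1 = εd b := fun b => by
    rw [hed]; dsimp only
    rw [dif_pos b.2]
  have hede : ∀ b : pB C J₀, ed b.1 ≤ εd b := fun b => (hed1 b.1).trans (hede₀ b).le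
  have hede' : ∀ b, ∀ b' : pB C J₀, ((D.G C).TB false b ∩ (D.G C).TB false b'.1).Nonempty →
      ed b ≤ εd b' := fun b b' hne => (hed2 b b'.1 hne).trans (hede₀ b').le
  set lamb : TBx K → ℝ := fun b => min (lam₁ b) (ed b / 12) with hlamb
  have hlb0 : ∀ b, 0 < lamb b := fun b => lt_min (hlam0 b) (by have := hed0 b; positivity)
  set σ₀ : TBx K → ℝ := fun b => min (min (ω3T δ C b / 16) (μ₁ * gp b / 512)) (ed b / 64) with hσ₀
  have hσ0 : ∀ b, 0 < σ₀ b := fun b => by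
    have h1 := hω0 b
    have h2 := gp0 b
    have h3 := hed0 b
    exact lt_min (lt_min (by positivity) (by positivity)) (by positivity)
  obtain ⟨Tt, dmax, hTle, hTs, hTp, hdm, HG⟩ := hG c₀ n j δ Ω Λ v w ρ M h J₀ J P Z D K C E
    (V0 D C E) σ₀ lamb hσ0 hlb0
  -- the levels
  have hd' : ∀ b, 0 < min (dmax b) (σ₀ b / (2 * (Tt b).card + 1)) := fun b =>
    lt_min (hdm b) (div_pos (hσ0 b) (by positivity))
  obtain ⟨dl, hdl, ⟨L⟩⟩ := H669.exists_tlv hΩ (D.G C) E h (ω := ω3T δ C) hω0 hωo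
    (A := fun _ : Empty => (∅ : Set V)) (fun t => t.elim)
    (fun x hx => ⟨univ, univ_mem, Set.toFinite _⟩) (εN_pos hΩ E h hε hC₅) (C := ∅)
    countable_empty (η := μ₁ / 32) (by positivity) (by linarith) hd' Tt hTle (fun b => by
      have h1 := H669.win (D.G C) b
      have h2 := hωo b
      have h3 := hω0 b
      have h4 : σ₀ b ≤ ω3T δ C b / 16 := (min_le_left _ _).trans (min_le_left _ _)
      have h5 := hTs b
      linarith)
  have hdsp : ∀ b, dsp (Tt b) (dl b) ≤ 2 * σ₀ b := fun b => by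
    have h3 : dl b ≤ σ₀ b / (2 * (Tt b).card + 1) := (hdl b).trans (min_le_right _ _)
    rw [le_div_iff₀ (by positivity)] at h3
    have h4 := hTs b
    unfold dsp
    linarith
  -- stages 1 and 2
  obtain ⟨h', O, hZ, c₁, hc₁, H12⟩ := exists_rt12Z D C T L HZ
  obtain ⟨c₂, hc₂, HG2⟩ := HG _ _ dl L (fun b => (hdl b).trans (min_le_left _ _)) h' O
  obtain ⟨c₃, hc₃, H5⟩ := h5 Ω Λ w K _ _ _ (D.G C) M E h h' _ _ _ _ _ _ _ L P (P ∪ Wc D C)
    (Act D C) (pB C J₀) hΩ hΛ (D.rt_osc C) O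
  set c : TBx K → ℝ := fun b => min (min (min (c₁ b) (c₂ b)) (c₃ b))
    (min (dl b / 8) (ω3T δ C b)) with hcd
  have hc0 : ∀ b, 0 < c b := fun b => by
    have h1 := L.δ0 b
    have h2 := hω0 b
    exact lt_min (lt_min (lt_min (hc₁ b) (hc₂ b)) (hc₃ b)) (lt_min (by positivity) h2)
  have hc : ∀ b, c b ≤ dl b / 8 := fun b => (min_le_right _ _).trans (min_le_left _ _)
  obtain ⟨κ, hκ, hI, H2⟩ := H12 c hc0 hc fun b _ =>
    ((min_le_left _ _).trans (min_le_left _ _)).trans (min_le_left _ _)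
  obtain ⟨Ψ, hΨ, HΨ⟩ := HG2 c hc0 hc
    (fun b _ => ((min_le_left _ _).trans (min_le_left _ _)).trans (min_le_right _ _)) κ hκ hI
    (L.weN (P ∪ Wc D C) A₁ (pB C J₀) h') (fun e => L.weN_ge hA₁ e)
    (fun i hi e he => ⟨lipE E h.toFun e, lipE_spec hΩ E h e, by
      have h1 := L.weN_given (C₁ := A₁) (G₀ := pB C J₀) (h' := h') (e := e)
        (Gl := P ∪ Wc D C) ⟨i, hi, he⟩
      linarith⟩)
  obtain ⟨g, D2, OW, hmiss, hgΨ⟩ := H2 _ (fun e => L.weN_ge hA₁ e) Ψ hΨ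
  exact ⟨{
    gp := gp
    lamb := lamb
    Tt := Tt
    dl := dl
    L := L
    h' := h'
    c := c
    hc0 := hc0
    hc := hc
    κ := κ
    g := g
    gp0 := gp0
    gwin := gwin
    gmem := gmem
    gsep := gsep
    pts := hTp
    lam0 := hlb0
    lamle := fun b i hne q hq => (min_le_left _ _).trans (hlam b i hne q hq)
    lamlf := fun b k hne q hq => (min_le_left _ _).trans (hlamf b k hne q hq)
    lamd := fun b => by
      have h1 : lamb b.1 ≤ ed b.1 / 12 := min_le_right _ _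
      linarith [hede b]
    lamd' := fun b b' hne => by
      have h1 : lamb b ≤ ed b / 12 := min_le_right _ _
      linarith [hede' b b' hne]
    dspω := fun b => by
      have h1 := hdsp b
      have h4 : σ₀ b ≤ ω3T δ C b / 16 := (min_le_left _ _).trans (min_le_left _ _)
      linarith
    dspg := fun b => by
      have h1 := hdsp b
      have h4 : σ₀ b ≤ μ₁ * gp b / 512 := (min_le_left _ _).trans (min_le_right _ _)
      linarith
    dspd := fun b b' hne => by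
      have h1 := hdsp b
      have h4 : σ₀ b ≤ ed b / 64 := min_le_right _ _
      linarith [hede' b b' hne]
    cω := fun b => (min_le_right _ _).trans (min_le_right _ _)
    D2 := D2
    OW := OW
    miss := hmiss
    go := HΨ g hgΨ
    t5 := H5 c hc0 hc (fun b _ => (min_le_left _ _).trans (min_le_right _ _)) κ g D2 },
    fun Q hQ x hx hxQ => (hZ Q hQ x hx hxQ).self_of_nhds⟩

/-- **first half of ROUND T**, no further walls -/
theorem exists_rtd {A₁ C₅ : ℝ} (hA₁ : 0 ≤ A₁) (hC₅ : 0 ≤ C₅) (hG : GivT3 A₁) (h5 : T5G C₅)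
    (D : KIn3 c₀ n j δ v w ρ M h J₀ J P Z) (C : Cells ρ w K) (E : Edges M)
    (T : ∀ k, FStar E k) {μ₁ : ℝ} (hμ0 : 0 < μ₁) (hμ1 : μ₁ ≤ 1) {ε : E.ε → ℝ}
    (hε : ∀ e, 0 < ε e) {εd : pB C J₀ → ℝ} (hεd : ∀ b, 0 < εd b) :
    Nonempty (RTD D C E T A₁ C₅ μ₁ ε εd) := by
  obtain ⟨R, -⟩ := exists_rtdZ hA₁ hC₅ hG h5 D C E T hμ0 hμ1
    (ZWall.empty (D.G C) M h (Act D C) (pB C J₀) (ω3T δ C)) hε hεd
  exact ⟨R⟩

end

end Vale.Agent.P073.H238.K3
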