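import Vale.Agent.P073.H238.RT1A
import Vale.Agent.P073.H238.VarEv

/-!
# P073, H238: **[K3-RT]**, composition, second half: the fields of `TOut3`
-/

open Set Metric Topology Filter
open scoped ENNReal

namespace Vale.Agent.P073.H238.K3

open _root_.P073 _root_.P073.Net _root_.P073.PA691 _root_.P073.H236 _root_.P073.H579
open _root_.P073.H267
open _root_.P073.H196 (FixD)
open _root_.P073.H142 (FStar)
open _root_.P073.H345 (PK IsQ)
open _root_.P073.PR720 (LF)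
open Vale.Agent.P073.St (V)
open Vale.Agent.P073.H471 Vale.Agent.P073.H267 Vale.Agent.P073.H267.Geo
open Vale.Agent.P073.H73 (Mesh)
open Vale.Agent.P073.H193 (Edges Cyc)
open Vale.Agent.P073.H304 (Nb In Zmax)
open Vale.Agent.P073.H669 (TLv pV)
open Vale.Agent.P073.H669.TLv (OutW offT)
open Vale.Agent.P073.H579 (TStageW)
open _root_.P073.H155 (Giv)
open Vale.Agent.P073.H926
open _root_.P073.Croft (varIn onS)

/-! ### the clamped coordinate -/

theorem clm_lip {lo hi : ℝ} (s t : ℝ) : |clm lo hi s - clm lo hi t| ≤ |s - t| := by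
  unfold clm
  calc |max lo (min hi s) - max lo (min hi t)| ≤ |min hi s - min hi t| :=
        abs_max_sub_max_le_max _ _ _ _ |>.trans (by simp)
    _ ≤ |s - t| := (abs_min_sub_min_le_max _ _ _ _).trans (by simp)

theorem clm_lo {lo hi t : ℝ} (h : lo ≤ hi) (ht : t ≤ lo) : clm lo hi t = lo := by
  unfold clm
  rw [min_eq_right (ht.trans h), max_eq_left ht]

theorem clm_hi {lo hi t : ℝ} (h : lo ≤ hi) (ht : hi ≤ t) : clm lo hi t = hi := by
  unfold clm
  rw [min_eq_left ht, max_eq_right h]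

/-! ### numbers -/

theorem tv_aux3 {C₅ e₀ ε : ℝ} {ℓ W : ℝ≥0∞} (hC : 0 ≤ C₅) (he : 0 ≤ e₀) (hε : 0 < ε)
    (h1 : e₀ * (8 * (1 + C₅)) ≤ ε) (h2 : W ≤ ENNReal.ofReal 3 * ℓ + ENNReal.ofReal (2 * e₀)) :
    ENNReal.ofReal C₅ * (W + ℓ) + ENNReal.ofReal (ε / 4) ≤
      ENNReal.ofReal (4 * C₅) * ℓ + ENNReal.ofReal ε := by
  calc ENNReal.ofReal C₅ * (W + ℓ) + ENNReal.ofReal (ε / 4)
      ≤ ENNReal.ofReal C₅ * ((ENNReal.ofReal 3 * ℓ + ENNReal.ofReal (2 * e₀)) + ℓ) +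
        ENNReal.ofReal (ε / 4) := by gcongr
    _ = ENNReal.ofReal (4 * C₅) * ℓ + ENNReal.ofReal (C₅ * (2 * e₀) + ε / 4) := by
        rw [ENNReal.ofReal_add (by positivity) (by positivity), ENNReal.ofReal_mul hC,
          ENNReal.ofReal_mul (by norm_num : (0:ℝ) ≤ 4)]
        have h3 : ENNReal.ofReal 3 = 3 := by simp
        have h4 : ENNReal.ofReal 4 = 4 := by simp
        rw [h3, h4]
        ring
    _ ≤ _ := by
        refine add_le_add le_rfl (ENNReal.ofReal_le_ofReal ?_)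
        nlinarith

theorem tvs_aux3 {m μ e₀ ε q : ℝ} {t v W : ℝ≥0∞} (hm0 : 0 < m) (hm1 : m ≤ 1) (hmμ : m ≤ μ)
    (he : 0 ≤ e₀) (hε : 0 < ε) (h1 : 8 * e₀ ≤ ε) (hq : 0 ≤ q) (hqm : q ≤ 1 + m / 32)
    (h2 : W ≤ ENNReal.ofReal (1 - m / 4)⁻¹ *
      (ENNReal.ofReal (1 - 2 * (m / 32))⁻¹ * v + ENNReal.ofReal e₀)) (h3 : v ≤ t) :
    ENNReal.ofReal q * W + ENNReal.ofReal (ε / 4) ≤
      ENNReal.ofReal (1 + μ) * t + ENNReal.ofReal ε := by
  have i1 := inv_aux1 hm0 hm1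
  have i2 := inv_aux2 hm0 hm1
  have i1' : (0:ℝ) ≤ (1 - m / 4)⁻¹ := inv_nonneg.2 (by linarith)
  have i2' : (0:ℝ) ≤ (1 - 2 * (m / 32))⁻¹ := inv_nonneg.2 (by linarith)
  calc ENNReal.ofReal q * W + ENNReal.ofReal (ε / 4)
      ≤ ENNReal.ofReal q * (ENNReal.ofReal (1 - m / 4)⁻¹ *
        (ENNReal.ofReal (1 - 2 * (m / 32))⁻¹ * t + ENNReal.ofReal e₀)) +
        ENNReal.ofReal (ε / 4) := by
        refine add_le_add (mul_le_mul' le_rfl (h2.trans ?_)) le_rfl
        gcongr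
    _ = ENNReal.ofReal (q * ((1 - m / 4)⁻¹ * (1 - 2 * (m / 32))⁻¹)) * t +
        ENNReal.ofReal (q * ((1 - m / 4)⁻¹ * e₀) + ε / 4) := by
        rw [ENNReal.ofReal_add (by positivity) (by positivity), ENNReal.ofReal_mul hq,
          ENNReal.ofReal_mul i1', ENNReal.ofReal_mul hq, ENNReal.ofReal_mul i1']
        ring
    _ ≤ _ := by
        refine add_le_add (mul_le_mul' (ENNReal.ofReal_le_ofReal ?_) le_rfl)
          (ENNReal.ofReal_le_ofReal ?_)
        · have h4 : (1 - m / 4)⁻¹ * (1 - 2 * (m / 32))⁻¹ ≤ (1 + m / 3) * (1 + m / 15) :=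
            mul_le_mul i1 i2 i2' (by linarith)
          have h5 : (1 + m / 3) * (1 + m / 15) ≤ 1 + m / 2 := by nlinarith
          have h6 : q * ((1 - m / 4)⁻¹ * (1 - 2 * (m / 32))⁻¹) ≤ (1 + m / 32) * (1 + m / 2) :=
            mul_le_mul hqm (h4.trans h5) (by positivity) (by linarith)
          nlinarith
        · have h6 : q * ((1 - m / 4)⁻¹ * e₀) ≤ (1 + m / 32) * ((1 + m / 3) * e₀) :=
            mul_le_mul hqm (mul_le_mul_of_nonneg_right i1 he) (by positivity) (by linarith)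
          have h7 : (1 + m / 32) * (1 + m / 3) ≤ 2 := by nlinarith
          nlinarith [mul_le_mul_of_nonneg_right h7 he]

section

variable {c₀ n δ : ℝ} {j : ℕ} {Ω Λ : Set V} {v w : V} {ρ : V → ℝ} {M : Mesh Ω} {h : ConHomeo Ω Λ}
  {J₀ J : Set (ℕ × (Fin 3 → ℤ))} {P Z : Set M.ι} {K : BoxCx Λ w}
  {D : KIn3 c₀ n j δ v w ρ M h J₀ J P Z} {C : Cells ρ w K} {E : Edges M}
  {T : ∀ k, FStar E k} {A₁ C₅ μ₁ : ℝ} {ε : E.ε → ℝ} {εd : pB C J₀ → ℝ}

namespace RTD

variable (R : RTD D C E T A₁ C₅ μ₁ ε εd)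

theorem fixN (hμ1 : μ₁ ≤ 1) :
    FixN R.L (fun b : pB C J₀ => V0 D C E b.1) (fun b => R.gp b.1) where
  g0 := fun b => R.gp0 b.1
  win := fun b => R.gwin b.1
  mem := fun b => R.gmem b.1
  sep := fun b => R.gsep b.1
  far := fun b x hx k hk => R.L.far (R.pts b.1 x hx) hk
  dg := fun b => by
    have h1 := R.dspg b.1
    have h2 := R.gp0 b.1
    have h3 := R.L.dsp_nonneg b.1
    nlinarith

variable {e : TBx K → ℝ} {he : ∀ b, 0 < e b} {he2 : ∀ b, 2 * e b < R.dl b} {hμ1 : μ₁ ≤ 1}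

/-- the corrections -/
noncomputable def X (hμ1 : μ₁ ≤ 1) (he : ∀ b, 0 < e b) (he2 : ∀ b, 2 * e b < R.dl b) :
    FixD (F1 R.L R.hc0 R.hc he he2 (pB C J₀)) (fun b : pB C J₀ => V0 D C E b.1) :=
  fixD R.L R.hc0 R.hc he he2 (R.fixN hμ1)

theorem X_d (b : pB C J₀) : (R.X hμ1 he he2).d b = dsp (R.Tt b.1) (R.dl b.1) := rfl

theorem X_g (b : pB C J₀) : (R.X hμ1 he he2).g b = R.gp b.1 := rfl

theorem snum (he8 : ∀ b, e b ≤ R.dl b / 8) : SNum (R.X hμ1 he he2) where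
  he8 := he8
  hω := fun b => by
    have h1 := R.dspω b.1
    have h2 := R.L.dsp_ge b.1
    have h3 := R.L.δ0 b.1
    linarith
  eps := fun b => by
    have h1 := R.dspg b.1
    have h2 := R.gp0 b.1
    have h3 := R.L.dsp_nonneg b.1
    rw [X_d, X_g, div_le_one h2]
    nlinarith

theorem q_le (_hμ0 : 0 < μ₁) (b : pB C J₀) :
    1 + 4 * (R.X hμ1 he he2).d b / (R.X hμ1 he he2).g b ≤ 1 + μ₁ / 32 := by
  have h1 := R.dspg b.1
  have h2 := R.gp0 b.1
  have h3 := R.L.dsp_nonneg b.1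
  have h4 : 4 * (R.X hμ1 he he2).d b / (R.X hμ1 he he2).g b ≤ μ₁ / 32 := by
    rw [X_d, X_g, div_le_iff₀ h2]
    nlinarith
  linarith

variable {Hα H₁ Tf : ConHomeo Λ Λ}

section S

variable (HR : RTS R.L R.hc0 R.hc he he2 (R.X hμ1 he he2) Hα H₁ Tf)
include HR

/-- small displacement -/
theorem mv3 : Mv (fun b : pB C J₀ => rtK (D.G C) (ω3T δ C) b.1 60)
    (fun b => 3 * dsp (R.Tt b.1) (R.dl b.1)) ((Hα.trans H₁).trans Tf).toFun :=
  mv_of_vrt HR.vrt (fun b => by have := R.L.dsp_nonneg b.1; positivity) fun b y _ => by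
    refine (abs_ph_sub_self_le b y _).trans ?_
    have h1 := R.X_d (hμ1 := hμ1) (he := he) (he2 := he2) b
    have h2 := R.L.dsp_ge b.1
    have h3 := R.L.δ0 b.1
    rw [h1]
    linarith

/-- a point of the box `b` in the supports of another box is not moved -/
theorem S_other {b : TBx K} {b' : pB C J₀} (hne : b'.1 ≠ b) {y : V}
    (hy : y ∈ (D.G C).TB false b) (hy' : y ∈ rtK (D.G C) (ω3T δ C) b'.1 60) :
    ((Hα.trans H₁).trans Tf).toFun y = y := by
  have h1 := H196.end_of_other R.L hne hy hy'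
  have h2 := (vfx_ph (R.X hμ1 he he2) (R.fixN hμ1).farV).fix b' y _ (Or.inr h1)
  have h3 := HR.vrt.on b' y hy'
  rw [h2, Function.update_eq_self] at h3
  exact h3

theorem S_near (b : pB C J₀) {y : V} (hy : y ∈ (D.G C).TB false b.1) :
    ‖((Hα.trans H₁).trans Tf).toFun y - y‖ ≤ 3 * dsp (R.Tt b.1) (R.dl b.1) := by
  have h0 := R.L.dsp_nonneg b.1
  by_cases hex : ∃ b' : pB C J₀, y ∈ rtK (D.G C) (ω3T δ C) b'.1 60
  · obtain ⟨b', hb'⟩ := hex
    by_cases hbb : b'.1 = b.1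
    · have hb2 : b' = b := Subtype.ext hbb
      subst hb2
      exact (R.mv3 HR).near b' y hb'
    · rw [R.S_other HR hbb hy hb', sub_self, norm_zero]
      positivity
  · push Not at hex
    rw [(R.mv3 HR).off y hex, sub_self, norm_zero]
    positivity

/-- the given cells, displacement of the lift and the staircase -/
theorem h1_near {x : V} {b : pB C J₀} (hxb : h.toFun x ∈ (D.G C).TB false b.1) {r : TBx K → ℝ}
    (hr : 0 ≤ r b.1)
    (hp : (∃ b ∈ pB C J₀, h.toFun x ∈ interior ((D.G C).TB false b) ∧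
      h.toFun x ∈ rtK (D.G C) (ω3T δ C) b 60 ∧ R.g.toFun x ∈ rtK (D.G C) (ω3T δ C) b 60 ∧
      ‖R.g.toFun x - h.toFun x‖ ≤ r b) ∨ R.g.toFun x = h.toFun x) :
    ‖((Hα.trans H₁).trans Tf).toFun (R.g.toFun x) - h.toFun x‖ ≤
      3 * dsp (R.Tt b.1) (R.dl b.1) + r b.1 := by
  rcases hp with ⟨b', hb', hint, h1, h2, h3⟩ | hg
  · have hbb : b' = b.1 := by
      by_contra hne
      exact (disjoint_TB (G := D.G C) hne).notMem_of_mem_left hint hxb
    subst hbb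
    have h4 := R.S_near HR b (y := R.g.toFun x) (rtK_sub R.L (u := 60) (by norm_num) h2)
    have h5 := norm_sub_le_norm_sub_add_norm_sub (((Hα.trans H₁).trans Tf).toFun (R.g.toFun x))
      (R.g.toFun x) (h.toFun x)
    linarith
  · rw [hg]
    have := R.S_near HR b hxb
    linarith

/-- `disp` -/
theorem disp_field : ∀ i ∈ P, ∀ x ∈ M.Q i, ∀ b : pB C J₀, h.toFun x ∈ (D.G C).TB false b.1 →
    |((Hα.trans H₁).trans Tf).toFun (R.g.toFun x) b.1.ax - h.toFun x b.1.ax| ≤ εd b := by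
  intro i hi x hx b hxb
  have h1 := R.h1_near HR hxb (r := fun b => 3 * R.lamb b) (by have := R.lam0 b.1; positivity)
    (R.go.ptp i hi x hx)
  have h2 := R.lamd b
  have h3 := R.dspd b.1 b ⟨_, hxb, hxb⟩
  have h4 := norm_le_pi_norm (((Hα.trans H₁).trans Tf).toFun (R.g.toFun x) - h.toFun x) b.1.ax
  rw [Real.norm_eq_abs, Pi.sub_apply] at h4
  have h5 := R.lam0 b.1
  have h6 := R.L.dsp_nonneg b.1
  linarith

/-- the clamped coordinate on a set `X` of a passive cell -/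
theorem lipS_field {C₀ : ℝ} (hA₁ : 0 ≤ A₁) (hC₀ : A₁ + 1 ≤ C₀)
    (Hs : ∀ i ∈ Wc D C, ∀ b ∈ pB C J₀, ∀ x ∈ M.Q i, h.toFun x ∈ (D.G C).TB false b →
      (D.G C).tlo true b b.ax + 40 * ω3T δ C b ≤ h.toFun x b.ax →
      h.toFun x b.ax ≤ (D.G C).thi true b b.ax - 40 * ω3T δ C b → ∀ᶠ y in 𝓝[M.Q i] x,
        |((Hα.trans H₁).trans Tf).toFun (R.g.toFun y) b.ax -
            ((Hα.trans H₁).trans Tf).toFun (R.g.toFun x) b.ax| ≤
          A₁ * ‖h.toFun y - h.toFun x‖ + R.lamb b * ‖y - x‖) {i : M.ι} (hi : i ∈ Wc D C)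
    {X : Set V} (hX : X ⊆ M.Q i) {L : ℝ} (hL : 0 < L)
    (hq : ∀ x ∈ X, ∀ y ∈ X, ‖h.toFun x - h.toFun y‖ ≤ L * ‖x - y‖) {b : TBx K} (hb : b ∈ pB C J₀)
    (h8 : (h.toFun '' X ∩ (D.G C).TB false b).Nonempty → R.lamb b ≤ L)
    {lo hi' : ℝ} (hlo : (D.G C).tlo true b b.ax + 50 * ω3T δ C b ≤ lo) (hlh : lo ≤ hi')
    (hhi : hi' ≤ (D.G C).thi true b b.ax - 50 * ω3T δ C b) {x : V} (hx : x ∈ X)
    (hxb : h.toFun x ∈ (D.G C).TB false b) :
    ∀ᶠ x' in 𝓝[X] x,
      |clm lo hi' ((R.g.trans ((Hα.trans H₁).trans Tf)).toFun x' b.ax) -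
        clm lo hi' ((R.g.trans ((Hα.trans H₁).trans Tf)).toFun x b.ax)| ≤
        C₀ * L * ‖x' - x‖ := by
  have hω := D.ω3T_pos C b
  have hcont : ContinuousWithinAt (fun y => (R.g.trans ((Hα.trans H₁).trans Tf)).toFun y b.ax)
      X x :=
    (continuous_apply b.ax).continuousAt.comp_continuousWithinAt
      (((R.g.trans ((Hα.trans H₁).trans Tf)).cont x (M.sub i (hX hx))).mono (hX.trans (M.sub i)))
  have hnear : |(R.g.trans ((Hα.trans H₁).trans Tf)).toFun x b.ax - h.toFun x b.ax| <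
      10 * ω3T δ C b := by
    have h1 := R.h1_near HR (b := ⟨b, hb⟩) hxb (r := fun b => 8 * ω3T δ C b)
      (by have := D.ω3T_pos C b; positivity) (R.go.pt i (Or.inr hi) x (hX hx))
    have h2 := R.dspω b
    have h4 := norm_le_pi_norm (((Hα.trans H₁).trans Tf).toFun (R.g.toFun x) - h.toFun x) b.ax
    rw [Real.norm_eq_abs, Pi.sub_apply] at h4
    have h6 := R.L.dsp_nonneg b
    have h7 : |((Hα.trans H₁).trans Tf).toFun (R.g.toFun x) b.ax - h.toFun x b.ax| <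
      10 * ω3T δ C b := by
      dsimp only at h1
      linarith
    exact h7
  obtain ⟨hn1, hn2⟩ := abs_lt.1 hnear
  rcases lt_or_ge (h.toFun x b.ax) ((D.G C).tlo true b b.ax + 40 * ω3T δ C b) with h1 | h1
  · have h2 : (R.g.trans ((Hα.trans H₁).trans Tf)).toFun x b.ax < lo := by linarith
    have h3 := hcont.eventually (Iio_mem_nhds h2)
    filter_upwards [h3] with y hy
    rw [clm_lo hlh (le_of_lt hy), clm_lo hlh h2.le, sub_self, abs_zero]
    have h5 : 0 ≤ C₀ := by linarith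
    positivity
  · rcases lt_or_ge ((D.G C).thi true b b.ax - 40 * ω3T δ C b) (h.toFun x b.ax) with h4 | h4
    · have h2 : hi' < (R.g.trans ((Hα.trans H₁).trans Tf)).toFun x b.ax := by linarith
      have h3 := hcont.eventually (Ioi_mem_nhds h2)
      filter_upwards [h3] with y hy
      rw [clm_hi hlh (le_of_lt hy), clm_hi hlh h2.le, sub_self, abs_zero]
      have h5 : 0 ≤ C₀ := by linarith
      positivity
    · have h8' := h8 ⟨_, ⟨x, hx, rfl⟩, hxb⟩
      filter_upwards [nhdsWithin_mono x hX (Hs i hi b hb x (hX hx) hxb h1 h4),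
        self_mem_nhdsWithin] with y h5 h6
      refine (clm_lip _ _).trans (h5.trans ?_)
      have h7 := hq y h6 x hx
      have h9 := mul_le_mul_of_nonneg_left h7 hA₁
      have h10 := mul_le_mul_of_nonneg_right h8' (norm_nonneg (y - x))
      have h11 : (A₁ + 1) * (L * ‖y - x‖) ≤ C₀ * (L * ‖y - x‖) :=
        mul_le_mul_of_nonneg_right hC₀ (by positivity)
      linarith

end S

end RTD

end

end Vale.Agent.P073.H238.K3
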