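import Vale.Agent.P073.H880.LipH
import Vale.Agent.P073.H238.RT1B
import Vale.Agent.P073.H236.SA5
import Vale.Agent.P073.H190.ImgE
import Vale.Agent.P073.H581.TvG2
import Vale.Agent.P073.H244.OscF2

/-!
# P073, H238: **[K3-RT]**, composition, last part: ROUND T of `K3C`
-/

open Set Metric Topology Filter
open scoped ENNReal

namespace Vale.Agent.P073.H238.K3

open _root_.P073 _root_.P073.Net _root_.P073.PA691 _root_.P073.H236 _root_.P073.H579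
open _root_.P073.H267
open _root_.P073.H196 (FixD)
open _root_.P073.H142 (FStar)
open _root_.P073.H345 (PK IsQ)
open _root_.P073.PR720 (LF)
open Vale.Agent.P073.St (V)
open Vale.Agent.P073.H471 Vale.Agent.P073.H267 Vale.Agent.P073.H267.Geo
open Vale.Agent.P073.H73 (Mesh)
open Vale.Agent.P073.H193 (Edges Cyc)
open Vale.Agent.P073.H304 (Nb In Zmax)
open Vale.Agent.P073.H669 (TLv pV)
open Vale.Agent.P073.H669.TLv (OutW offT)
open Vale.Agent.P073.H579 (TStageW)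
open _root_.P073.H155 (Giv)
open Vale.Agent.P073.H926
open _root_.P073.Croft (varIn onS)

section

variable {c₀ n δ : ℝ} {j : ℕ} {Ω Λ : Set V} {v w : V} {ρ : V → ℝ} {M : Mesh Ω} {h : ConHomeo Ω Λ}
  {J₀ J : Set (ℕ × (Fin 3 → ℤ))} {P Z : Set M.ι} {K : BoxCx Λ w}
  {D : KIn3 c₀ n j δ v w ρ M h J₀ J P Z} {C : Cells ρ w K} {E : Edges M}
  {T : ∀ k, FStar E k} {A₁ C₅ μ₁ : ℝ} {ε : E.ε → ℝ} {εd : pB C J₀ → ℝ}

/-- the size of a box of ROUND T -/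
theorem exists_size (D : KIn3 c₀ n j δ v w ρ M h J₀ J P Z) (C : Cells ρ w K) {b : TBx K} {y : V}
    {q : K.T} (hy : y ∈ (D.G C).TB false b) (hq : y ∈ K.cube q) :
    ∃ s : ℝ, 0 < s ∧ ω3T δ C b = 4 * δ * s ∧ s ≤ C.sT q ∧ C.sT q ≤ 4 * s := by
  rcases b with e | i
  · obtain ⟨h3, h4⟩ := C.sG_sT D.hρ (Geo.tile_TB_inl hy hq)
    exact ⟨C.sG e, C.sG_pos e, rfl, h3, h4⟩
  · have hi := Geo.tile_TB_inr hy hq
    obtain ⟨h3, h4⟩ := C.sW_sT D.hρ (sq_sub_of hi (Geo.hang_mem i))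
    exact ⟨C.sW i.i, C.sW_pos i.i, rfl, h3, h4⟩

/-- the oscillations at two boxes which meet a cell -/
theorem ω_ratio (D : KIn3 c₀ n j δ v w ρ M h J₀ J P Z) (C : Cells ρ w K) {b b' : TBx K}
    (hb : b ∈ pB C J₀) {i : M.ι} (hi : i ∉ P) {x x' : V} (hx : x ∈ M.Q i) (hx' : x' ∈ M.Q i)
    (hxb : h.toFun x ∈ (D.G C).TB false b) (hxb' : h.toFun x' ∈ (D.G C).TB false b') :
    ω3T δ C b' ≤ 16 * ω3T δ C b := by
  obtain ⟨q, hq⟩ := K.cover _ (h.mapsTo (M.sub i hx))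
  obtain ⟨q', hq'⟩ := K.cover _ (h.mapsTo (M.sub i hx'))
  obtain ⟨-, h2⟩ := D.rt_cmpC C i hi ⟨x, hx, b, hb, hxb⟩ x hx x' hx' q q' hq hq'
  obtain ⟨s, hs, e, h3, h4⟩ := exists_size D C hxb hq
  obtain ⟨s', hs', e', h3', h4'⟩ := exists_size D C hxb' hq'
  have ho := o3_pos D.pos
  have h5 : o3 n * C.sT q' ≤ 4 * (o3 n * C.sT q) := h2
  have h6 : C.sT q' ≤ 4 * C.sT q := by
    have : o3 n * C.sT q' ≤ o3 n * (4 * C.sT q) := by linarith
    exact le_of_mul_le_mul_left this ho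
  rw [e, e']
  have hδ := D.δpos
  have h7 : s' ≤ 16 * s := by linarith
  nlinarith

namespace RTD

variable (R : RTD D C E T A₁ C₅ μ₁ ε εd)

theorem ptOk {i : M.ι} (hi : i ∈ P ∪ Wc D C) {x : V} (hx : x ∈ M.Q i) {r : pB C J₀ → ℝ}
    (hr : ∀ b, 8 * ω3T δ C b.1 ≤ r b) :
    H155.PtOk h.toFun R.g.toFun (fun b : pB C J₀ => rtK (D.G C) (ω3T δ C) b.1 60) r x := by
  rcases R.go.pt i hi x hx with ⟨b, hb, -, h1, h2, h3⟩ | he
  · exact Or.inl ⟨⟨b, hb⟩, h1, h2, h3.trans (hr ⟨b, hb⟩)⟩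
  · exact Or.inr he

theorem st2G : St2G (D.G C) M E h R.h' (ω3T δ C) (pB C J₀) (Act D C)
    (fun b : pB C J₀ => R.L.bxQ R.c R.hc0 R.hc b.1)
    (fun b : pB C J₀ => rtK (D.G C) (ω3T δ C) b.1 60) R.κ R.g :=
  R.D2.st2G (fun b => by rw [bxQ_K]; exact rtK_mono R.L (by norm_num))
    (fun b => rtK_sub R.L (by norm_num))

variable {e : TBx K → ℝ} {he : ∀ b, 0 < e b} {he2 : ∀ b, 2 * e b < R.dl b} {hμ1 : μ₁ ≤ 1}
  {Hα H₁ Tf : ConHomeo Λ Λ}

section S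

variable (HR : RTS R.L R.hc0 R.hc he he2 (R.X hμ1 he he2) Hα H₁ Tf)
include HR

/-- `near3`, `off3`, `offc`, `offg` -/
theorem near_fields (N : SNum (R.X hμ1 he he2)) :
    (∀ x ∈ Ω, ∀ q, h.toFun x ∈ K.cube q →
      ‖(R.g.trans ((Hα.trans H₁).trans Tf)).toFun x - h.toFun x‖ ≤ (D.G C).om q) ∧
    (∀ x ∈ Ω, h.toFun x ∉ Nb w J₀ c₀ →
      (R.g.trans ((Hα.trans H₁).trans Tf)).toFun x = h.toFun x) ∧
    (∀ i, (∀ x ∈ M.Q i, ∀ b ∈ pB C J₀, h.toFun x ∉ (D.G C).TB false b) →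
      EqOn (R.g.trans ((Hα.trans H₁).trans Tf)).toFun h.toFun (M.Q i)) ∧
    ∀ i ∈ P ∪ Wc D C, ∀ x ∈ M.Q i, (∀ b ∈ pB C J₀, h.toFun x ∉ (D.G C).TB false b) →
      (R.g.trans ((Hα.trans H₁).trans Tf)).toFun x = h.toFun x :=
  H155.rt3D R.st2G (r := fun b => 21 * ω3T δ C b.1)
    (fun b => by have := D.ω3T_pos C b.1; linarith)
    (fun b => by
      have h1 := D.ω3T_pos C b.1
      have h2 := R.cω b.1
      show R.c b.1 ≤ _
      linarith)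
    (HR.mv N) (D.rt_omr C fun b => by have := D.ω3T_pos C b.1; linarith)
    (fun i hi x hx => R.ptOk hi hx fun b => by have := D.ω3T_pos C b.1; linarith)
    (fun i _ hno => R.go.miss i hno) (D.rt_cmpA C) (D.rt_NA C) (D.rt_TBN C)

/-- `dispT` -/
theorem dispT_field : ∀ x ∈ Ω, ∀ b ∈ pB C J₀, h.toFun x ∈ (D.G C).TB false b →
    ‖(R.g.trans ((Hα.trans H₁).trans Tf)).toFun x - h.toFun x‖ ≤ 1024 * ω3T δ C b := by
  intro x hx b hb hxb
  have hω := D.ω3T_pos C b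
  obtain ⟨i, hi⟩ := M.cover x hx
  by_cases hiA : i ∈ P ∪ Wc D C
  · have h1 := R.h1_near HR (b := ⟨b, hb⟩) hxb (r := fun b => 8 * ω3T δ C b)
      (by have := D.ω3T_pos C b; positivity) (R.go.pt i hiA x hi)
    have h2 := R.dspω b
    have h6 := R.L.dsp_nonneg b
    dsimp only at h1
    show ‖((Hα.trans H₁).trans Tf).toFun (R.g.toFun x) - h.toFun x‖ ≤ _
    linarith
  · have hiP : i ∉ P := fun h => hiA (Or.inl h)
    obtain ⟨x', hx', h1⟩ := Vale.Agent.P073.H267.exists_near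
      (r := fun b : pB C J₀ => 12 * ω3T δ C b.1)
      (fun b => by have := D.ω3T_pos C b.1; positivity)
      (R.st2G.rl.mono fun b => le_rfl) (R.st2G.mvκ.mono fun b => by
        have h1 := D.ω3T_pos C b.1
        have h2 := R.cω b.1
        show R.c b.1 ≤ _
        linarith)
      ((R.mv3 HR).mono fun b => by
        have h1 := D.ω3T_pos C b.1
        have h2 := R.dspω b.1
        have h3 := R.L.dsp_nonneg b.1
        linarith) (R.st2G.cell i) (M.sub i) hi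
    have h2 := D.rt_oscC C i hiP b hb x hi x' hx' hxb
    rw [dist_comm, dist_eq_norm] at h2
    show ‖((Hα.trans H₁).trans Tf).toFun (R.g.toFun x) - h.toFun x‖ ≤ _
    rcases h1 with h1 | ⟨b', hb', h1⟩
    · rw [h1]; linarith
    · have h3 := norm_sub_le_norm_sub_add_norm_sub (((Hα.trans H₁).trans Tf).toFun (R.g.toFun x))
        (h.toFun x') (h.toFun x)
      have h4 := ω_ratio D C hb hiP hi hx' hxb (R.st2G.subT b' hb')
      linarith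

/-- `imge` -/
theorem imge_field : ∀ e, (∀ x ∈ E.seg e, ∀ b ∈ pB C J₀, h.toFun x ∉ (D.G C).TB false b) →
    (R.g.trans ((Hα.trans H₁).trans Tf)).toFun '' E.seg e = h.toFun '' E.seg e := fun e hm =>
  H190.ImgE.imge_of R.D2 (fun y _ hy => (R.mv3 HR).off y fun b hb =>
    hy b.1 b.2 (rtK_sub R.L (u := 60) (by norm_num) hb)) hm

/-- `rectc`, `rectf`, `recte`, `rectv` -/
theorem rect_fields :
    (∀ i ∈ P, (R.g.trans ((Hα.trans H₁).trans Tf)).toFun '' M.Q i = h.toFun '' M.Q i) ∧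
    (∀ i ∈ P, ∀ k, M.F k ⊆ M.Q i →
      (R.g.trans ((Hα.trans H₁).trans Tf)).toFun '' M.F k = h.toFun '' M.F k) ∧
    (∀ i ∈ P, ∀ e, E.seg e ⊆ M.Q i →
      (R.g.trans ((Hα.trans H₁).trans Tf)).toFun '' E.seg e = h.toFun '' E.seg e) ∧
    ∀ i ∈ P, ∀ x ∈ E.verts, x ∈ M.Q i →
      (R.g.trans ((Hα.trans H₁).trans Tf)).toFun x = h.toFun x :=
  H196.rect_rts R.D2 HR (R.fixN hμ1).farV
    (fun _ => H196.wr_of_filter fun _ ht h1 h2 => mem_V0.2 ⟨ht, h1, h2⟩)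
    (lt_of_le_of_lt D.η_le_one (by norm_num)) D.inp (D.rt_TBN C)

/-- `protu` -/
theorem protu_field : ∀ i ∈ P, ∀ s ∈ pS C J₀, ∀ x ∈ M.Q i, h.toFun x ∈ PX (D.G C) s →
    ∀ b ∈ pB C J₀, h.toFun x ∈ (D.G C).TB false b → ∀ l, l ≠ b.ax →
    (R.g.trans ((Hα.trans H₁).trans Tf)).toFun x l = h.toFun x l :=
  fun i hi s hs x hx hxs _ hb hxb _ hl =>
    H196.protu_of R.L HR.vrt (vfx_ph (R.X hμ1 he he2) (R.fixN hμ1).farV)
      (R.ptOk (Or.inl hi) hx fun _ => le_rfl) (R.go.ptv i hi s hs x hx hxs) hb hxb hl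

end S

include R

/-- the numbers of the levels -/
theorem numb (hlen : ∀ b ∈ pB C J₀, 300 * ω3T δ C b ≤
      μ₁ * ((D.G C).thi true b b.ax - (D.G C).tlo true b b.ax)) :
    ∀ b ∈ pB C J₀, 60 * ω3T δ C b + dsp (R.Tt b) (R.dl b) ≤
      μ₁ / 4 * ((D.G C).thi true b b.ax - (D.G C).tlo true b b.ax) := fun b hb => by
  have h1 := hlen b hb
  have h2 := R.dspω b
  have h3 := D.ω3T_pos C b
  linarith

/-- **the output** -/
theorem out {C₀ μ : ℝ} (hA₁ : 0 ≤ A₁) (hC₅ : 0 ≤ C₅)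
    (hC₀ : 1248 * (2 * (7 + A₁)) + 3 + A₁ + 8 * C₅ ≤ C₀) (hμ0 : 0 < μ₁) (hμ1 : μ₁ ≤ 1)
    (hμ₁μ : μ₁ ≤ μ) (hε : ∀ e, 0 < ε e)
    (hlen : ∀ b ∈ pB C J₀, 300 * ω3T δ C b ≤
      μ₁ * ((D.G C).thi true b b.ax - (D.G C).tlo true b b.ax)) :
    ∃ (Lam1 : M.κ → ℝ) (nT : pB C J₀ → ℕ), (∀ k, 0 ≤ Lam1 k) ∧
    ∃ Lh : M.ι → ℝ, (∀ i, 0 ≤ Lh i) ∧
    ∀ σ : pB C J₀ → ℝ, (∀ b, 0 < σ b) →
    ∃ (sl : pB C J₀ → Finset (ℝ × ℝ)) (h1 : ConHomeo Ω Λ), (∀ b, (sl b).card ≤ nT b) ∧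
      (∀ b : pB C J₀, SlIn (D.G C) (ω3T δ C) b.1 (σ b) (sl b)) ∧ LipH M Lh h1.toFun ∧
      (∃ (e : TBx K → ℝ) (he : ∀ b, 0 < e b) (he2 : ∀ b, 2 * e b < R.dl b)
        (Hα H₁ Tf : ConHomeo Λ Λ), RTS R.L R.hc0 R.hc he he2 (R.X hμ1 he he2) Hα H₁ Tf ∧
        SNum (R.X hμ1 he he2) ∧ h1 = R.g.trans ((Hα.trans H₁).trans Tf)) ∧
      TOut3 D C E T C₀ μ ε εd (LaN E C₀ (bN E h.toFun ε (Wc D C)))
        (LfN T C₀ (bN E h.toFun ε (Wc D C))) Lam1 sl h1 := by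
  have hΩ : IsOpen Ω := D.bΩ.1
  have hΛ : IsOpen Λ := D.bΛ.1
  have hnum := R.numb hlen
  obtain ⟨Lam1, hL0, -, e₀, he₀, H3⟩ := rt3 D C T hA₁ hC₅ (C₀ := C₀) (by linarith) hε
    (L := R.L) (by linarith) (μ' := μ₁ / 4) (by linarith) hnum (fun b _ => R.cω b) R.D2 R.OW
    R.miss
  obtain ⟨e₁, he₁, Hst⟩ := R.go.stair
  obtain ⟨e₂, he₂, H5⟩ := R.t5 (fun e => ε e / 4) fun e => by have := hε e; positivity
  obtain ⟨Lh, hLh0, hLh⟩ := _root_.P073.H880.LH.exists_liph0 hΩ hΛ R.g R.L (pB C J₀) R.hc0 R.hc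
  refine ⟨Lam1, fun b => R.L.N b.1 + 1, hL0, Lh, hLh0, fun σ hσ => ?_⟩
  classical
  set e' : TBx K → ℝ := fun b => min (min (e₁ b) (e₂ b))
    (if hb : b ∈ pB C J₀ then e₀ ⟨b, hb⟩ else 1) with he'
  have he'0 : ∀ b, 0 < e' b := fun b => by
    refine lt_min (lt_min (he₁ b) (he₂ b)) ?_
    split_ifs with hb
    · exact he₀ _
    · exact one_pos
  obtain ⟨e, he, he2, Hα, H₁, Tf, hle, HR, N, hSl, hcard⟩ := exists_rtS hΛ R.L R.hc0 R.hc
    (R.fixN hμ1) (fun b => R.dspω b.1) he'0 hσ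
  have HR' : RTS R.L R.hc0 R.hc he he2 (R.X hμ1 he he2) Hα H₁ Tf := HR
  have N' : SNum (R.X hμ1 he he2) := N
  have hle₀ : ∀ b : pB C J₀, e b.1 ≤ e₀ b := fun b => by
    have h1 := (hle b.1).trans (min_le_right _ _)
    rw [dif_pos b.2] at h1
    exact h1
  obtain ⟨hS1, hS2, hS3⟩ := Hst e he he2 (fun b : pB C J₀ => V0 D C E b.1) (R.X hμ1 he he2)
    Hα H₁ Tf (fun b => (hle b).trans ((min_le_left _ _).trans (min_le_left _ _))) HR' N'
  obtain ⟨htv, htvs⟩ := H5 e he he2 (fun b : pB C J₀ => V0 D C E b.1) (R.X hμ1 he he2)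
    Hα H₁ Tf (fun b => (hle b).trans ((min_le_left _ _).trans (min_le_right _ _))) HR' N'
  have H3' := H3 e he he2 (fun b : pB C J₀ => V0 D C E b.1) (R.X hμ1 he he2) Hα H₁ Tf HR' N' hle₀
  obtain ⟨n1, n2, n3, n4⟩ := R.near_fields HR' N'
  obtain ⟨r1, r2, r3, r4⟩ := R.rect_fields HR'
  have hεN : ∀ e, 0 < εN E h.toFun ε C₅ e := εN_pos hΩ E h hε hC₅
  refine ⟨fun b => (tgR R.L R.hc0 R.hc he he2 (R.X hμ1 he he2) b).sl,
    R.g.trans ((Hα.trans H₁).trans Tf), hcard, hSl, hLh e he he2 _ _ Hα H₁ Tf HR' N',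
    ⟨e, he, he2, Hα, H₁, Tf, HR', N', rfl⟩,
    { toT3OutG := H3'
      near3 := n1
      dispT := R.dispT_field HR'
      off3 := n2
      offc := n3
      offg := n4
      disp := R.disp_field HR'
      oscv := ?_
      oscf := R.oscf_field HR' (by linarith)
      rectc := r1
      rectf := r2
      recte := r3
      rectv := r4
      protv := ?_
      protu := R.protu_field HR'
      lip3 := fun i hi L hL hLip b hb lo hi' h1 h2 h3 x hx hxb =>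
        R.lipS_field HR' hA₁ (by linarith) hS2 hi Subset.rfl hL hLip hb
          (fun hne => R.lamle b i hne L hLip) h1 h2 h3 hx hxb
      lipf := fun i hi k hk L hL hLip b hb lo hi' h1 h2 h3 x hx hxb =>
        R.lipS_field HR' hA₁ (by linarith) hS2 hi hk hL hLip hb
          (fun hne => R.lamlf b k hne L hLip) h1 h2 h3 hx hxb
      stairw := ?_
      imge := R.imge_field HR'
      tv := ?_
      tvs := ?_
      tvo := fun e₃ l hl F A hA hF hc => R.tvo_field HR' e₃ l hl F A hA hF hc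
      tvg := R.tvg_field HR' hC₅ (by linarith) hμ0 hε hnum htv }⟩
  · intro i hi b lo hi' h1 h2 h3 Bd hBd x hx y hy hxb hyb
    refine (hS3 i hi b.1 b.2 lo hi' h1 h2 h3 Bd hBd x hx y hy hxb hyb).trans ?_
    have h4 : 0 ≤ Bd := (abs_nonneg _).trans (hBd x hx x hx)
    have h5 := R.lamd b
    have h6 := R.lam0 b.1
    have h7 : A₁ * Bd ≤ C₀ * Bd := mul_le_mul_of_nonneg_right (by linarith) h4
    linarith
  · exact H196.protv_field (G₀ := pB C J₀) (lt_of_le_of_lt D.η_le_one (by norm_num)) D.inp hA₁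
      (by linarith) R.lamle hS1
  · intro i hi b x hx hxb h1 h2
    filter_upwards [hS2 i hi b.1 b.2 x hx hxb h1 h2] with y hy
    refine hy.trans (add_le_add (mul_le_mul_of_nonneg_right (by linarith) (norm_nonneg _))
      (mul_le_mul_of_nonneg_right ?_ (norm_nonneg _)))
    have h5 := R.lamd b
    have h6 := R.lam0 b.1
    linarith
  · intro e₃ b hb hne lo hi' h1 h2 h3
    refine (htv e₃ ⟨b, hb⟩ hne lo hi' h1 h2 h3).trans ?_
    rw [← R.L.ofReal_WeW R.D2.O]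
    refine (tv_aux3 hC₅ (hεN e₃).le (hε e₃) (εN_le E h.toFun hC₅ e₃).1
      (R.L.ofReal_WeW_le R.D2.O (μ' := μ₁ / 4) (by linarith) (by linarith) (fun e => (hεN e).le)
        hnum e₃)).trans ?_
    refine add_le_add (mul_le_mul' (ENNReal.ofReal_le_ofReal (by linarith)) le_rfl) le_rfl
  · intro e₃ b hb hball lo hi' h1 h2 h3
    refine (htvs e₃ ⟨b, hb⟩ hball lo hi' h1 h2 h3).trans ?_
    have hX0 : 0 ≤ 4 * (R.X hμ1 he he2).d ⟨b, hb⟩ / (R.X hμ1 he he2).g ⟨b, hb⟩ := by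
      rw [X_d, X_g]
      have := R.L.dsp_nonneg b
      have := R.gp0 b
      positivity
    refine tvs_aux3 hμ0 hμ1 hμ₁μ (hεN e₃).le (hε e₃) ?_ (by linarith)
      (R.q_le hμ0 (hμ1 := hμ1) (he := he) (he2 := he2) ⟨b, hb⟩)
      (R.L.wt_sharpW R.D2.O (μ := μ₁ / 4) (by linarith) b (hnum b hb) true e₃)
      (varIn_le_evar zero_le_one (Croft.conicalOn_onS h.conical (E.seg_sub_Ω e₃)) b.ax
        (convex_Icc _ _))
    have h4 := (εN_le E h.toFun (ε := ε) hC₅ e₃).1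
    have h5 := hεN e₃
    nlinarith

end RTD

end

end Vale.Agent.P073.H238.K3
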