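import Vale.Agent.P073.H238.RT0

/-!
# P073, H238: **[K3-RT]**: the statement of ROUND T of `K3C`
-/

open Set Metric Topology Filter
open scoped ENNReal

namespace Vale.Agent.P073.H238.K3

open _root_.P073 _root_.P073.Net _root_.P073.PA691 _root_.P073.H236 _root_.P073.H579
open _root_.P073.H267
open _root_.P073.H142 (FStar)
open _root_.P073.H345 (PK)
open Vale.Agent.P073.St (V)
open Vale.Agent.P073.H471 Vale.Agent.P073.H267 Vale.Agent.P073.H267.Geo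
open Vale.Agent.P073.H73 (Mesh)
open Vale.Agent.P073.H193 (Edges Cyc)
open Vale.Agent.P073.H304 (Nb In Zmax)
open Vale.Agent.P073.H926

/-- **[K3-RT]: ROUND T of `K3C`** -/
def RoundT3 : Prop :=
  ∃ C₀ : ℝ, 1 ≤ C₀ ∧
  ∀ (c₀ n : ℝ) (j : ℕ) (δ : ℝ) (Ω Λ : Set V) (v w : V) (ρ : V → ℝ) (M : Mesh Ω)
    (h : ConHomeo Ω Λ) (J₀ J : Set (ℕ × (Fin 3 → ℤ))) (P Z : Set M.ι)
    (D : KIn3 c₀ n j δ v w ρ M h J₀ J P Z) (K : BoxCx Λ w) (C : Cells ρ w K)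
    (E : Edges M) (_Cy : ∀ k, Cyc E k) (T : ∀ k, FStar E k) (μ : ℝ), 0 < μ →
    (∀ b ∈ pB C J₀, 300 * ω3T δ C b ≤ μ * ((D.G C).thi true b b.ax - (D.G C).tlo true b b.ax)) →
    ∀ Zw : Set (Set V), ZWall (D.G C) M h (Act D C) (pB C J₀) (ω3T δ C) Zw →
    ∀ ε : E.ε → ℝ, (∀ e, 0 < ε e) → ∀ εd : pB C J₀ → ℝ, (∀ b, 0 < εd b) →
    ∃ (bn La : E.ε → ℝ) (Lf : M.κ → E.ε → ℝ), TNum3 M E h.toFun T C₀ ε (Wc D C) bn La Lf ∧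
    ∃ (Lam1 : M.κ → ℝ) (nT : pB C J₀ → ℕ), (∀ k, 0 ≤ Lam1 k) ∧
    ∃ Lh : M.ι → ℝ, (∀ i, 0 ≤ Lh i) ∧
    ∀ σ : pB C J₀ → ℝ, (∀ b, 0 < σ b) →
    ∃ (sl : pB C J₀ → Finset (ℝ × ℝ)) (h1 : ConHomeo Ω Λ), (∀ b, (sl b).card ≤ nT b) ∧
      (∀ b : pB C J₀, SlIn (D.G C) (ω3T δ C) b.1 (σ b) (sl b)) ∧ LipH M Lh h1.toFun ∧
      WallOut D C E Zw h1 ∧ TOut3 D C E T C₀ μ ε εd La Lf Lam1 sl h1

end Vale.Agent.P073.H238.K3
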