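import Vale.Agent.P073.H238.RT1C
import Vale.Agent.P073.H238.RTC
import Vale.Agent.P073.H581.WallF

/-!
# P073, H238: **[K3-RT]**: ROUND T of `K3C`, with the Lipschitz numbers and the further walls
-/

open Set Metric Topology Filter
open scoped ENNReal

namespace Vale.Agent.P073.H238.K3

open _root_.P073 _root_.P073.Net _root_.P073.PA691 _root_.P073.H236 _root_.P073.H579
open _root_.P073.H267
open _root_.P073.H196 (FixD)
open _root_.P073.H142 (FStar)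
open Vale.Agent.P073.St (V)
open Vale.Agent.P073.H471 Vale.Agent.P073.H267 Vale.Agent.P073.H267.Geo
open Vale.Agent.P073.H73 (Mesh)
open Vale.Agent.P073.H193 (Edges Cyc)
open Vale.Agent.P073.H304 (Nb In Zmax)
open Vale.Agent.P073.H926

section

variable {c₀ n δ : ℝ} {j : ℕ} {Ω Λ : Set V} {v w : V} {ρ : V → ℝ} {M : Mesh Ω} {h : ConHomeo Ω Λ}
  {J₀ J : Set (ℕ × (Fin 3 → ℤ))} {P Z : Set M.ι} {K : BoxCx Λ w}
  {D : KIn3 c₀ n j δ v w ρ M h J₀ J P Z} {C : Cells ρ w K} {E : Edges M}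
  {T : ∀ k, FStar E k} {A₁ C₅ μ₁ : ℝ} {ε : E.ε → ℝ} {εd : pB C J₀ → ℝ}

/-- the output on the walls -/
theorem RTD.wallOut (R : RTD D C E T A₁ C₅ μ₁ ε εd) {Zw : Set (Set V)}
    (hZ : ∀ Q ∈ Zw, ∀ x ∈ Ω, h.toFun x ∈ Q → R.h'.toFun x = h.toFun x) {S : ConHomeo Λ Λ}
    (HS : H581.LatS R.L (pB C J₀) S.toFun) : WallOut D C E Zw (R.g.trans S) where
  face := fun Q hQ _ hk _ hl => R.wallF HS (Qz := Q) (hZ Q hQ) hk hl
  set := fun Q hQ _ hX hXQ _ hl => R.wall3 HS (Qz := Q) (hZ Q hQ) hX hXQ hl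

/-- **[K3-RT]** -/
theorem roundT3_of {A₁ C₅ : ℝ} (hA₁ : 0 ≤ A₁) (hC₅ : 0 ≤ C₅) (hG : GivT3 A₁) (h5 : T5G C₅) :
    RoundT3 := by
  refine ⟨1248 * (2 * (7 + A₁)) + 3 + A₁ + 8 * C₅, by linarith, ?_⟩
  intro c₀ n j δ Ω Λ v w ρ M h J₀ J P Z D K C E _ T μ hμ hlen Zw HZ ε hε εd hεd
  have hΩ : IsOpen Ω := D.bΩ.1
  have hμ₁0 : 0 < min μ 1 := lt_min hμ one_pos
  have hμ₁1 : min μ 1 ≤ 1 := min_le_right _ _
  have hlen' : ∀ b ∈ pB C J₀, 300 * ω3T δ C b ≤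
      min μ 1 * ((D.G C).thi true b b.ax - (D.G C).tlo true b b.ax) := by
    intro b hb
    rcases le_total μ 1 with h1 | h1
    · rw [min_eq_left h1]; exact hlen b hb
    · rw [min_eq_right h1, one_mul]
      have h2 := H669.win (D.G C) b
      have h3 := D.ω3T_oT C b
      have h4 := D.ω3T_pos C b
      linarith
  obtain ⟨R, hZ⟩ := exists_rtdZ hA₁ hC₅ hG h5 D C E T hμ₁0 hμ₁1 HZ hε hεd
  obtain ⟨Lam1, nT, hL, Lh, hLh, H⟩ := R.out hA₁ hC₅ le_rfl hμ₁0 hμ₁1 (min_le_left _ _) hε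
    hlen'
  refine ⟨_, _, _, tnum3_of hΩ (by linarith) hε, Lam1, nT, hL, Lh, hLh, fun σ hσ => ?_⟩
  obtain ⟨sl, h1, hcard, hSl, hlip, ⟨e, he, he2, Hα, H₁, Tf, HR, -, rfl⟩, O⟩ := H σ hσ
  exact ⟨sl, _, hcard, hSl, hlip, R.wallOut hZ (R.latS HR), O⟩

end

end Vale.Agent.P073.H238.K3
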