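import Vale.Agent.P073.H238.RT0
import Vale.Agent.P073.H579.RTS
import Vale.Agent.P073.H236.SA4

/-!
# P073, H238: **[K3-RT]**, the two inputs of the composition of ROUND T

`GivT3 A₁`: everything about the given maps (cells of `P`, passive cells, cells which miss the
boxes).  `T5G C₅`: the variation of the coordinates.
-/

open Set Metric Topology Filter
open scoped ENNReal

namespace Vale.Agent.P073.H238.K3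

open _root_.P073 _root_.P073.Net _root_.P073.PA691 _root_.P073.H236 _root_.P073.H579
open _root_.P073.H267
open _root_.P073.H196 (FixD)
open _root_.P073.H142 (FStar)
open _root_.P073.H345 (PK IsQ)
open _root_.P073.PR720 (LF)
open Vale.Agent.P073.St (V)
open Vale.Agent.P073.H471 Vale.Agent.P073.H267 Vale.Agent.P073.H267.Geo
open Vale.Agent.P073.H73 (Mesh)
open Vale.Agent.P073.H193 (Edges Cyc)
open Vale.Agent.P073.H304 (Nb In Zmax)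
open Vale.Agent.P073.H669 (TLv)
open Vale.Agent.P073.H669.TLv (OutW offT)
open Vale.Agent.P073.H579 (TStageW)
open _root_.P073.H155 (Giv)
open Vale.Agent.P073.H926

/-! ### the given maps -/

section

variable {c₀ n δ : ℝ} {j : ℕ} {Ω Λ : Set V} {v w : V} {ρ : V → ℝ} {M : Mesh Ω} {h : ConHomeo Ω Λ}
  {J₀ J : Set (ℕ × (Fin 3 → ℤ))} {P Z : Set M.ι} {K : BoxCx Λ w}

/-- **the output on the given cells**, `g`: after the insertion. `lamb`: small numbers, given in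
advance -/
structure GivOut (D : KIn3 c₀ n j δ v w ρ M h J₀ J P Z) (C : Cells ρ w K) (E : Edges M)
    {Tt : TBx K → Finset (ℝ × ℝ)} {η : ℝ} {εE : E.ε → ℝ} {dl : TBx K → ℝ}
    (L : TLv (D.G C) E h (ω3T δ C) Tt η (fun _ : Empty => (∅ : Set V)) ∅ εE dl)
    {c : TBx K → ℝ} (hc0 : ∀ b, 0 < c b) (hc : ∀ b, c b ≤ dl b / 8) (A₁ : ℝ) (lamb : TBx K → ℝ)
    (h' g : ConHomeo Ω Λ) : Prop where
  /-- cells which miss the boxes -/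
  miss : ∀ i, (∀ x ∈ M.Q i, ∀ b ∈ pB C J₀, h.toFun x ∉ (D.G C).TB false b) →
    EqOn g.toFun h'.toFun (M.Q i)
  /-- small displacement, at all points of the given cells -/
  pt : ∀ i ∈ P ∪ Wc D C, ∀ x ∈ M.Q i, (∃ b ∈ pB C J₀,
      h.toFun x ∈ interior ((D.G C).TB false b) ∧ h.toFun x ∈ rtK (D.G C) (ω3T δ C) b 60 ∧
      g.toFun x ∈ rtK (D.G C) (ω3T δ C) b 60 ∧ ‖g.toFun x - h.toFun x‖ ≤ 8 * ω3T δ C b) ∨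
      g.toFun x = h.toFun x
  /-- small displacement, protected cells -/
  ptp : ∀ i ∈ P, ∀ x ∈ M.Q i, (∃ b ∈ pB C J₀,
      h.toFun x ∈ interior ((D.G C).TB false b) ∧ h.toFun x ∈ rtK (D.G C) (ω3T δ C) b 60 ∧
      g.toFun x ∈ rtK (D.G C) (ω3T δ C) b 60 ∧ ‖g.toFun x - h.toFun x‖ ≤ 3 * lamb b) ∨
      g.toFun x = h.toFun x
  /-- protected cells near the processed plates: the other coordinates are unchanged -/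
  ptv : ∀ i ∈ P, ∀ s ∈ pS C J₀, ∀ x ∈ M.Q i, h.toFun x ∈ PX (D.G C) s →
    ∀ b ∈ pB C J₀, h.toFun x ∈ (D.G C).TB false b → ∀ l, l ≠ b.ax → g.toFun x l = h.toFun x l
  /-- **[LIP-H1]**, and the oscillation on the passive cells, for all staircases
  `S = T ∘ H₁ ∘ H_α` -/
  stair : ∃ e₁ : TBx K → ℝ, (∀ b, 0 < e₁ b) ∧ ∀ (e : TBx K → ℝ) (he : ∀ b, 0 < e b)
    (he2 : ∀ b, 2 * e b < dl b)
    (V₀ : pB C J₀ → Finset ℝ) (X : FixD (F1 L hc0 hc he he2 (pB C J₀)) V₀)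
    (Hα H₁ Tf : ConHomeo Λ Λ), (∀ b, e b ≤ e₁ b) → RTS L hc0 hc he he2 X Hα H₁ Tf →
    SNum X →
    (∀ i ∈ P, ∀ b ∈ pB C J₀, ∀ x ∈ M.Q i, h.toFun x ∈ (D.G C).TB false b →
      ∀ᶠ y in 𝓝[M.Q i] x,
        |((Hα.trans H₁).trans Tf).toFun (g.toFun y) b.ax -
            ((Hα.trans H₁).trans Tf).toFun (g.toFun x) b.ax| ≤
          A₁ * ‖h.toFun y - h.toFun x‖ + lamb b * ‖y - x‖) ∧
    (∀ i ∈ Wc D C, ∀ b ∈ pB C J₀, ∀ x ∈ M.Q i, h.toFun x ∈ (D.G C).TB false b →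
      (D.G C).tlo true b b.ax + 40 * ω3T δ C b ≤ h.toFun x b.ax →
      h.toFun x b.ax ≤ (D.G C).thi true b b.ax - 40 * ω3T δ C b → ∀ᶠ y in 𝓝[M.Q i] x,
        |((Hα.trans H₁).trans Tf).toFun (g.toFun y) b.ax -
            ((Hα.trans H₁).trans Tf).toFun (g.toFun x) b.ax| ≤
          A₁ * ‖h.toFun y - h.toFun x‖ + lamb b * ‖y - x‖) ∧
    ∀ i ∈ Wc D C, ∀ b ∈ pB C J₀, ∀ lo hi : ℝ,
      (D.G C).tlo true b b.ax + 50 * ω3T δ C b ≤ lo → lo ≤ hi →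
      hi ≤ (D.G C).thi true b b.ax - 50 * ω3T δ C b →
      ∀ Bd : ℝ, (∀ x ∈ M.Q i, ∀ y ∈ M.Q i, |h.toFun x b.ax - h.toFun y b.ax| ≤ Bd) →
        ∀ x ∈ M.Q i, ∀ y ∈ M.Q i, h.toFun x ∈ (D.G C).TB false b →
        h.toFun y ∈ (D.G C).TB false b →
        |clm lo hi (((Hα.trans H₁).trans Tf).toFun (g.toFun x) b.ax) -
            clm lo hi (((Hα.trans H₁).trans Tf).toFun (g.toFun y) b.ax)| ≤ A₁ * Bd + lamb b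

end

/-- **[RT-GIV]**, all of it -/
def GivT3 (A₁ : ℝ) : Prop :=
  ∀ (c₀ n : ℝ) (j : ℕ) (δ : ℝ) (Ω Λ : Set V) (v w : V) (ρ : V → ℝ) (M : Mesh Ω)
    (h : ConHomeo Ω Λ) (J₀ J : Set (ℕ × (Fin 3 → ℤ))) (P Z : Set M.ι)
    (D : KIn3 c₀ n j δ v w ρ M h J₀ J P Z) (K : BoxCx Λ w) (C : Cells ρ w K)
    (E : Edges M) (V₀ : TBx K → Finset ℝ) (σ₀ lamb : TBx K → ℝ), (∀ b, 0 < σ₀ b) →
    (∀ b, 0 < lamb b) →
  ∃ (Tt : TBx K → Finset (ℝ × ℝ)) (dmax : TBx K → ℝ), (∀ b, ∀ p ∈ Tt b, p.1 ≤ p.2) ∧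
    (∀ b, ∑ p ∈ Tt b, (p.2 - p.1) ≤ σ₀ b) ∧ (∀ b, ∀ t ∈ V₀ b, (t, t) ∈ Tt b) ∧
    (∀ b, 0 < dmax b) ∧
  ∀ (η : ℝ) (εE : E.ε → ℝ) (dl : TBx K → ℝ)
    (L : TLv (D.G C) E h (ω3T δ C) Tt η (fun _ : Empty => (∅ : Set V)) ∅ εE dl),
    (∀ b, dl b ≤ dmax b) →
  ∀ h' : ConHomeo Ω Λ,
    TStageW (D.G C) M h h' P (P ∪ Wc D C) (Act D C) (pB C J₀) L.lev (ω3T δ C) →
  ∃ c₁ : TBx K → ℝ, (∀ b, 0 < c₁ b) ∧
  ∀ (c : TBx K → ℝ) (hc0 : ∀ b, 0 < c b) (hc : ∀ b, c b ≤ dl b / 8),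
    (∀ b ∈ pB C J₀, c b ≤ c₁ b) →
  ∀ κ, IsQ (fun b : pB C J₀ => L.bxQ c hc0 hc b.1) κ → InsMap κ Λ Λ →
  ∀ We : E.ε → ℝ, (∀ e, L.WeW (pB C J₀) h' e ≤ We e) →
    (∀ i ∈ P ∪ Wc D C, ∀ e, E.seg e ⊆ M.Q i → ∃ Lp : ℝ,
      (∀ x ∈ E.seg e, ∀ y ∈ E.seg e, ‖h.toFun x - h.toFun y‖ ≤ Lp * ‖x - y‖) ∧
      A₁ * Lp * ‖E.b e - E.a e‖ ≤ We e) →
  ∃ Ψ : ∀ i ∈ Gv D C, ConHomeo (M.Q i) (Pre κ Λ h' (M.Q i)),
    Giv M E h' κ (actF (L.AcW (Act D C) (pB C J₀) h')) (offT (D.G C) M h (pB C J₀))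
      (GEd E h' (fun b : pB C J₀ => L.bxQ c hc0 hc b.1) (L.AcW (Act D C) (pB C J₀) h') We)
      (Gv D C) Ψ ∧
    ∀ g : ConHomeo Ω Λ, (∀ i (hi : i ∈ Gv D C), EqOn g.toFun (Ψ i hi).toFun (M.Q i)) →
      GivOut D C E L hc0 hc A₁ lamb h' g

/-! ### the variation of the coordinates -/

section

variable {Ω Λ : Set V} {v : V} {K : BoxCx Λ v} {S₀ : Rad K} {Wd : Wid K S₀} {B : Boxes Wd}
  {G : Geo B} {M : Mesh Ω} {E : Edges M} {h : ConHomeo Ω Λ} {ω : TBx K → ℝ}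
  {T : TBx K → Finset (ℝ × ℝ)} {η : ℝ} {A : Empty → Set V} {Cs : Set ℝ} {εE : E.ε → ℝ}
  {δ : TBx K → ℝ}

/-- **(T5)** for the lift `g` of `h'` -/
def T5At (C₅ : ℝ) (L : TLv G E h ω T η A Cs εE δ) (G₀ : Set (TBx K)) {c : TBx K → ℝ}
    (hc0 : ∀ b, 0 < c b) (hc : ∀ b, c b ≤ δ b / 8) (h' g : ConHomeo Ω Λ) : Prop :=
  ∀ ε : E.ε → ℝ, (∀ e, 0 < ε e) →
    ∃ e₁ : TBx K → ℝ, (∀ b, 0 < e₁ b) ∧ ∀ (e : TBx K → ℝ) (he : ∀ b, 0 < e b)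
      (he2 : ∀ b, 2 * e b < δ b)
      (V₀ : G₀ → Finset ℝ) (X : FixD (F1 L hc0 hc he he2 G₀) V₀)
      (Hα H₁ Tf : ConHomeo Λ Λ), (∀ b, e b ≤ e₁ b) → RTS L hc0 hc he he2 X Hα H₁ Tf →
      SNum X →
      (∀ e₀, ∀ b : G₀, (h.toFun '' E.seg e₀ ∩ G.TB false b.1).Nonempty → ∀ lo hi : ℝ,
        G.tlo true b.1 b.1.ax + 50 * ω b.1 ≤ lo → lo ≤ hi →
        hi ≤ G.thi true b.1 b.1.ax - 50 * ω b.1 →
        eVariationOn (fun t : ℝ => clm lo hi (((Hα.trans H₁).trans Tf).toFun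
          (g.toFun (E.a e₀ + t • (E.b e₀ - E.a e₀))) b.1.ax)) (Icc 0 1) ≤
          ENNReal.ofReal C₅ * (∑' b' : G₀, L.wt h' false e₀ b'.1 + lenE E h.toFun e₀) +
            ENNReal.ofReal (ε e₀)) ∧
      ∀ e₀, ∀ b : G₀, (∀ x ∈ E.seg e₀, closedBall (h.toFun x) (30 * ω b.1) ⊆ G.TB true b.1) →
        ∀ lo hi : ℝ, G.tlo true b.1 b.1.ax + 50 * ω b.1 ≤ lo → lo ≤ hi →
        hi ≤ G.thi true b.1 b.1.ax - 50 * ω b.1 →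
        eVariationOn (fun t : ℝ => clm lo hi (((Hα.trans H₁).trans Tf).toFun
          (g.toFun (E.a e₀ + t • (E.b e₀ - E.a e₀))) b.1.ax)) (Icc 0 1) ≤
          ENNReal.ofReal (1 + 4 * X.d b / X.g b) * L.wt h' true e₀ b.1 + ENNReal.ofReal (ε e₀)

end

/-- **(T5)**, general form -/
def T5G (C₅ : ℝ) : Prop :=
  ∀ (Ω Λ : Set V) (v : V) (K : BoxCx Λ v) (S₀ : Rad K) (Wd : Wid K S₀) (B : Boxes Wd) (G : Geo B)
    (M : Mesh Ω) (E : Edges M) (h h' : ConHomeo Ω Λ) (ω : TBx K → ℝ)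
    (T : TBx K → Finset (ℝ × ℝ)) (η : ℝ) (A : Empty → Set V) (C : Set ℝ) (εE : E.ε → ℝ)
    (δ : TBx K → ℝ) (L : TLv G E h ω T η A C εE δ) (Pr W : Set M.ι) (Act₀ : Set M.κ)
    (G₀ : Set (TBx K)), IsOpen Ω → IsOpen Λ →
    (∀ b ∈ G₀, ∀ k, ∀ x ∈ M.F k, ∀ y ∈ M.F k, h.toFun x ∈ G.TB false b →
      dist (h.toFun x) (h.toFun y) ≤ ω b) →
    TStageW G M h h' Pr W Act₀ G₀ L.lev ω →
    ∃ c₁ : TBx K → ℝ, (∀ b, 0 < c₁ b) ∧ ∀ (c : TBx K → ℝ) (hc0 : ∀ b, 0 < c b)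
      (hc : ∀ b, c b ≤ δ b / 8), (∀ b ∈ G₀, c b ≤ c₁ b) → ∀ (κ : V → V) (g : ConHomeo Ω Λ),
      St2W L hc0 hc Pr W Act₀ G₀ h' κ g → T5At C₅ L G₀ hc0 hc h' g

end Vale.Agent.P073.H238.K3
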