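import Vale.Agent.P073.H238.RT1C

/-!
# P073, H238: **[T-END]**: the fields of the output of ROUND T after the map of the ends

`PsiS`: what is used about the map `Ψ` which contracts the ends of the windows.
-/

open Set Metric Topology Filter
open scoped ENNReal

namespace Vale.Agent.P073.H238.K3

open _root_.P073 _root_.P073.Net _root_.P073.PA691 _root_.P073.H236 _root_.P073.H579
open _root_.P073.H267
open _root_.P073.H196 (FixD Vrt VFx bigBox GdS)
open _root_.P073.H142 (FStar)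
open _root_.P073.H345 (PK IsQ)
open _root_.P073.PR720 (LF)
open Vale.Agent.P073.St (V)
open Vale.Agent.P073.H471 Vale.Agent.P073.H267 Vale.Agent.P073.H267.Geo
open Vale.Agent.P073.H73 (Mesh)
open Vale.Agent.P073.H193 (Edges Cyc)
open Vale.Agent.P073.H304 (Nb In Zmax)
open Vale.Agent.P073.H669 (TLv pV)
open Vale.Agent.P073.H669.TLv (OutW offT)
open Vale.Agent.P073.H579 (TStageW)
open _root_.P073.H155 (Giv)
open Vale.Agent.P073.H926
open _root_.P073.Croft (varIn onS)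

section psi

variable {Λ : Set V} {v : V} {K : BoxCx Λ v} {S₀ : Rad K} {Wd : Wid K S₀} {B : Boxes Wd}
  {G : Geo B} {ω : TBx K → ℝ} {G₀ : Set (TBx K)}

/-- **the map of the ends of the windows** -/
structure PsiS (G : Geo B) (ω : TBx K → ℝ) (V₀ : G₀ → Finset ℝ) (ηe : G₀ → ℝ) (Ψ : V → V)
    (φ : G₀ → V → ℝ → ℝ) : Prop where
  vrt : Vrt Ψ jR (alR G) (beR G) (fun b => G.tlo false b.1) (fun b => G.thi false b.1) φ
  vfx : VFx (WR G V₀) φ
  near : ∀ b : G₀, ∀ y ∈ G.TB false b.1, |Ψ y b.1.ax - y b.1.ax| ≤ 2048 * ω b.1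
  mid : ∀ b : G₀, ∀ y ∈ G.TB false b.1, G.tlo true b.1 b.1.ax + 32768 * ω b.1 ≤ y b.1.ax →
    y b.1.ax ≤ G.thi true b.1 b.1.ax - 32768 * ω b.1 → Ψ y = y
  full : ∀ b : G₀, ∀ y ∈ rtK G ω b.1 200, ∀ y' ∈ rtK G ω b.1 200,
    |Ψ y b.1.ax - Ψ y' b.1.ax| ≤ 16 / 15 * |y b.1.ax - y' b.1.ax|
  pair : ∀ b : G₀, ∀ y ∈ G.TB false b.1, ∀ y' ∈ G.TB false b.1, ∀ d : ℝ,
    (∀ l, l ≠ b.1.ax → |y l - y' l| ≤ d) →
    |Ψ y b.1.ax - Ψ y' b.1.ax| ≤ 16 / 15 * |y b.1.ax - y' b.1.ax| + d / 512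
  elo : ∀ b : G₀, ∀ y ∈ rtK G ω b.1 200, y b.1.ax ≤ G.tlo true b.1 b.1.ax + 2048 * ω b.1 →
    Ψ y b.1.ax ≤ G.tlo true b.1 b.1.ax + ηe b
  ehi : ∀ b : G₀, ∀ y ∈ rtK G ω b.1 200, G.thi true b.1 b.1.ax - 2048 * ω b.1 ≤ y b.1.ax →
    G.thi true b.1 b.1.ax - ηe b ≤ Ψ y b.1.ax

theorem bigBox_TB (G : Geo B) (b : TBx K) :
    bigBox b.ax (G.tlo true b b.ax) (G.thi true b b.ax) (G.tlo false b) (G.thi false b) =
      G.TB false b := by
  ext y
  rw [Vale.Agent.P073.H669.mem_TB]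
  constructor
  · rintro ⟨h1, h2⟩ k
    by_cases hk : k = b.ax
    · rw [hk, H238.tlo_ax G b, H238.thi_ax G b]; exact h1
    · exact h2 k hk
  · intro h1
    refine ⟨?_, fun k _ => h1 k⟩
    have := h1 b.ax
    rwa [H238.tlo_ax G b, H238.thi_ax G b] at this

namespace PsiS

variable {V₀ : G₀ → Finset ℝ} {ηe : G₀ → ℝ} {Ψ : V → V} {φ : G₀ → V → ℝ → ℝ}
  (H : PsiS G ω V₀ ηe Ψ φ)
include H

theorem on {b : G₀} {y : V} (hy : y ∈ G.TB false b.1) :
    Ψ y = Function.update y b.1.ax (φ b y (y b.1.ax)) :=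
  H.vrt.on b y (by rw [bigBox_TB G b.1]; exact hy)

theorem mem {b : G₀} {y : V} (hy : y ∈ G.TB false b.1) : Ψ y ∈ G.TB false b.1 := by
  have := H.vrt.mem (b := b) (y := y) (by rw [bigBox_TB G b.1]; exact hy)
  rwa [bigBox_TB G b.1] at this

theorem ne {b : G₀} {y : V} (hy : y ∈ G.TB false b.1) {l : Fin 3} (hl : l ≠ b.1.ax) :
    Ψ y l = y l := by
  rw [H.on hy, Function.update_of_ne hl]

theorem off {y : V} (hy : ∀ b : G₀, y ∉ G.TB false b.1) : Ψ y = y :=
  H.vrt.off y fun b hb => hy b (by rwa [bigBox_TB G b.1] at hb)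

theorem norm_le {b : G₀} (hω : 0 ≤ ω b.1) {y : V} (hy : y ∈ G.TB false b.1) :
    ‖Ψ y - y‖ ≤ 2048 * ω b.1 := by
  rw [pi_norm_le_iff_of_nonneg (by positivity)]
  intro l
  by_cases hl : l = b.1.ax
  · rw [hl]; exact H.near b y hy
  · rw [Pi.sub_apply, H.ne hy hl, sub_self, norm_zero]; positivity

/-- the map is onto the inside of a box from this box -/
theorem mem_of {b : G₀} {y : V} (hy : Ψ y ∈ interior (G.TB false b.1)) : y ∈ G.TB false b.1 := by
  by_cases hex : ∃ b' : G₀, y ∈ G.TB false b'.1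
  · obtain ⟨b', hb'⟩ := hex
    by_cases hbb : b.1 = b'.1
    · rw [hbb]; exact hb'
    · exact absurd (H.mem hb') ((disjoint_TB (G := G) hbb).notMem_of_mem_left hy)
  · push Not at hex
    rw [H.off hex] at hy
    exact interior_subset hy

/-- **good sets are preserved** -/
theorem gds {X : Set V} (HX : GdS G V₀ X) (y : V) : Ψ y ∈ X ↔ y ∈ X := by
  rcases HX with HX | ⟨p, q, rfl, HX⟩
  · by_cases hb : ∃ b : G₀, y ∈ G.TB false b.1
    · obtain ⟨b, hb⟩ := hb
      exact ⟨fun h3 => absurd (H.mem hb) ((HX b).notMem_of_mem_left h3),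
        fun h3 => absurd hb ((HX b).notMem_of_mem_left h3)⟩
    · push Not at hb
      rw [H.off hb]
  · refine H.vrt.mem_iff H.vfx ⟨p, q, rfl, fun b hb => HX b ?_⟩ y
    rwa [bigBox_TB G b.1] at hb

end PsiS

/-- a point of `TB true`, off the end planes, is inside of the box -/
theorem mem_interior_TB {b : TBx K} {y : V} (hoT : 0 < H238.oT G b) (hy : y ∈ G.TB true b)
    (h1 : G.tlo true b b.ax < y b.ax) (h2 : y b.ax < G.thi true b b.ax) :
    y ∈ interior (G.TB false b) := by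
  refine mem_interior.2 ⟨{z | ∀ i, G.tlo false b i < z i ∧ z i < G.thi false b i},
    fun z hz => ?_, ?_, fun i => ?_⟩
  · rw [Vale.Agent.P073.H669.mem_TB]
    exact fun i => ⟨(hz i).1.le, (hz i).2.le⟩
  · rw [Set.ofPred_forall]
    exact isOpen_iInter_of_finite fun i => (isOpen_lt continuous_const (continuous_apply i)).inter
      (isOpen_lt (continuous_apply i) continuous_const)
  · by_cases hi : i = b.ax
    · rw [hi, H238.tlo_ax G b, H238.thi_ax G b]; exact ⟨h1, h2⟩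
    · obtain ⟨h3, h4⟩ := H238.marg G b hi
      have h5 := hy.1 i
      have h6 := hy.2 i
      constructor <;> linarith

end psi

end Vale.Agent.P073.H238.K3
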