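import Vale.Agent.P073.H238.RT2A

/-!
# P073, H238: **[T-END]**: `near3`, `off3`, `offc`, `offg`, `dispT`, `disp`, `imge`, `rect*`, `prot*`
and the ends of the windows
-/

open Set Metric Topology Filter
open scoped ENNReal

namespace Vale.Agent.P073.H238.K3

open _root_.P073 _root_.P073.Net _root_.P073.PA691 _root_.P073.H236 _root_.P073.H579
open _root_.P073.H267
open _root_.P073.H196 (FixD Vrt VFx bigBox GdS)
open _root_.P073.H142 (FStar)
open _root_.P073.H345 (PK IsQ)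
open _root_.P073.PR720 (LF)
open Vale.Agent.P073.St (V)
open Vale.Agent.P073.H471 Vale.Agent.P073.H267 Vale.Agent.P073.H267.Geo
open Vale.Agent.P073.H73 (Mesh)
open Vale.Agent.P073.H193 (Edges Cyc)
open Vale.Agent.P073.H304 (Nb In Zmax)
open Vale.Agent.P073.H669 (TLv pV)
open Vale.Agent.P073.H669.TLv (OutW offT)
open Vale.Agent.P073.H579 (TStageW)
open _root_.P073.H155 (Giv)
open Vale.Agent.P073.H926
open _root_.P073.Croft (varIn onS)

section

variable {c₀ n δ : ℝ} {j : ℕ} {Ω Λ : Set V} {v w : V} {ρ : V → ℝ} {M : Mesh Ω} {h : ConHomeo Ω Λ}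
  {J₀ J : Set (ℕ × (Fin 3 → ℤ))} {P Z : Set M.ι} {K : BoxCx Λ w}
  {D : KIn3 c₀ n j δ v w ρ M h J₀ J P Z} {C : Cells ρ w K} {E : Edges M}
  {T : ∀ k, FStar E k} {A₁ C₅ μ₁ : ℝ} {ε : E.ε → ℝ} {εd : pB C J₀ → ℝ}

namespace RTD

variable (R : RTD D C E T A₁ C₅ μ₁ ε εd)

theorem st2G' : St2G (D.G C) M E h R.h' (ω3T δ C) (pB C J₀) (Act D C)
    (fun b : pB C J₀ => R.L.bxQ R.c R.hc0 R.hc b.1)
    (fun b : pB C J₀ => (D.G C).TB false b.1) R.κ R.g :=
  R.D2.st2G (fun b => R.L.K_sub R.hc0 R.hc b.1) (fun _ => Subset.rfl)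

theorem ptOk' {i : M.ι} (hi : i ∈ P ∪ Wc D C) {x : V} (hx : x ∈ M.Q i) {r : pB C J₀ → ℝ}
    (hr : ∀ b, 8 * ω3T δ C b.1 ≤ r b) :
    H155.PtOk h.toFun R.g.toFun (fun b : pB C J₀ => (D.G C).TB false b.1) r x := by
  rcases R.ptOk hi hx hr with ⟨b, h1, h2, h3⟩ | he
  · exact Or.inl ⟨b, rtK_sub R.L (u := 60) (by norm_num) h1,
      rtK_sub R.L (u := 60) (by norm_num) h2, h3⟩
  · exact Or.inr he

variable {e : TBx K → ℝ} {he : ∀ b, 0 < e b} {he2 : ∀ b, 2 * e b < R.dl b} {hμ1 : μ₁ ≤ 1}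
  {Hα H₁ Tf : ConHomeo Λ Λ}

section S

variable (HR : RTS R.L R.hc0 R.hc he he2 (R.X hμ1 he he2) Hα H₁ Tf)
include HR

theorem S_off {y : V} (hy : ∀ b : pB C J₀, y ∉ (D.G C).TB false b.1) :
    ((Hα.trans H₁).trans Tf).toFun y = y :=
  (R.mv3 HR).off y fun b hb => hy b (rtK_sub R.L (u := 60) (by norm_num) hb)

theorem S_mem {b : pB C J₀} {y : V} (hy : y ∈ (D.G C).TB false b.1) :
    ((Hα.trans H₁).trans Tf).toFun y ∈ (D.G C).TB false b.1 := by
  by_cases hex : ∃ b' : pB C J₀, y ∈ rtK (D.G C) (ω3T δ C) b'.1 60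
  · obtain ⟨b', hb'⟩ := hex
    by_cases hbb : b'.1 = b.1
    · have hb2 : b' = b := Subtype.ext hbb
      subst hb2
      exact rtK_sub R.L (u := 60) (by norm_num) ((R.mv3 HR).mem b' y hb')
    · rw [R.S_other HR hbb hy hb']; exact hy
  · push Not at hex
    rw [(R.mv3 HR).off y hex]; exact hy

theorem S_ne {b : pB C J₀} {y : V} (hy : y ∈ (D.G C).TB false b.1) {l : Fin 3}
    (hl : l ≠ b.1.ax) : ((Hα.trans H₁).trans Tf).toFun y l = y l :=
  H196.vrt_upd R.L HR.vrt (vfx_ph (R.X hμ1 he he2) (R.fixN hμ1).farV) hy hl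

/-- the inside of a box comes from this box -/
theorem S_mem_of {b : pB C J₀} {y : V}
    (hy : ((Hα.trans H₁).trans Tf).toFun y ∈ interior ((D.G C).TB false b.1)) :
    y ∈ (D.G C).TB false b.1 := by
  by_cases hex : ∃ b' : pB C J₀, y ∈ (D.G C).TB false b'.1
  · obtain ⟨b', hb'⟩ := hex
    by_cases hbb : b.1 = b'.1
    · rw [hbb]; exact hb'
    · exact absurd (R.S_mem HR hb') ((disjoint_TB (G := D.G C) hbb).notMem_of_mem_left hy)
  · push Not at hex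
    rw [R.S_off HR hex] at hy
    exact interior_subset hy

theorem S_near' (b : pB C J₀) {y : V} (hy : y ∈ (D.G C).TB false b.1) :
    ‖((Hα.trans H₁).trans Tf).toFun y - y‖ ≤ ω3T δ C b.1 := by
  have h1 := R.S_near HR b hy
  have h2 := R.dspω b.1
  have h3 := R.L.dsp_nonneg b.1
  linarith

variable {ηe : pB C J₀ → ℝ} {Ψ : ConHomeo Λ Λ} {φ : pB C J₀ → V → ℝ → ℝ}
  (HΨ : PsiS (D.G C) (ω3T δ C) (fun b : pB C J₀ => V0 D C E b.1) ηe Ψ.toFun φ)
include HΨ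

theorem mv3' : Mv (fun b : pB C J₀ => (D.G C).TB false b.1)
    (fun b : pB C J₀ => 2069 * ω3T δ C b.1) (((Hα.trans H₁).trans Tf).trans Ψ).toFun where
  mem := fun b y hy => HΨ.mem (R.S_mem HR hy)
  near := fun b y hy => by
    have hω := D.ω3T_pos C b.1
    have h1 := R.S_near' HR b hy
    have h2 := HΨ.norm_le (b := b) hω.le (R.S_mem HR hy)
    have h3 := norm_sub_le_norm_sub_add_norm_sub (Ψ.toFun (((Hα.trans H₁).trans Tf).toFun y))
      (((Hα.trans H₁).trans Tf).toFun y) y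
    show ‖Ψ.toFun (((Hα.trans H₁).trans Tf).toFun y) - y‖ ≤ _
    linarith
  off := fun y hy => by
    show Ψ.toFun (((Hα.trans H₁).trans Tf).toFun y) = y
    rw [R.S_off HR hy, HΨ.off hy]

/-- `near3`, `off3`, `offc`, `offg` -/
theorem near_fields' :
    (∀ x ∈ Ω, ∀ q, h.toFun x ∈ K.cube q →
      ‖(R.g.trans (((Hα.trans H₁).trans Tf).trans Ψ)).toFun x - h.toFun x‖ ≤ (D.G C).om q) ∧
    (∀ x ∈ Ω, h.toFun x ∉ Nb w J₀ c₀ →
      (R.g.trans (((Hα.trans H₁).trans Tf).trans Ψ)).toFun x = h.toFun x) ∧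
    (∀ i, (∀ x ∈ M.Q i, ∀ b ∈ pB C J₀, h.toFun x ∉ (D.G C).TB false b) →
      EqOn (R.g.trans (((Hα.trans H₁).trans Tf).trans Ψ)).toFun h.toFun (M.Q i)) ∧
    ∀ i ∈ P ∪ Wc D C, ∀ x ∈ M.Q i, (∀ b ∈ pB C J₀, h.toFun x ∉ (D.G C).TB false b) →
      (R.g.trans (((Hα.trans H₁).trans Tf).trans Ψ)).toFun x = h.toFun x :=
  H155.rt3D R.st2G' (r := fun b => 2069 * ω3T δ C b.1)
    (fun b => by have := D.ω3T_pos C b.1; linarith)
    (fun b => by
      have h1 := D.ω3T_pos C b.1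
      have h2 := R.cω b.1
      show R.c b.1 ≤ _
      linarith)
    (R.mv3' HR HΨ) (D.rt_omr C fun b => by have := D.ω3T_pos C b.1; linarith)
    (fun i hi x hx => R.ptOk' hi hx fun b => by have := D.ω3T_pos C b.1; linarith)
    (fun i _ hno => R.go.miss i hno) (D.rt_cmpA C) (D.rt_NA C) (D.rt_TBN C)

/-- the given cells, displacement of the lift and the staircase -/
theorem h1_near' {x : V} {b : pB C J₀} (hxb : h.toFun x ∈ (D.G C).TB false b.1) {r : TBx K → ℝ}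
    (hr : 0 ≤ r b.1)
    (hp : (∃ b ∈ pB C J₀, h.toFun x ∈ interior ((D.G C).TB false b) ∧
      h.toFun x ∈ rtK (D.G C) (ω3T δ C) b 60 ∧ R.g.toFun x ∈ rtK (D.G C) (ω3T δ C) b 60 ∧
      ‖R.g.toFun x - h.toFun x‖ ≤ r b) ∨ R.g.toFun x = h.toFun x) :
    ‖(((Hα.trans H₁).trans Tf).trans Ψ).toFun (R.g.toFun x) - h.toFun x‖ ≤
      2069 * ω3T δ C b.1 + r b.1 := by
  rcases hp with ⟨b', hb', hint, h1, h2, h3⟩ | hg
  · have hbb : b' = b.1 := by
      by_contra hne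
      exact (disjoint_TB (G := D.G C) hne).notMem_of_mem_left hint hxb
    subst hbb
    have h4 := (R.mv3' HR HΨ).near b (R.g.toFun x) (rtK_sub R.L (u := 60) (by norm_num) h2)
    have h5 := norm_sub_le_norm_sub_add_norm_sub
      ((((Hα.trans H₁).trans Tf).trans Ψ).toFun (R.g.toFun x)) (R.g.toFun x) (h.toFun x)
    linarith
  · rw [hg]
    have := (R.mv3' HR HΨ).near b _ hxb
    linarith

/-- `dispT` -/
theorem dispT_field' : ∀ x ∈ Ω, ∀ b ∈ pB C J₀, h.toFun x ∈ (D.G C).TB false b →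
    ‖(R.g.trans (((Hα.trans H₁).trans Tf).trans Ψ)).toFun x - h.toFun x‖ ≤
      131072 * ω3T δ C b := by
  intro x hx b hb hxb
  have hω := D.ω3T_pos C b
  obtain ⟨i, hi⟩ := M.cover x hx
  by_cases hiA : i ∈ P ∪ Wc D C
  · have h1 := R.h1_near' HR HΨ (b := ⟨b, hb⟩) hxb (r := fun b => 8 * ω3T δ C b)
      (by have := D.ω3T_pos C b; positivity) (R.go.pt i hiA x hi)
    dsimp only at h1
    show ‖(((Hα.trans H₁).trans Tf).trans Ψ).toFun (R.g.toFun x) - h.toFun x‖ ≤ _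
    linarith
  · have hiP : i ∉ P := fun h => hiA (Or.inl h)
    obtain ⟨x', hx', h1⟩ := Vale.Agent.P073.H267.exists_near
      (r := fun b : pB C J₀ => 2069 * ω3T δ C b.1)
      (fun b => by have := D.ω3T_pos C b.1; positivity)
      (R.st2G'.rl.mono fun b => by have := D.ω3T_pos C b.1; linarith)
      (R.st2G'.mvκ.mono fun b => by
        have h1 := D.ω3T_pos C b.1
        have h2 := R.cω b.1
        show R.c b.1 ≤ _
        linarith)
      (R.mv3' HR HΨ) (R.st2G'.cell i) (M.sub i) hi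
    have h2 := D.rt_oscC C i hiP b hb x hi x' hx' hxb
    rw [dist_comm, dist_eq_norm] at h2
    show ‖(((Hα.trans H₁).trans Tf).trans Ψ).toFun (R.g.toFun x) - h.toFun x‖ ≤ _
    rcases h1 with h1 | ⟨b', hb', h1⟩
    · rw [h1]; linarith
    · have h3 := norm_sub_le_norm_sub_add_norm_sub
        ((((Hα.trans H₁).trans Tf).trans Ψ).toFun (R.g.toFun x)) (h.toFun x') (h.toFun x)
      have h4 := ω_ratio D C hb hiP hi hx' hxb (R.st2G'.subT b' hb')
      linarith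

/-- `imge` -/
theorem imge_field' : ∀ e, (∀ x ∈ E.seg e, ∀ b ∈ pB C J₀, h.toFun x ∉ (D.G C).TB false b) →
    (R.g.trans (((Hα.trans H₁).trans Tf).trans Ψ)).toFun '' E.seg e = h.toFun '' E.seg e :=
  fun _ hm => H190.ImgE.imge_of R.D2 (fun y _ hy => (R.mv3' HR HΨ).off y fun b hb =>
    hy b.1 b.2 hb) hm

/-- `rectc`, `rectf`, `recte`, `rectv` -/
theorem rect_fields' :
    (∀ i ∈ P, (R.g.trans (((Hα.trans H₁).trans Tf).trans Ψ)).toFun '' M.Q i =
      h.toFun '' M.Q i) ∧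
    (∀ i ∈ P, ∀ k, M.F k ⊆ M.Q i →
      (R.g.trans (((Hα.trans H₁).trans Tf).trans Ψ)).toFun '' M.F k = h.toFun '' M.F k) ∧
    (∀ i ∈ P, ∀ e, E.seg e ⊆ M.Q i →
      (R.g.trans (((Hα.trans H₁).trans Tf).trans Ψ)).toFun '' E.seg e = h.toFun '' E.seg e) ∧
    ∀ i ∈ P, ∀ x ∈ E.verts, x ∈ M.Q i →
      (R.g.trans (((Hα.trans H₁).trans Tf).trans Ψ)).toFun x = h.toFun x := by
  obtain ⟨r1, r2, r3, r4⟩ := R.rect_fields HR
  have hV : ∀ b : pB C J₀, ∀ t ∈ pV (D.G C) E h P b.1,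
      t ∈ WR (D.G C) (fun b : pB C J₀ => V0 D C E b.1) b :=
    fun _ => H196.wr_of_filter fun _ ht h1 h2 => mem_V0.2 ⟨ht, h1, h2⟩
  have hNb : ∀ X : Set V, (∃ b : pB C J₀, (h.toFun '' X ∩ (D.G C).TB false b.1).Nonempty) →
      (h.toFun '' X ∩ Nb w J₀ c₀).Nonempty := fun X ⟨b, hb⟩ =>
    hb.mono (inter_subset_inter_right _ (D.rt_TBN C b.1 b.2))
  have key : ∀ i ∈ P, ∀ X ⊆ M.Q i, GdS (D.G C) (fun b : pB C J₀ => V0 D C E b.1) (h.toFun '' X) →
      (R.g.trans ((Hα.trans H₁).trans Tf)).toFun '' X = h.toFun '' X →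
      (R.g.trans (((Hα.trans H₁).trans Tf).trans Ψ)).toFun '' X = h.toFun '' X := by
    intro i hi X hX HX h1
    have hXΩ : X ⊆ Ω := hX.trans (M.sub i)
    have e2 : (R.g.trans (((Hα.trans H₁).trans Tf).trans Ψ)).toFun '' X =
        Ψ.toFun '' ((R.g.trans ((Hα.trans H₁).trans Tf)).toFun '' X) := by
      rw [← image_comp]; rfl
    rw [e2, h1]
    ext y
    constructor
    · rintro ⟨z, hz, rfl⟩
      exact (HΨ.gds HX z).2 hz
    · intro hy
      have hyΛ : y ∈ Λ := by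
        obtain ⟨x, hx, rfl⟩ := hy; exact h.mapsTo (hXΩ hx)
      refine ⟨Ψ.invFun y, ?_, Ψ.right_inv hyΛ⟩
      rw [← HΨ.gds HX, Ψ.right_inv hyΛ]
      exact hy
  refine ⟨fun i hi => ?_, fun i hi k hk => ?_, fun i hi e he => ?_, fun i hi x hx hxi => ?_⟩
  · exact key i hi _ Subset.rfl
      (H196.gds_of_rect hi hV Subset.rfl fun _ => H196.rectAt_cell (lt_of_le_of_lt D.η_le_one (by norm_num)) D.inp hi) (r1 i hi)
  · exact key i hi _ hk
      (H196.gds_of_rect hi hV hk fun hb => H196.rectAt_face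
        (lt_of_le_of_lt D.η_le_one (by norm_num)) D.inp hi hk (hNb _ hb))
      (r2 i hi k hk)
  · exact key i hi _ he
      (H196.gds_of_rect hi hV he fun hb => H196.rectAt_seg
        (lt_of_le_of_lt D.η_le_one (by norm_num)) D.inp hi he (hNb _ hb))
      (r3 i hi e he)
  · have HX : GdS (D.G C) (fun b : pB C J₀ => V0 D C E b.1) (h.toFun '' {x}) :=
      H196.gds_of_rect hi hV (singleton_subset_iff.2 hxi) fun _ => ⟨h.toFun x, h.toFun x, by
        rw [image_singleton, Icc_self], fun j => ⟨⟨x, hx, hxi, rfl⟩, x, hx, hxi, rfl⟩⟩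
    rw [image_singleton] at HX
    have h1 : ((Hα.trans H₁).trans Tf).toFun (R.g.toFun x) = h.toFun x := r4 i hi x hx hxi
    have h2 : Ψ.toFun (h.toFun x) ∈ ({h.toFun x} : Set V) := (HΨ.gds HX _).2 rfl
    show Ψ.toFun (((Hα.trans H₁).trans Tf).toFun (R.g.toFun x)) = _
    rw [h1]
    exact h2

/-- `disp`, in the middle of the window -/
theorem disp_field' : ∀ i ∈ P, ∀ x ∈ M.Q i, ∀ b : pB C J₀,
    h.toFun x ∈ (D.G C).TB false b.1 →
    (D.G C).tlo true b.1 b.1.ax + 65536 * ω3T δ C b.1 ≤ h.toFun x b.1.ax →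
    h.toFun x b.1.ax ≤ (D.G C).thi true b.1 b.1.ax - 65536 * ω3T δ C b.1 →
    |(R.g.trans (((Hα.trans H₁).trans Tf).trans Ψ)).toFun x b.1.ax - h.toFun x b.1.ax| ≤
      εd b := by
  intro i hi x hx b hxb h1 h2
  have hω := D.ω3T_pos C b.1
  have h3 := R.disp_field HR i hi x hx b hxb
  have h4 := R.h1_near HR hxb (r := fun b => 8 * ω3T δ C b)
    (by have := D.ω3T_pos C b.1; positivity) (R.go.pt i (Or.inl hi) x hx)
  have h5 := R.dspω b.1
  have h6 := R.L.dsp_nonneg b.1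
  have h7 := norm_le_pi_norm (((Hα.trans H₁).trans Tf).toFun (R.g.toFun x) - h.toFun x) b.1.ax
  rw [Real.norm_eq_abs, Pi.sub_apply] at h7
  have h8 : |((Hα.trans H₁).trans Tf).toFun (R.g.toFun x) b.1.ax - h.toFun x b.1.ax| ≤
      9 * ω3T δ C b.1 := by linarith
  obtain ⟨h9, h10⟩ := abs_le.1 h8
  have hmem : ((Hα.trans H₁).trans Tf).toFun (R.g.toFun x) ∈ (D.G C).TB false b.1 := by
    refine R.S_mem HR ?_
    rcases R.go.pt i (Or.inl hi) x hx with ⟨b', hb', hint, -, h11, -⟩ | hg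
    · have hbb : b' = b.1 := by
        by_contra hne
        exact (disjoint_TB (G := D.G C) hne).notMem_of_mem_left hint hxb
      rw [← hbb]
      exact rtK_sub R.L (u := 60) (by norm_num) h11
    · rw [hg]; exact hxb
  have h12 := HΨ.mid b _ hmem (by linarith) (by linarith)
  show |Ψ.toFun (((Hα.trans H₁).trans Tf).toFun (R.g.toFun x)) b.1.ax - _| ≤ _
  rw [h12]
  exact h3

/-- `protu` -/
theorem protu_field' : ∀ i ∈ P, ∀ s ∈ pS C J₀, ∀ x ∈ M.Q i, h.toFun x ∈ PX (D.G C) s →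
    ∀ b ∈ pB C J₀, h.toFun x ∈ (D.G C).TB false b → ∀ l, l ≠ b.ax →
    (R.g.trans (((Hα.trans H₁).trans Tf).trans Ψ)).toFun x l = h.toFun x l := by
  intro i hi s hs x hx hxs b hb hxb l hl
  have hptv := R.go.ptv i hi s hs x hx hxs
  have hS : ∀ (b' : pB C J₀) (y : V), y ∈ (D.G C).TB false b'.1 → ∀ l, l ≠ b'.1.ax →
      (((Hα.trans H₁).trans Tf).trans Ψ).toFun y l = y l := fun b' y hy l hl => by
    show Ψ.toFun (((Hα.trans H₁).trans Tf).toFun y) l = y l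
    rw [HΨ.ne (R.S_mem HR hy) hl, R.S_ne HR hy hl]
  show (((Hα.trans H₁).trans Tf).trans Ψ).toFun (R.g.toFun x) l = _
  rcases R.go.pt i (Or.inl hi) x hx with ⟨b₁, hb₁, -, h1, h2, -⟩ | hg
  · have h3 : h.toFun x ∈ (D.G C).TB false b₁ := rtK_sub R.L (u := 60) (by norm_num) h1
    have h3' : R.g.toFun x ∈ (D.G C).TB false b₁ := rtK_sub R.L (u := 60) (by norm_num) h2
    by_cases hax : b₁.ax = b.ax
    · rw [hS ⟨b₁, hb₁⟩ _ h3' l (by rw [hax]; exact hl)]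
      exact hptv b hb hxb l hl
    · have h4 : R.g.toFun x = h.toFun x := by
        ext k
        by_cases hk : k = b.ax
        · exact hptv b₁ hb₁ h3 k (by rw [hk]; exact fun h => hax h.symm)
        · exact hptv b hb hxb k hk
      rw [h4]
      exact hS ⟨b, hb⟩ _ hxb l hl
  · rw [hg]
    exact hS ⟨b, hb⟩ _ hxb l hl

end S

end RTD

end

end Vale.Agent.P073.H238.K3
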