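import Vale.Agent.P073.H238.RT2B

/-!
# P073, H238: **[T-END]**: `protv`, and where the inside of the windows comes from
-/

open Set Metric Topology Filter
open scoped ENNReal

namespace Vale.Agent.P073.H238.K3

open _root_.P073 _root_.P073.Net _root_.P073.PA691 _root_.P073.H236 _root_.P073.H579
open _root_.P073.H267
open _root_.P073.H196 (FixD Vrt VFx bigBox GdS)
open _root_.P073.H142 (FStar)
open _root_.P073.H345 (PK IsQ)
open _root_.P073.PR720 (LF)
open Vale.Agent.P073.St (V)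
open Vale.Agent.P073.H471 Vale.Agent.P073.H267 Vale.Agent.P073.H267.Geo
open Vale.Agent.P073.H73 (Mesh)
open Vale.Agent.P073.H193 (Edges Cyc)
open Vale.Agent.P073.H304 (Nb In Zmax)
open Vale.Agent.P073.H669 (TLv pV)
open Vale.Agent.P073.H669.TLv (OutW offT)
open Vale.Agent.P073.H579 (TStageW)
open _root_.P073.H155 (Giv)
open Vale.Agent.P073.H926
open _root_.P073.Croft (varIn onS)

section

variable {c₀ n δ : ℝ} {j : ℕ} {Ω Λ : Set V} {v w : V} {ρ : V → ℝ} {M : Mesh Ω} {h : ConHomeo Ω Λ}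
  {J₀ J : Set (ℕ × (Fin 3 → ℤ))} {P Z : Set M.ι} {K : BoxCx Λ w}
  {D : KIn3 c₀ n j δ v w ρ M h J₀ J P Z} {C : Cells ρ w K} {E : Edges M}
  {T : ∀ k, FStar E k} {A₁ C₅ μ₁ : ℝ} {ε : E.ε → ℝ} {εd : pB C J₀ → ℝ}

namespace RTD

variable (R : RTD D C E T A₁ C₅ μ₁ ε εd)

/-- given cells: the lift stays in the box -/
theorem g_mem {i : M.ι} (hi : i ∈ P ∪ Wc D C) {x : V} (hx : x ∈ M.Q i) {b : pB C J₀}
    (hxb : h.toFun x ∈ (D.G C).TB false b.1) : R.g.toFun x ∈ (D.G C).TB false b.1 := by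
  rcases R.go.pt i hi x hx with ⟨b', hb', hint, -, h11, -⟩ | hg
  · have hbb : b' = b.1 := by
      by_contra hne
      exact (disjoint_TB (G := D.G C) hne).notMem_of_mem_left hint hxb
    rw [← hbb]
    exact rtK_sub R.L (u := 60) (by norm_num) h11
  · rw [hg]; exact hxb

/-- given cells: off the supports the lift is the map -/
theorem g_eq {i : M.ι} (hi : i ∈ P ∪ Wc D C) {x : V} (hx : x ∈ M.Q i) {b : pB C J₀}
    (hxb : h.toFun x ∈ (D.G C).TB false b.1) {l : Fin 3} (hl : l ≠ b.1.ax)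
    (hfar : R.g.toFun x l < (D.G C).tlo true b.1 l - 60 * ω3T δ C b.1 ∨
      (D.G C).thi true b.1 l + 60 * ω3T δ C b.1 < R.g.toFun x l) :
    R.g.toFun x = h.toFun x := by
  rcases R.go.pt i hi x hx with ⟨b', hb', hint, -, h11, -⟩ | hg
  · have hbb : b' = b.1 := by
      by_contra hne
      exact (disjoint_TB (G := D.G C) hne).notMem_of_mem_left hint hxb
    subst hbb
    have h1 := h11.2 l hl
    rcases hfar with h2 | h2 <;> linarith [h1.1, h1.2]
  · exact hg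

variable {e : TBx K → ℝ} {he : ∀ b, 0 < e b} {he2 : ∀ b, 2 * e b < R.dl b} {hμ1 : μ₁ ≤ 1}
  {Hα H₁ Tf : ConHomeo Λ Λ}

section S

variable (HR : RTS R.L R.hc0 R.hc he he2 (R.X hμ1 he he2) Hα H₁ Tf)
  {ηe : pB C J₀ → ℝ} {Ψ : ConHomeo Λ Λ} {φ : pB C J₀ → V → ℝ → ℝ}
  (HΨ : PsiS (D.G C) (ω3T δ C) (fun b : pB C J₀ => V0 D C E b.1) ηe Ψ.toFun φ)
include HR HΨ

/-- **given cells, the level coordinate after the map of the ends**, local form -/
theorem psi_local {i : M.ι} (hi : i ∈ P ∪ Wc D C) {x : V} (hx : x ∈ M.Q i) {b : pB C J₀}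
    (hxb : h.toFun x ∈ (D.G C).TB false b.1) :
    ∀ᶠ y in 𝓝[{x | x ∈ M.Q i ∧ h.toFun x ∈ (D.G C).TB false b.1}] x,
      |(R.g.trans (((Hα.trans H₁).trans Tf).trans Ψ)).toFun y b.1.ax -
        (R.g.trans (((Hα.trans H₁).trans Tf).trans Ψ)).toFun x b.1.ax| ≤
        16 / 15 * |((Hα.trans H₁).trans Tf).toFun (R.g.toFun y) b.1.ax -
          ((Hα.trans H₁).trans Tf).toFun (R.g.toFun x) b.1.ax| +
        1 / 512 * ‖h.toFun y - h.toFun x‖ := by
  have hω := D.ω3T_pos C b.1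
  set F : V → V := fun y => ((Hα.trans H₁).trans Tf).toFun (R.g.toFun y) with hF
  set X : Set V := {x | x ∈ M.Q i ∧ h.toFun x ∈ (D.G C).TB false b.1} with hX
  have hFm : ∀ y ∈ X, F y ∈ (D.G C).TB false b.1 := fun y hy =>
    R.S_mem HR (R.g_mem hi hy.1 hy.2)
  have hxX : x ∈ X := ⟨hx, hxb⟩
  have hcont : ∀ l, ContinuousWithinAt (fun y => F y l) X x := fun l =>
    (continuous_apply l).continuousAt.comp_continuousWithinAt
      (((R.g.trans ((Hα.trans H₁).trans Tf)).cont x (M.sub i hx)).mono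
        (fun y hy => M.sub i hy.1))
  have hFl : ∀ y ∈ X, ∀ l, l ≠ b.1.ax → F y l = R.g.toFun y l := fun y hy l hl =>
    R.S_ne HR (R.g_mem hi hy.1 hy.2) hl
  show ∀ᶠ y in 𝓝[X] x, |Ψ.toFun (F y) b.1.ax - Ψ.toFun (F x) b.1.ax| ≤ _
  by_cases hfar : ∃ l, l ≠ b.1.ax ∧ (F x l ≤ (D.G C).tlo true b.1 l - 200 * ω3T δ C b.1 ∨
      (D.G C).thi true b.1 l + 200 * ω3T δ C b.1 ≤ F x l)
  · obtain ⟨l, hl, hlf⟩ := hfar
    have key : ∀ y ∈ X, (F y l < (D.G C).tlo true b.1 l - 60 * ω3T δ C b.1 ∨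
        (D.G C).thi true b.1 l + 60 * ω3T δ C b.1 < F y l) → R.g.toFun y = h.toFun y := by
      intro y hy h1
      rw [hFl y hy l hl] at h1
      exact R.g_eq hi hy.1 hy.2 hl h1
    have hev : ∀ᶠ y in 𝓝[X] x, (F y l < (D.G C).tlo true b.1 l - 60 * ω3T δ C b.1 ∨
        (D.G C).thi true b.1 l + 60 * ω3T δ C b.1 < F y l) := by
      rcases hlf with h1 | h1
      · have h2 : F x l < (D.G C).tlo true b.1 l - 60 * ω3T δ C b.1 := by linarith
        filter_upwards [(hcont l).eventually (Iio_mem_nhds h2)] with y hy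
        exact Or.inl hy
      · have h2 : (D.G C).thi true b.1 l + 60 * ω3T δ C b.1 < F x l := by linarith
        filter_upwards [(hcont l).eventually (Ioi_mem_nhds h2)] with y hy
        exact Or.inr hy
    have hgx : R.g.toFun x = h.toFun x := key x hxX (by
      rcases hlf with h1 | h1
      · left; linarith
      · right; linarith)
    filter_upwards [hev, self_mem_nhdsWithin] with y h1 h2
    have hgy := key y h2 h1
    have h3 := HΨ.pair b _ (hFm y h2) _ (hFm x hxX) ‖h.toFun y - h.toFun x‖ (fun l' hl' => by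
      rw [hFl y h2 l' hl', hFl x hxX l' hl', hgx, hgy]
      have := norm_le_pi_norm (h.toFun y - h.toFun x) l'
      rwa [Real.norm_eq_abs, Pi.sub_apply] at this)
    refine h3.trans (le_of_eq ?_)
    ring
  · push Not at hfar
    have hev : ∀ᶠ y in 𝓝[X] x, ∀ l, l ≠ b.1.ax →
        (D.G C).tlo true b.1 l - 200 * ω3T δ C b.1 < F y l ∧
        F y l < (D.G C).thi true b.1 l + 200 * ω3T δ C b.1 := by
      rw [eventually_all]
      intro l
      by_cases hl : l = b.1.ax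
      · exact Eventually.of_forall fun y h => absurd hl h
      · obtain ⟨h1, h2⟩ := hfar l hl
        filter_upwards [(hcont l).eventually (Ioi_mem_nhds h1),
          (hcont l).eventually (Iio_mem_nhds h2)] with y h3 h4 _
        exact ⟨h3, h4⟩
    have hrt : ∀ y ∈ X, (∀ l, l ≠ b.1.ax →
        (D.G C).tlo true b.1 l - 200 * ω3T δ C b.1 < F y l ∧
        F y l < (D.G C).thi true b.1 l + 200 * ω3T δ C b.1) →
        F y ∈ rtK (D.G C) (ω3T δ C) b.1 200 := by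
      intro y hy h1
      have h2 := (Vale.Agent.P073.H669.mem_TB.1 (hFm y hy)) b.1.ax
      rw [H238.tlo_ax, H238.thi_ax] at h2
      exact ⟨h2, fun l hl => ⟨(h1 l hl).1.le, (h1 l hl).2.le⟩⟩
    filter_upwards [hev, self_mem_nhdsWithin] with y h1 h2
    have h3 := HΨ.full b _ (hrt y h2 h1) _ (hrt x hxX hfar)
    have h4 : 0 ≤ 1 / 512 * ‖h.toFun y - h.toFun x‖ := by positivity
    exact h3.trans (le_add_of_nonneg_right h4)

/-- `protv` -/
theorem protv_field' {C₀ : ℝ} (hA₁ : 0 ≤ A₁) (hC₀ : 2 * A₁ + 4 ≤ C₀)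
    (Hs : ∀ i ∈ P, ∀ b ∈ pB C J₀, ∀ x ∈ M.Q i, h.toFun x ∈ (D.G C).TB false b →
      ∀ᶠ y in 𝓝[M.Q i] x,
        |((Hα.trans H₁).trans Tf).toFun (R.g.toFun y) b.ax -
            ((Hα.trans H₁).trans Tf).toFun (R.g.toFun x) b.ax| ≤
          A₁ * ‖h.toFun y - h.toFun x‖ + R.lamb b * ‖y - x‖) :
    ∀ i ∈ P, ∀ b ∈ pB C J₀, ∀ x ∈ M.Q i, ∀ y ∈ M.Q i, h.toFun x ∈ (D.G C).TB false b →
    h.toFun y ∈ (D.G C).TB false b →
    |(R.g.trans (((Hα.trans H₁).trans Tf).trans Ψ)).toFun x b.ax -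
      (R.g.trans (((Hα.trans H₁).trans Tf).trans Ψ)).toFun y b.ax| ≤
      C₀ * ‖h.toFun x - h.toFun y‖ := by
  intro i hi b hb x hx y hy hxb hyb
  have hη := lt_of_le_of_lt D.η_le_one (show (1 / 4096 : ℝ) < 1 by norm_num)
  obtain ⟨q, hq, hsim⟩ := H196.prot_sim hη D.inp hi
  have hl := R.lamle b i ⟨_, ⟨x, hx, rfl⟩, hxb⟩ q fun x hx y hy => (hsim x hx y hy).le
  have key := H142.lip_of_local (H196.prot_convex hη D.inp hi
    (T := (D.G C).TB false b) (convex_Icc _ _))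
    (g := fun z => (R.g.trans (((Hα.trans H₁).trans Tf).trans Ψ)).toFun z b.ax) (K := C₀ * q)
    (fun z hz => by
      filter_upwards [R.psi_local HR HΨ (Or.inl hi) hz.1 (b := ⟨b, hb⟩) hz.2,
        nhdsWithin_mono z (fun z' hz' => hz'.1) (Hs i hi b hb z hz.1 hz.2),
        self_mem_nhdsWithin] with z' h1 h2 h3
      rw [Real.norm_eq_abs]
      refine h1.trans ?_
      have h4 := hsim z' h3.1 z hz.1
      have h5 := mul_le_mul_of_nonneg_right hl (norm_nonneg (z' - z))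
      rw [h4] at h2 ⊢
      have h6 : (2 * A₁ + 4) * (q * ‖z' - z‖) ≤ C₀ * (q * ‖z' - z‖) :=
        mul_le_mul_of_nonneg_right hC₀ (by positivity)
      have h7 : 0 ≤ q * ‖z' - z‖ := by positivity
      have h8 : 0 ≤ A₁ * (q * ‖z' - z‖) := by positivity
      nlinarith) x ⟨hx, hxb⟩ y ⟨hy, hyb⟩
  rw [Real.norm_eq_abs] at key
  refine key.trans (le_of_eq ?_)
  rw [hsim x hx y hy]; ring

end S

end RTD

end

end Vale.Agent.P073.H238.K3
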