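import Vale.Agent.P073.H238.RT2C

/-!
# P073, H238: **[T-END]**: where the inside of the windows comes from
-/

open Set Metric Topology Filter
open scoped ENNReal

namespace Vale.Agent.P073.H238.K3

open _root_.P073 _root_.P073.Net _root_.P073.PA691 _root_.P073.H236 _root_.P073.H579
open _root_.P073.H267
open _root_.P073.H196 (FixD Vrt VFx bigBox GdS)
open _root_.P073.H142 (FStar)
open _root_.P073.H345 (PK IsQ)
open _root_.P073.PR720 (LF)
open Vale.Agent.P073.St (V)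
open Vale.Agent.P073.H471 Vale.Agent.P073.H267 Vale.Agent.P073.H267.Geo
open Vale.Agent.P073.H73 (Mesh)
open Vale.Agent.P073.H193 (Edges Cyc)
open Vale.Agent.P073.H304 (Nb In Zmax)
open Vale.Agent.P073.H669 (TLv pV)
open Vale.Agent.P073.H669.TLv (OutW offT)
open Vale.Agent.P073.H579 (TStageW)
open _root_.P073.H155 (Giv)
open Vale.Agent.P073.H926
open _root_.P073.Croft (varIn onS)

section

variable {c₀ n δ : ℝ} {j : ℕ} {Ω Λ : Set V} {v w : V} {ρ : V → ℝ} {M : Mesh Ω} {h : ConHomeo Ω Λ}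
  {J₀ J : Set (ℕ × (Fin 3 → ℤ))} {P Z : Set M.ι} {K : BoxCx Λ w}
  {D : KIn3 c₀ n j δ v w ρ M h J₀ J P Z} {C : Cells ρ w K} {E : Edges M}
  {T : ∀ k, FStar E k} {A₁ C₅ μ₁ : ℝ} {ε : E.ε → ℝ} {εd : pB C J₀ → ℝ}

namespace RTD

variable (R : RTD D C E T A₁ C₅ μ₁ ε εd)

/-- **the lift, at a point inside of a box** -/
theorem g_near {x : V} (hx : x ∈ Ω) {b : pB C J₀}
    (hg : R.g.toFun x ∈ interior ((D.G C).TB false b.1)) :
    ‖R.g.toFun x - h.toFun x‖ ≤ 14 * ω3T δ C b.1 := by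
  have hω := D.ω3T_pos C b.1
  obtain ⟨i, hi⟩ := M.cover x hx
  by_cases hiA : i ∈ P ∪ Wc D C
  · rcases R.go.pt i hiA x hi with ⟨b', hb', -, -, h11, h12⟩ | hge
    · have hbb : b' = b.1 := by
        by_contra hne
        exact (disjoint_TB (G := D.G C) (Ne.symm hne)).notMem_of_mem_left hg
          (rtK_sub R.L (u := 60) (by norm_num) h11)
      rw [← hbb] at hω ⊢
      linarith
    · rw [hge, sub_self, norm_zero]; positivity
  · have hiP : i ∉ P := fun h => hiA (Or.inl h)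
    have h1 : R.g.toFun x ∈ Pre R.κ Λ R.h' (M.Q i) := by
      rw [← R.st2G'.cell i]; exact mem_image_of_mem _ hi
    obtain ⟨x', hx', he⟩ := h1.2
    have hgb := interior_subset hg
    have h2 := R.st2G'.mvκ.mem b _ hgb
    have h3 := R.st2G'.mvκ.near b _ hgb
    rw [← he] at h2 h3
    have h4 := R.st2G'.rl.mem b x' (M.sub i hx') h2
    have h5 := R.st2G'.rl.near b x' (M.sub i hx') h4
    have h6 := D.rt_oscC C i hiP b.1 b.2 x' hx' x hi h4
    rw [dist_eq_norm] at h6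
    have h7 : ‖R.h'.toFun x' - R.g.toFun x‖ ≤ ω3T δ C b.1 :=
      h3.trans (R.cω b.1)
    have h8 : R.g.toFun x - h.toFun x = -(R.h'.toFun x' - R.g.toFun x) +
        (R.h'.toFun x' - h.toFun x') + (h.toFun x' - h.toFun x) := by abel
    rw [h8]
    refine (norm_add₃_le).trans ?_
    rw [norm_neg]
    have h9 : ‖R.h'.toFun x' - h.toFun x'‖ ≤ 12 * ω3T δ C b.1 := h5
    linarith

variable {e : TBx K → ℝ} {he : ∀ b, 0 < e b} {he2 : ∀ b, 2 * e b < R.dl b} {hμ1 : μ₁ ≤ 1}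
  {Hα H₁ Tf : ConHomeo Λ Λ}

section S

variable (HR : RTS R.L R.hc0 R.hc he he2 (R.X hμ1 he he2) Hα H₁ Tf)
  {ηe : pB C J₀ → ℝ} {Ψ : ConHomeo Λ Λ} {φ : pB C J₀ → V → ℝ → ℝ}
  (HΨ : PsiS (D.G C) (ω3T δ C) (fun b : pB C J₀ => V0 D C E b.1) ηe Ψ.toFun φ)
include HR HΨ

/-- **the inside of the windows** -/
theorem endin_field {σ : pB C J₀ → ℝ} (hσ : ∀ b, ηe b < σ b) (hσ0 : ∀ b, 0 < σ b) :
    ∀ b : pB C J₀, ∀ x ∈ Ω,
    (R.g.trans (((Hα.trans H₁).trans Tf).trans Ψ)).toFun x ∈ (D.G C).TB true b.1 →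
    (D.G C).tlo true b.1 b.1.ax + σ b ≤
      (R.g.trans (((Hα.trans H₁).trans Tf).trans Ψ)).toFun x b.1.ax →
    (R.g.trans (((Hα.trans H₁).trans Tf).trans Ψ)).toFun x b.1.ax ≤
      (D.G C).thi true b.1 b.1.ax - σ b →
    h.toFun x ∈ (D.G C).TB false b.1 ∧
    (D.G C).tlo true b.1 b.1.ax + 512 * ω3T δ C b.1 ≤ h.toFun x b.1.ax ∧
    h.toFun x b.1.ax ≤ (D.G C).thi true b.1 b.1.ax - 512 * ω3T δ C b.1 ∧
    ∀ l, l ≠ b.1.ax → |(R.g.trans (((Hα.trans H₁).trans Tf).trans Ψ)).toFun x l -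
      h.toFun x l| ≤ 16 * ω3T δ C b.1 := by
  intro b x hx hT hlo hhi
  have hω := D.ω3T_pos C b.1
  have hoT' := D.ω3T_oT C b.1
  have hoT : 0 < H238.oT (D.G C) b.1 := by linarith
  set F : V → V := fun y => ((Hα.trans H₁).trans Tf).toFun (R.g.toFun y) with hF
  change Ψ.toFun (F x) ∈ _ at hT
  change _ ≤ Ψ.toFun (F x) b.1.ax at hlo
  change Ψ.toFun (F x) b.1.ax ≤ _ at hhi
  have hσb := hσ0 b
  have h1 : F x ∈ (D.G C).TB false b.1 := HΨ.mem_of (mem_interior_TB hoT hT (by linarith)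
    (by linarith))
  have h2 : ∀ l, l ≠ b.1.ax → Ψ.toFun (F x) l = F x l := fun l hl => HΨ.ne h1 hl
  have hwin := (Vale.Agent.P073.H669.mem_TB.1 h1) b.1.ax
  rw [H238.tlo_ax, H238.thi_ax] at hwin
  have hlat : ∀ l, l ≠ b.1.ax → (D.G C).tlo true b.1 l ≤ F x l ∧
      F x l ≤ (D.G C).thi true b.1 l := fun l hl => by
    rw [← h2 l hl]; exact ⟨hT.1 l, hT.2 l⟩
  have hrt : F x ∈ rtK (D.G C) (ω3T δ C) b.1 200 :=
    ⟨hwin, fun l hl => ⟨by linarith [(hlat l hl).1], by linarith [(hlat l hl).2]⟩⟩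
  have h3 : (D.G C).tlo true b.1 b.1.ax + 2048 * ω3T δ C b.1 < F x b.1.ax := by
    by_contra hcon
    push Not at hcon
    have := HΨ.elo b _ hrt hcon
    have := hσ b
    linarith
  have h4 : F x b.1.ax < (D.G C).thi true b.1 b.1.ax - 2048 * ω3T δ C b.1 := by
    by_contra hcon
    push Not at hcon
    have := HΨ.ehi b _ hrt hcon
    have := hσ b
    linarith
  have hFT : F x ∈ (D.G C).TB true b.1 := Vale.Agent.P073.H669.mem_TB.2 fun l => by
    by_cases hl : l = b.1.ax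
    · rw [hl]; exact hwin
    · exact hlat l hl
  have h5 : R.g.toFun x ∈ (D.G C).TB false b.1 := R.S_mem_of HR
    (mem_interior_TB hoT hFT (by linarith) (by linarith))
  have h6 := R.S_near' HR b h5
  have h7 := norm_le_pi_norm (F x - R.g.toFun x) b.1.ax
  rw [Real.norm_eq_abs, Pi.sub_apply] at h7
  obtain ⟨h8, h9⟩ := abs_le.1 (h7.trans h6)
  have h10 : ∀ l, l ≠ b.1.ax → F x l = R.g.toFun x l := fun l hl => R.S_ne HR h5 hl
  have hgT : R.g.toFun x ∈ (D.G C).TB true b.1 := Vale.Agent.P073.H669.mem_TB.2 fun l => by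
    by_cases hl : l = b.1.ax
    · rw [hl]; constructor <;> linarith
    · rw [← h10 l hl]; exact hlat l hl
  have h11 := R.g_near hx (b := b) (mem_interior_TB hoT hgT (by linarith) (by linarith))
  have h12 : ∀ l, |R.g.toFun x l - h.toFun x l| ≤ 14 * ω3T δ C b.1 := fun l => by
    have := norm_le_pi_norm (R.g.toFun x - h.toFun x) l
    rw [Real.norm_eq_abs, Pi.sub_apply] at this
    exact this.trans h11
  obtain ⟨h13, h14⟩ := abs_le.1 (h12 b.1.ax)
  refine ⟨Vale.Agent.P073.H669.mem_TB.2 fun l => ?_, by linarith, by linarith, fun l hl => ?_⟩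
  · by_cases hl : l = b.1.ax
    · rw [hl, H238.tlo_ax, H238.thi_ax]; constructor <;> linarith
    · obtain ⟨h15, h16⟩ := H238.marg (D.G C) b.1 hl
      obtain ⟨h17, h18⟩ := abs_le.1 (h12 l)
      have h19 := hlat l hl
      rw [h10 l hl] at h19
      constructor <;> linarith [h19.1, h19.2]
  · show |Ψ.toFun (F x) l - _| ≤ _
    rw [h2 l hl, h10 l hl]
    have := h12 l
    linarith

end S

end RTD

end

end Vale.Agent.P073.H238.K3
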