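import Vale.Agent.P073.GB3.Circ2
import Vale.Agent.P073.PR.Faces
import Vale.Agent.P073.H240.Core

/-!
# P073, H238 (A08, STEP S): planar discs in coordinate planes
-/

open Set Metric Topology Filter

namespace Vale.Agent.P073.H238

open _root_.P073

/-- points of space -/
abbrev V := Fin 3 → ℝ

/-- the coordinate plane `{y | y i = t}` -/
def Pl (i : Fin 3) (t : ℝ) : Set V := {y | y i = t}

theorem mem_Pl {i : Fin 3} {t : ℝ} {y : V} : y ∈ Pl i t ↔ y i = t := Iff.rfl

theorem isClosed_Pl (i : Fin 3) (t : ℝ) : IsClosed (Pl i t) :=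
  isClosed_eq (continuous_apply i) continuous_const

theorem convex_Pl (i : Fin 3) (t : ℝ) : Convex ℝ (Pl i t) := by
  intro x hx y hy a b _ _ hab
  show a * x i + b * y i = t
  rw [hx, hy, ← add_mul, hab, one_mul]

/-- a preconnected set missing `κ` and meeting `d`, where `d` is closed and `d \ κ` is open
relatively to a set containing `A`, is in `d`. -/
theorem subset_of_relOpen {A τ d κ : Set V} (hA : IsPreconnected A) (hAτ : A ⊆ τ)
    (hd : IsClosed d) (hcl : IsClosed (τ \ (d \ κ))) (hAκ : Disjoint A κ)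
    (hne : (A ∩ d).Nonempty) : A ⊆ d := by
  rcases IsPreconnected.subset_or hA hd hcl (by
    intro x hx
    by_cases h : x ∈ d
    · exact Or.inl h
    · exact Or.inr ⟨hAτ hx, fun h' => h h'.1⟩) (by
    intro x hx h1 h2
    exact h2.2 ⟨h1, Set.disjoint_left.1 hAκ hx⟩) with h | h
  · exact h
  · exfalso
    obtain ⟨x, hx, hxd⟩ := hne
    exact (h hx).2 ⟨hxd, Set.disjoint_left.1 hAκ hx⟩

/-- **planar discs**: a conical circle in a coordinate plane bounds a conical disc there. -/
theorem exists_planar_disc {i : Fin 3} {t : ℝ} {κ : Set V} (hc : ConSphere 1 κ)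
    (hκ : κ ⊆ Pl i t) : ∃ D, ConBall 2 D κ ∧ D ⊆ Pl i t ∧ IsClosed (Pl i t \ (D \ κ)) ∧
      ∀ A ⊆ Pl i t, IsPreconnected A → Disjoint A κ → ¬ Bornology.IsBounded A → Disjoint A D := by
  have hκc : IsCompact κ := hc.isCompact
  obtain ⟨R, hR⟩ := hκc.isBounded.subset_closedBall (0 : V)
  set R' : ℝ := |R| + 1 with hR'
  have hR0 : 0 < R' := by positivity
  have hb := conBall_brickFace (n := 2) two_ne_zero i t (lo := fun _ => -R') (hi := fun _ => R')
    (fun _ _ => by linarith)
  set τ : Set V := {x : Fin 3 → ℝ | x i = t ∧ ∀ k, k ≠ i → -R' ≤ x k ∧ x k ≤ R'} with hτ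
  set bd : Set V := {x | x ∈ τ ∧ ∃ k, k ≠ i ∧ (x k = -R' ∨ x k = R')} with hbd
  have hκτ : κ ⊆ τ \ bd := by
    intro x hx
    have h1 := hR hx
    rw [mem_closedBall, dist_zero_right] at h1
    have h2 : ∀ k, |x k| < R' := fun k => by
      have := (norm_le_pi_norm x k).trans h1
      rw [Real.norm_eq_abs] at this
      have := le_abs_self R
      linarith
    refine ⟨⟨hκ hx, fun k _ => ⟨(abs_lt.1 (h2 k)).1.le, (abs_lt.1 (h2 k)).2.le⟩⟩, ?_⟩
    rintro ⟨-, k, -, h | h⟩
    · have := (abs_lt.1 (h2 k)).1; linarith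
    · have := (abs_lt.1 (h2 k)).2; linarith
  obtain ⟨D, hD, hDτ, hDcl⟩ := exists_disc_of_circle H240.specJS hb hκτ hc
  have hDP : D ⊆ Pl i t := fun x hx => (hDτ hx).1.1
  have hcl : IsClosed (Pl i t \ (D \ κ)) := by
    -- the plane minus the open disc is the union of two closed sets
    have h1 : Pl i t \ (D \ κ) = (τ \ (D \ κ)) ∪
        (Pl i t ∩ {x | ∃ k, k ≠ i ∧ (x k ≤ -R' ∨ R' ≤ x k)}) := by
      ext x
      constructor
      · rintro ⟨hx, hn⟩
        by_cases hxτ : x ∈ τ
        · exact Or.inl ⟨hxτ, hn⟩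
        · right
          refine ⟨hx, ?_⟩
          by_contra hcon
          apply hxτ
          refine ⟨hx, fun k hk => ?_⟩
          constructor
          · by_contra h; exact hcon ⟨k, hk, Or.inl (not_le.1 h).le⟩
          · by_contra h; exact hcon ⟨k, hk, Or.inr (not_le.1 h).le⟩
      · rintro (⟨hx, hn⟩ | ⟨hx, k, hk, h⟩)
        · exact ⟨hx.1, hn⟩
        · refine ⟨hx, fun hD' => ?_⟩
          have h2 := hDτ hD'.1
          apply h2.2
          refine ⟨h2.1, k, hk, ?_⟩
          rcases h with h | h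
          · exact Or.inl (le_antisymm h (h2.1.2 k hk).1)
          · exact Or.inr (le_antisymm (h2.1.2 k hk).2 h)
    rw [h1]
    refine hDcl.union ((isClosed_Pl i t).inter ?_)
    have h2 : {x : V | ∃ k, k ≠ i ∧ (x k ≤ -R' ∨ R' ≤ x k)} =
        ⋃ k : Fin 3, {x : V | k ≠ i ∧ (x k ≤ -R' ∨ R' ≤ x k)} := by
      ext x; simp
    rw [h2]
    refine isClosed_iUnion_of_finite fun k => ?_
    by_cases hk : k = i
    · simp [hk]
    · have : {x : V | k ≠ i ∧ (x k ≤ -R' ∨ R' ≤ x k)} = {x : V | x k ≤ -R'} ∪ {x | R' ≤ x k} := by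
        ext x; simp [hk]
      rw [this]
      exact (isClosed_le (continuous_apply k) continuous_const).union
        (isClosed_le continuous_const (continuous_apply k))
  refine ⟨D, hD, hDP, hcl, ?_⟩
  intro A hAP hA hAκ hAb
  rw [Set.disjoint_iff_inter_eq_empty, ← Set.not_nonempty_iff_eq_empty]
  intro hne
  exact hAb (hD.isCompact.isBounded.subset
    (subset_of_relOpen hA hAP hD.isClosed hcl hAκ hne))

end Vale.Agent.P073.H238
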