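import Vale.Agent.P073.PA260.Collar
import Vale.Agent.P073.H196.Approx
import Vale.Agent.P073.H238.Rem1

/-!
# P073, H238 (A08, STEP S): conical bump functions, vertical shifts, push of a disc onto a plane
-/

open Set Metric Topology Filter

namespace Vale.Agent.P073.H238

open _root_.P073

/-- a conical Lipschitz cut-off function -/
theorem exists_conCut {D N : Set V} (hD : IsCompact D) (hN : IsOpen N) (hDN : D ⊆ N) :
    ∃ (χ : V → ℝ) (K : ℝ), 0 ≤ K ∧ Continuous χ ∧ ConicalOn χ univ ∧ (∀ x, 0 ≤ χ x) ∧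
      (∀ x, χ x ≤ 1) ∧ (∀ x ∈ D, χ x = 1) ∧
      (∃ C, IsCompact C ∧ C ⊆ N ∧ ∀ x ∉ C, χ x = 0) ∧ ∀ x y, |χ x - χ y| ≤ K * ‖x - y‖ := by
  obtain ⟨δ, hδ, hth⟩ := hD.exists_cthickening_subset_open hN hDN
  set ε : ℝ := δ / 2 with hε
  have hε0 : 0 < ε := by positivity
  have key : ∀ s : Finset V, ∃ χ : V → ℝ, Continuous χ ∧ ConicalOn χ univ ∧ (∀ x, 0 ≤ χ x) ∧
      (∀ x, χ x ≤ 1) ∧ (∀ c ∈ s, ∀ x, dist x c ≤ ε → χ x = 1) ∧
      (∀ x, (∀ c ∈ s, 2 * ε ≤ dist x c) → χ x = 0) ∧ ∀ x y, |χ x - χ y| ≤ ε⁻¹ * ‖x - y‖ := by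
    intro s
    induction s using Finset.induction_on with
    | empty =>
      refine ⟨fun _ => 0, continuous_const, conicalOn_const 0 isOpen_univ.conicalSet,
        fun _ => le_refl _, fun _ => zero_le_one, fun c hc => absurd hc (Finset.notMem_empty c),
        fun _ _ => rfl, fun x y => ?_⟩
      simp only [sub_self, abs_zero]
      positivity
    | insert c s hcs ih =>
      obtain ⟨χ, h1, h2, h3, h4, h5, h6, h7⟩ := ih
      set f : V → ℝ := fun x => min 1 (max 0 (2 - ε⁻¹ * ‖x - c‖)) with hf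
      have hnc : ConicalOn (fun x : V => ‖x - c‖) univ := by
        have := (conicalOn_norm_pi 3 (X := univ) isOpen_univ.conicalSet).comp
          (h := fun x : V => x - c) (X := univ) ?_ (mapsTo_univ _ _) (by fun_prop)
        · exact this
        · have h8 := (conicalOn_id (E := V) isOpen_univ.conicalSet).add
            (conicalOn_const (E := V) (-c) isOpen_univ.conicalSet)
          refine h8.congr fun x _ => ?_
          show x - c = x + -c
          abel
      have hf1 : ConicalOn (fun x : V => 2 - ε⁻¹ * ‖x - c‖) univ := by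
        have h8 := (conicalOn_const (E := V) (2:ℝ) isOpen_univ.conicalSet).add
          (hnc.const_smul (-ε⁻¹))
        refine h8.congr fun x _ => ?_
        show 2 - ε⁻¹ * ‖x - c‖ = 2 + (-ε⁻¹) * ‖x - c‖
        ring
      have hfc : ConicalOn f univ :=
        (conicalOn_const (E := V) (1:ℝ) isOpen_univ.conicalSet).rmin
          ((conicalOn_const (E := V) (0:ℝ) isOpen_univ.conicalSet).rmax hf1
            (by fun_prop) (by fun_prop)) (by fun_prop) (by fun_prop)
      have hfcont : Continuous f := by fun_prop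
      have hf0 : ∀ x, 0 ≤ f x := fun x => le_min zero_le_one (le_max_left _ _)
      have hf1' : ∀ x, f x ≤ 1 := fun x => min_le_left _ _
      refine ⟨fun x => max (χ x) (f x), h1.max hfcont, h2.rmax hfc h1.continuousOn
        hfcont.continuousOn, fun x => (h3 x).trans (le_max_left _ _),
        fun x => max_le (h4 x) (hf1' x), ?_, ?_, ?_⟩
      · intro c' hc' x hx
        rw [Finset.mem_insert] at hc'
        rcases hc' with rfl | hc'
        · have : f x = 1 := by
            have h9 : ε⁻¹ * ‖x - c'‖ ≤ 1 := by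
              rw [dist_eq_norm] at hx
              rw [inv_mul_le_iff₀ hε0]; linarith
            simp only [hf]
            rw [max_eq_right (by linarith), min_eq_left (by linarith)]
          exact le_antisymm (max_le (h4 x) (hf1' x)) (this ▸ le_max_right _ _)
        · exact le_antisymm (max_le (h4 x) (hf1' x)) (h5 c' hc' x hx ▸ le_max_left _ _)
      · intro x hx
        have e1 : χ x = 0 := h6 x fun c' hc' => hx c' (Finset.mem_insert_of_mem hc')
        have e2 : f x = 0 := by
          have h9 := hx c (Finset.mem_insert_self _ _)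
          rw [dist_eq_norm] at h9
          have h10 : 2 ≤ ε⁻¹ * ‖x - c‖ := by
            rw [le_inv_mul_iff₀ hε0]; linarith
          simp only [hf]
          rw [max_eq_left (by linarith), min_eq_right zero_le_one]
        show max (χ x) (f x) = 0
        rw [e1, e2, max_self]
      · intro x y
        have h8 : |f x - f y| ≤ ε⁻¹ * ‖x - y‖ := by
          have a1 : |f x - f y| ≤ |(max 0 (2 - ε⁻¹ * ‖x - c‖)) - max 0 (2 - ε⁻¹ * ‖y - c‖)| := by
            refine (abs_min_sub_min_le_max _ _ _ _).trans ?_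
            simp
          have a2 : |(max 0 (2 - ε⁻¹ * ‖x - c‖)) - max 0 (2 - ε⁻¹ * ‖y - c‖)| ≤
              |(2 - ε⁻¹ * ‖x - c‖) - (2 - ε⁻¹ * ‖y - c‖)| := by
            refine (abs_max_sub_max_le_max _ _ _ _).trans ?_
            simp
          refine a1.trans (a2.trans ?_)
          have a3 : (2 - ε⁻¹ * ‖x - c‖) - (2 - ε⁻¹ * ‖y - c‖) = ε⁻¹ * (‖y - c‖ - ‖x - c‖) := by ring
          rw [a3, abs_mul, abs_of_pos (inv_pos.2 hε0)]
          refine mul_le_mul_of_nonneg_left ?_ (inv_pos.2 hε0).le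
          refine (abs_norm_sub_norm_le _ _).trans ?_
          rw [sub_sub_sub_cancel_right, norm_sub_rev]
        exact (abs_max_sub_max_le_max _ _ _ _).trans (max_le (h7 x y) h8)
  obtain ⟨s, hsD, hs⟩ := hD.elim_finite_subcover_image (b := D) (c := fun c => ball c ε)
    (fun _ _ => isOpen_ball) (fun x hx => mem_biUnion hx (mem_ball_self hε0))
  obtain ⟨hsf, hcov⟩ := hs
  obtain ⟨χ, h1, h2, h3, h4, h5, h6, h7⟩ := key hsf.toFinset
  refine ⟨χ, ε⁻¹, (inv_pos.2 hε0).le, h1, h2, h3, h4, ?_, ⟨cthickening δ D,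
    hD.cthickening, hth, ?_⟩, h7⟩
  · intro x hx
    obtain ⟨c, hc, hxc⟩ := mem_iUnion₂.1 (hcov hx)
    exact h5 c (hsf.mem_toFinset.2 hc) x (mem_ball.1 hxc).le
  · intro x hx
    refine h6 x fun c hc => ?_
    by_contra hcon
    apply hx
    have hcD : c ∈ D := hsD (hsf.mem_toFinset.1 hc)
    refine mem_cthickening_of_dist_le x c δ D hcD ?_
    have : 2 * ε = δ := by rw [hε]; ring
    linarith [not_le.1 hcon]

/-- vertical shift by a conical Lipschitz function -/
theorem exists_shift {χ : V → ℝ} {K : ℝ} (i : Fin 3) (hc : Continuous χ) (hcon : ConicalOn χ univ)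
    (hL : ∀ x y, |χ x - χ y| ≤ K * ‖x - y‖) {a : ℝ} (ha : |a| * K < 1) :
    ∃ σ : ConHomeo (univ : Set V) (univ : Set V), ∀ y, σ.toFun y = y + Pi.single i (a * χ y) := by
  set g : V → V := fun y => y + Pi.single i (a * χ y) with hg
  have hsc : ∀ r : ℝ, (Pi.single i r : V) = r • Pi.single i (1:ℝ) := by
    intro r
    funext k
    by_cases hk : k = i
    · subst hk; simp
    · simp [hk]
  have hn : ∀ r : ℝ, ‖(Pi.single i r : V)‖ = |r| := by
    intro r
    rw [Pi.norm_single, Real.norm_eq_abs]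
  have hgc : Continuous g := by
    have : g = fun y => y + (a * χ y) • (Pi.single i (1:ℝ) : V) := by
      funext y; rw [hg]; simp only; rw [hsc]
    rw [this]; fun_prop
  have hgcon : ConicalOn g univ := by
    have h1 : ConicalOn (fun y => (a * χ y) • (Pi.single i (1:ℝ) : V)) univ := by
      intro x hx
      obtain ⟨r, hr, H⟩ := hcon x hx
      refine ⟨r, hr, fun v hv hxv t ht => ⟨mem_univ _, ?_⟩⟩
      have h2 := (H v hv hxv t ht).2
      simp only at h2 ⊢
      rw [h2]
      simp only [smul_eq_mul]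
      module
    have h2 := (conicalOn_id (E := V) isOpen_univ.conicalSet).add h1
    refine h2.congr fun y _ => ?_
    show y + Pi.single i (a * χ y) = y + (a * χ y) • Pi.single i (1:ℝ)
    rw [hsc]
  have hdiff : ∀ x y, ‖(g x - x) - (g y - y)‖ ≤ (|a| * K) * ‖x - y‖ := by
    intro x y
    have e1 : (g x - x) - (g y - y) = Pi.single i (a * χ x - a * χ y) := by
      simp only [hg, add_sub_cancel_left]
      funext k
      by_cases hk : k = i
      · subst hk; simp
      · simp [hk]
    rw [e1, hn, ← mul_sub, abs_mul, mul_assoc]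
    exact mul_le_mul_of_nonneg_left (hL x y) (abs_nonneg a)
  have hexp : ∀ x y, (1 - |a| * K) * ‖x - y‖ ≤ ‖g x - g y‖ := by
    intro x y
    have h1 : x - y = (g x - g y) - ((g x - x) - (g y - y)) := by abel
    have h2 : ‖x - y‖ ≤ ‖g x - g y‖ + ‖(g x - x) - (g y - y)‖ := by
      calc ‖x - y‖ = ‖(g x - g y) - ((g x - x) - (g y - y))‖ := by rw [← h1]
        _ ≤ _ := norm_sub_le _ _
    nlinarith [hdiff x y]
  have hsurj : Function.Surjective g :=
    H196.surjective_of_near (T := fun y => y) (c := 1) (k := |a| * K) one_pos ha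
      (fun x y => by rw [one_mul]) (fun y => ⟨y, rfl⟩) hdiff
  exact ⟨H196.conHomeoOf hgcon hgc (by linarith : 0 < 1 - |a| * K) hexp hsurj, fun y => rfl⟩

end Vale.Agent.P073.H238
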