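import Vale.Agent.P073.H238.Rem2
import Vale.Agent.P073.ALX.Alexander
import Vale.Agent.P073.GB3.Circ3
import Vale.Agent.P073.H894.SpecPush

/-!
# P073, H238 (A08, STEP S): (REM) the ball between a disc and a coordinate plane, and the push

`E` is a conical disc whose boundary circle `κ` is its intersection with the plane `{y i = t}`.
The planar disc `D` bounded by `κ` and `E` bound a ball `b` on one side of the plane; every
unbounded connected set missing `D ∪ E` misses `b`. The disc `E` can be pushed onto `D`.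
-/

open Set Metric Topology Filter

namespace Vale.Agent.P073.H238

open _root_.P073

/-- the data of (REM) -/
structure Rem (i : Fin 3) (t s : ℝ) (E κ D b : Set V) : Prop where
  hE : ConBall 2 E κ
  hD : ConBall 2 D κ
  DP : D ⊆ Pl i t
  DE : D ∩ E = κ
  cl : IsClosed (Pl i t \ (D \ κ))
  planar : ∀ A ⊆ Pl i t, IsPreconnected A → Disjoint A κ → ¬ Bornology.IsBounded A → Disjoint A D
  cpt : IsCompact b
  sub : D ∪ E ⊆ b
  inter : b ∩ Pl i t = D
  hull : ∀ Q : Set V, Convex ℝ Q → IsClosed Q → E ⊆ Q → b ⊆ Q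
  side : ∀ y ∈ b, y ∉ D → 0 < s * (y i - t)
  miss : ∀ A : Set V, IsPreconnected A → ¬ Bornology.IsBounded A → Disjoint A E → Disjoint A D →
    Disjoint A b
  amb : ∃ Φ : ConHomeo (univ : Set V) (univ : Set V), Φ.toFun '' b = closedBall 0 1 ∧
    Φ.toFun '' (D ∪ E) = sphere 0 1

theorem ray_unbounded {y v : V} (hv : v ≠ 0) :
    ¬ Bornology.IsBounded ((fun r : ℝ => y + r • v) '' Ici 0) := by
  intro hb
  obtain ⟨R, hR⟩ := hb.subset_closedBall y
  have h1 := hR ⟨(|R| + 1) / ‖v‖, mem_Ici.2 (by positivity), rfl⟩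
  rw [mem_closedBall, dist_eq_norm, add_sub_cancel_left, norm_smul, Real.norm_eq_abs,
    abs_of_nonneg (by positivity), div_mul_cancel₀ _ (norm_ne_zero_iff.2 hv)] at h1
  have := le_abs_self R
  linarith

theorem unbounded_halfspace (f : V →L[ℝ] ℝ) {y : V} {u : ℝ} (hy : u < f y) (h0 : f ≠ 0) :
    ¬ Bornology.IsBounded {z : V | u < f z} := by
  obtain ⟨w, hw⟩ : ∃ w, f w ≠ 0 := by
    by_contra hcon
    push Not at hcon
    exact h0 (ContinuousLinearMap.ext hcon)
  -- a direction with positive value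
  set v : V := (f w) • w with hv
  have hfv : 0 < f v := by
    rw [hv, map_smul, smul_eq_mul]
    exact mul_self_pos.2 hw
  have hv0 : v ≠ 0 := by
    intro h; rw [h, map_zero] at hfv; exact lt_irrefl _ hfv
  intro hb
  refine ray_unbounded (y := y) hv0 (hb.subset ?_)
  rintro _ ⟨r, hr, rfl⟩
  show u < f (y + r • v)
  rw [map_add, map_smul, smul_eq_mul]
  have : 0 ≤ r * f v := mul_nonneg hr hfv.le
  linarith

/-- a bounded region bounded by a compact set is in its convex hull -/
theorem subset_hull {b Sg Q : Set V} (hSgQ : Sg ⊆ Q) (hQ : Convex ℝ Q) (hQc : IsClosed Q)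
    (hne : Sg.Nonempty)
    (miss : ∀ A : Set V, IsPreconnected A → ¬ Bornology.IsBounded A → Disjoint A Sg →
      Disjoint A b) : b ⊆ Q := by
  intro y hy
  by_contra hyQ
  obtain ⟨f, u, h1, h2⟩ := geometric_hahn_banach_closed_point hQ hQc hyQ
  have hf0 : f ≠ 0 := by
    rintro rfl
    obtain ⟨z, hz⟩ := hne
    have := h1 z (hSgQ hz)
    have h3 : (0 : V →L[ℝ] ℝ) y = 0 := rfl
    have h4 : (0 : V →L[ℝ] ℝ) z = 0 := rfl
    rw [h3] at h2; rw [h4] at this
    linarith
  have hconv : Convex ℝ {z : V | u < f z} := convex_halfSpace_gt (f.toLinearMap.isLinear) u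
  have := miss _ hconv.isPreconnected (unbounded_halfspace f h2 hf0) (by
    rw [Set.disjoint_left]
    intro z hz hz'
    exact lt_asymm (h1 z (hSgQ hz')) hz)
  exact Set.disjoint_left.1 this h2 hy

theorem exists_rem {i : Fin 3} {t : ℝ} {E κ : Set V} (hE : ConBall 2 E κ)
    (hκ : E ∩ Pl i t = κ) : ∃ (s : ℝ) (D b : Set V), (s = 1 ∨ s = -1) ∧ Rem i t s E κ D b := by
  have hκE : κ ⊆ E := hE.1
  have hκP : κ ⊆ Pl i t := fun x hx => (hκ ▸ hx : x ∈ E ∩ Pl i t).2
  obtain ⟨D, hD, hDP, hcl, hpl⟩ := exists_planar_disc hE.conSphere hκP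
  have hκD : κ ⊆ D := hD.1
  have hDE : D ∩ E = κ := by
    apply Subset.antisymm
    · rintro x ⟨h1, h2⟩; rw [← hκ]; exact ⟨h2, hDP h1⟩
    · exact subset_inter hκD hκE
  have hS : ConSphere 2 (D ∪ E) := conSphere_of_discs hD hE hDE
  obtain ⟨Φ, hΦ⟩ := ALX.specAlex (D ∪ E) hS
  set b : Set V := Φ.toFun ⁻¹' closedBall 0 1 with hb
  have hbc : IsCompact b := GB3.isCompact_preimage_closedBall Φ
  have hSgb : D ∪ E ⊆ b := by
    intro x hx
    have : Φ.toFun x ∈ sphere (0 : V) 1 := by rw [← hΦ]; exact mem_image_of_mem _ hx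
    exact sphere_subset_closedBall this
  have hΦb : Φ.toFun '' b = closedBall 0 1 := by
    rw [hb]; exact image_preimage_eq _ Φ.toHomeomorph.surjective
  have miss' : ∀ A : Set V, IsPreconnected A → ¬ Bornology.IsBounded A → Disjoint A (D ∪ E) →
      Disjoint A b := by
    intro A hA hAb hASg
    rw [Set.disjoint_left]
    intro x hx hxb
    exact GB3.outside_of_unbounded Φ hΦ hA hASg hAb x hx hxb
  have miss : ∀ A : Set V, IsPreconnected A → ¬ Bornology.IsBounded A → Disjoint A E →
      Disjoint A D → Disjoint A b := fun A h1 h2 h3 h4 =>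
    miss' A h1 h2 (Set.disjoint_union_right.2 ⟨h4, h3⟩)
  -- hull
  have hκne : κ.Nonempty := hE.conSphere.nonempty
  have hEne : E.Nonempty := hκne.mono hκE
  have hDQ : ∀ Q : Set V, Convex ℝ Q → IsClosed Q → E ⊆ Q → D ⊆ Q := by
    -- rays in the plane
    intro Q hQ hQc hEQ y hy
    by_contra hyQ
    obtain ⟨f, u, h1, h2⟩ := geometric_hahn_banach_closed_point hQ hQc hyQ
    -- a direction in the plane on which `f` is positive
    obtain ⟨z, hz⟩ := hκne
    set v : V := y - z with hv
    have hvi : v i = 0 := by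
      have e1 : y i = t := hDP hy
      have e2 : z i = t := hκP hz
      show y i - z i = 0
      rw [e1, e2, sub_self]
    have hfv : 0 < f v := by
      have := h1 z (hEQ (hκE hz))
      rw [hv, map_sub]; linarith
    have hv0 : v ≠ 0 := by
      intro h; rw [h, map_zero] at hfv; exact lt_irrefl _ hfv
    have hA : Disjoint ((fun r : ℝ => y + r • v) '' Ici 0) D := by
      refine hpl _ ?_ ?_ ?_ (ray_unbounded hv0)
      · rintro _ ⟨r, hr, rfl⟩
        show (y + r • v) i = t
        rw [Pi.add_apply, Pi.smul_apply, hvi, smul_zero, add_zero]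
        exact hDP hy
      · exact (isPreconnected_Ici).image _ (by fun_prop)
      · rw [Set.disjoint_left]
        rintro _ ⟨r, hr, rfl⟩ hx
        have h3 := h1 _ (hEQ (hκE hx))
        rw [map_add, map_smul, smul_eq_mul] at h3
        have : 0 ≤ r * f v := mul_nonneg hr hfv.le
        linarith
    exact Set.disjoint_left.1 hA ⟨0, mem_Ici.2 le_rfl, by simp⟩ hy
  have hhull : ∀ Q : Set V, Convex ℝ Q → IsClosed Q → E ⊆ Q → b ⊆ Q := fun Q hQ hQc hEQ =>
    subset_hull (Sg := D ∪ E) (union_subset (hDQ Q hQ hQc hEQ) hEQ) hQ hQc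
      (hEne.mono subset_union_right) miss'
  -- the side
  have hEκ : ∀ y ∈ E \ κ, y i ≠ t := by
    rintro y ⟨hy, hn⟩ h
    exact hn (hκ ▸ ⟨hy, h⟩)
  obtain ⟨s, hs, hsE⟩ : ∃ s : ℝ, (s = 1 ∨ s = -1) ∧ ∀ y ∈ E \ κ, 0 < s * (y i - t) := by
    have hpre : IsPreconnected (E \ κ) := hE.isPreconnected_diff
    rcases hpre.subset_or_subset (u := {y : V | t < y i}) (v := {y : V | y i < t})
      (isOpen_lt continuous_const (continuous_apply i))
      (isOpen_lt (continuous_apply i) continuous_const)
      (by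
        rw [Set.disjoint_left]; intro y h1 h2; exact lt_asymm (show t < y i from h1) h2) (by
        intro y hy
        rcases lt_or_gt_of_ne (hEκ y hy) with h | h
        · exact Or.inr h
        · exact Or.inl h) with h | h
    · exact ⟨1, Or.inl rfl, fun y hy => by have := h hy; rw [one_mul]; exact sub_pos.2 this⟩
    · exact ⟨-1, Or.inr rfl, fun y hy => by have := h hy; rw [mem_ofPred_eq] at this; linarith⟩
  have hs0 : s ≠ 0 := by rcases hs with h | h <;> rw [h] <;> norm_num
  have hSgs : ∀ y ∈ D ∪ E, 0 ≤ s * (y i - t) := by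
    rintro y (hy | hy)
    · have : y i = t := hDP hy
      rw [this, sub_self, mul_zero]
    · by_cases hyκ : y ∈ κ
      · have : y i = t := hκP hyκ
        rw [this, sub_self, mul_zero]
      · exact (hsE y ⟨hy, hyκ⟩).le
  -- half spaces
  have hlin : Convex ℝ {y : V | s * (y i - t) < 0} := by
    intro x hx y hy a c ha hc hac
    show s * ((a * x i + c * y i) - t) < 0
    have e : s * ((a * x i + c * y i) - t) = a * (s * (x i - t)) + c * (s * (y i - t)) := by
      have : t = (a + c) * t := by rw [hac, one_mul]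
      linear_combination (s * t) * hac
    rw [e]
    have hx' : s * (x i - t) < 0 := hx
    have hy' : s * (y i - t) < 0 := hy
    rcases ha.eq_or_lt with h | h
    · rw [← h, zero_mul, zero_add]
      have : c = 1 := by linarith
      rw [this, one_mul]; exact hy'
    · nlinarith
  have hunb : ¬ Bornology.IsBounded {y : V | s * (y i - t) < 0} := by
    intro hB
    refine ray_unbounded (y := fun _ => t - s) (v := Pi.single i (-s)) ?_ (hB.subset ?_)
    · intro h
      have := congrFun h i
      simp only [Pi.single_eq_same, Pi.zero_apply, neg_eq_zero] at this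
      exact hs0 this
    · rintro _ ⟨r, hr, rfl⟩
      show s * (((fun _ => t - s : V) + r • (Pi.single i (-s) : V)) i - t) < 0
      simp only [Pi.add_apply, Pi.smul_apply, Pi.single_eq_same, smul_eq_mul]
      have hss : s * s = 1 := by rcases hs with h | h <;> rw [h] <;> norm_num
      have : (0:ℝ) ≤ r := hr
      have e : s * (t - s + r * -s - t) = -(1 + r) * (s * s) := by ring
      rw [e, hss]; linarith
  have hbs : ∀ y ∈ b, 0 ≤ s * (y i - t) := by
    have := miss' _ hlin.isPreconnected hunb (by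
      rw [Set.disjoint_left]; intro y hy hy'; exact absurd hy (not_lt.2 (hSgs y hy')))
    intro y hy
    by_contra hcon
    exact Set.disjoint_left.1 this (not_le.1 hcon) hy
  have hopen : IsOpen (b \ (D ∪ E)) := by
    have : b \ (D ∪ E) = Φ.toFun ⁻¹' ball 0 1 := by
      ext x
      constructor
      · rintro ⟨h1, h2⟩
        have h3 : ‖Φ.toFun x‖ ≤ 1 := by simpa [hb] using h1
        have h4 : ‖Φ.toFun x‖ ≠ 1 := by
          intro h5
          apply h2
          have : Φ.toFun x ∈ Φ.toFun '' (D ∪ E) := by rw [hΦ]; simpa using h5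
          exact Φ.apply_mem_image_iff.1 this
        simpa using lt_of_le_of_ne h3 h4
      · intro h1
        refine ⟨ball_subset_closedBall h1, fun h2 => ?_⟩
        have h3 : Φ.toFun x ∈ sphere (0 : V) 1 := by rw [← hΦ]; exact mem_image_of_mem _ h2
        rw [mem_preimage, mem_ball, dist_zero_right] at h1
        rw [mem_sphere_iff_norm, sub_zero] at h3
        exact h1.ne h3
    rw [this]
    exact isOpen_ball.preimage Φ.continuous
  have hbpos : ∀ y ∈ b \ (D ∪ E), 0 < s * (y i - t) := by
    intro y hy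
    rcases (hbs y hy.1).lt_or_eq with h | h
    · exact h
    · exfalso
      obtain ⟨ε, hε, hball⟩ := Metric.isOpen_iff.1 hopen y hy
      -- a point below
      have h1 : y + Pi.single i (-s * (ε / 2)) ∈ b \ (D ∪ E) := by
        apply hball
        rw [mem_ball, dist_eq_norm, add_sub_cancel_left, Pi.norm_single, Real.norm_eq_abs,
          abs_mul, abs_neg, abs_of_pos (half_pos hε)]
        have : |s| = 1 := by rcases hs with h | h <;> rw [h] <;> norm_num
        rw [this, one_mul]; linarith
      have h2 := hbs _ h1.1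
      rw [Pi.add_apply, Pi.single_eq_same] at h2
      have hss : s * s = 1 := by rcases hs with h | h <;> rw [h] <;> norm_num
      have e : s * (y i + -s * (ε / 2) - t) = s * (y i - t) - (s * s) * (ε / 2) := by ring
      rw [e, ← h, hss] at h2
      linarith
  have hinter : b ∩ Pl i t = D := by
    apply Subset.antisymm
    · rintro y ⟨hy, hyt⟩
      by_contra hyD
      have hyE : y ∉ E := fun h => by
        have : y ∈ κ := hκ ▸ ⟨h, hyt⟩
        exact hyD (hκD this)
      have := hbpos y ⟨hy, fun h => h.elim hyD hyE⟩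
      rw [show y i = t from hyt, sub_self, mul_zero] at this
      exact lt_irrefl _ this
    · exact fun y hy => ⟨hSgb (Or.inl hy), hDP hy⟩
  refine ⟨s, D, b, hs, hE, hD, hDP, hDE, hcl, hpl, hbc, hSgb, hinter, hhull, ?_, miss, Φ, hΦb, hΦ⟩
  intro y hy hyD
  by_cases hyE : y ∈ E
  · exact hsE y ⟨hyE, fun h => hyD (hκD h)⟩
  · exact hbpos y ⟨hy, fun h => h.elim hyD hyE⟩

/-- **the push**: `E` is moved onto `D`, fixing the rest of the plane and a closed set off the
ball, supported near the ball. -/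
theorem Rem.exists_push {i : Fin 3} {t s : ℝ} {E κ D b : Set V} (h : Rem i t s E κ D b)
    {W : Set V} (hW : IsOpen W) (hbW : b ⊆ W) :
    ∃ Θ : ConHomeo (univ : Set V) (univ : Set V), (∀ x ∉ W, Θ.toFun x = x) ∧
      (∀ x ∈ Pl i t, x ∉ D → Θ.toFun x = x) ∧ (∀ x ∈ κ, Θ.toFun x = x) ∧ Θ.toFun '' E = D := by
  have hκD : κ ⊆ D := h.hD.1
  have hlocP : LocCone (Pl i t) := by
    intro x
    by_cases hx : x ∈ Pl i t
    · refine ⟨1, one_pos, fun v _ r hr => ?_⟩
      have hx' : x i = t := hx
      show (x + r • v) i = t ↔ (x + v) i = t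
      rw [Pi.add_apply, Pi.add_apply, Pi.smul_apply, smul_eq_mul, hx']
      constructor
      · intro h1
        have h2 : r * v i = 0 := by linarith
        rcases mul_eq_zero.1 h2 with h3 | h3
        · exact absurd h3 hr.1.ne'
        · rw [h3, add_zero]
      · intro h1
        have : v i = 0 := by linarith
        rw [this, mul_zero, add_zero]
    · have := (isClosed_Pl i t).isOpen_compl.mem_nhds hx
      obtain ⟨r, hr, hb⟩ := Metric.nhds_basis_closedBall.mem_iff.1 this
      refine ⟨r, hr, fun v hv q hq => ?_⟩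
      have a1 : x + v ∉ Pl i t := hb (by
        rw [mem_closedBall, dist_eq_norm, add_sub_cancel_left]; exact hv)
      have a2 : x + q • v ∉ Pl i t := hb (by
        rw [mem_closedBall, dist_eq_norm, add_sub_cancel_left, norm_smul,
          Real.norm_of_nonneg hq.1.le]
        calc q * ‖v‖ ≤ 1 * ‖v‖ := by gcongr; exact hq.2
          _ ≤ r := by rw [one_mul]; exact hv)
      exact iff_of_false a2 a1
  have hZ : LocCone (Pl i t \ (D \ κ)) := by
    have h1 : Pl i t \ (D \ κ) = Pl i t ∩ (D ∩ κᶜ)ᶜ := by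
      ext x; simp only [Set.mem_sdiff, mem_inter_iff, mem_compl_iff]
    rw [h1]
    exact hlocP.inter ((h.hD.locCone.inter h.hD.conSphere.locCone.compl).compl)
  have hZb : (Pl i t \ (D \ κ)) ∩ b ⊆ κ := by
    rintro x ⟨⟨h1, h2⟩, h3⟩
    have h4 : x ∈ D := by rw [← h.inter]; exact ⟨h3, h1⟩
    by_contra h5
    exact h2 ⟨h4, h5⟩
  obtain ⟨Φ, hΦb, hΦSg⟩ := h.amb
  obtain ⟨Ψ, h1, h2, h3⟩ := specPush_GB3 univ W b E D κ (Pl i t \ (D \ κ)) isOpen_univ hW
    (subset_univ _) hbW ⟨Φ, hΦb, by rw [union_comm]; exact hΦSg⟩ h.hE h.hD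
    (by rw [inter_comm]; exact h.DE) (fun x _ hx => by rwa [h.cl.closure_eq] at hx)
    (fun x _ => hZ x) hZb
  refine ⟨Ψ, fun x hx => h1 x (mem_univ x) hx, fun x hx hxD => h2 x ⟨hx, fun h' => hxD h'.1⟩
    (mem_univ x), fun x hx => h2 x ⟨?_, fun h' => h'.2 hx⟩ (mem_univ x), h3⟩
  exact h.DP (hκD hx)

end Vale.Agent.P073.H238
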