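import Vale.Agent.P073.H238.Rem3

/-!
# P073, H238 (A08, STEP S): removal of a clean circle by an ambient conical homeomorphism

`h : ConHomeo Ω Λ`, `K` closed in `Ω`, `E0` a conical disc in `Ω` whose boundary circle `c` is its
intersection with the level `{h_i = t}`, which meets no other level. If near `E0` the points of
`K` off `E0` are on the other side of the level, then there is `Θ`, supported in a given open set
`P ⊆ Λ` (containing a closed convex set around `h '' E0`), such that `Θ ∘ h` has the same trace on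
`K`, for all levels, with the same germs, except that a part containing `c` has disappeared.
-/

open Set Metric Topology Filter

namespace Vale.Agent.P073.H238

open _root_.P073

theorem abs_mul_lt_one {K0 : ℝ} (hK0 : 0 ≤ K0) : (1 / (2 * (K0 + 1))) * K0 < 1 := by
  rw [div_mul_eq_mul_div, div_lt_one (by positivity)]
  linarith

theorem rem_step {Ω Λ K : Set V} (h : ConHomeo Ω Λ) (hΛ : IsOpen Λ)
    {Lv : Set (Fin 3 × ℝ)} (hLv : Lv.Finite) {i : Fin 3} {t : ℝ}
    {E0 c : Set V} (hE0 : ConBall 2 E0 c) (hE0Ω : E0 ⊆ Ω)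
    (hc : ∀ x ∈ E0, (h.toFun x i = t ↔ x ∈ c))
    (hclean : ∀ x ∈ E0, ∀ q ∈ Lv, q ≠ (i, t) → h.toFun x q.1 ≠ q.2)
    (hside : ∀ s : ℝ, (∀ x ∈ E0, x ∉ c → 0 < s * (h.toFun x i - t)) →
      ∀ x ∈ E0, ∀ᶠ y in 𝓝 x, y ∈ K → y ∉ E0 → s * (h.toFun y i - t) < 0)
    {P Q : Set V} (hP : IsOpen P) (hPΛ : P ⊆ Λ) (hQ : Convex ℝ Q) (hQc : IsClosed Q)
    (hQP : Q ⊆ P) (hEQ : h.toFun '' E0 ⊆ Q) :
    ∃ Θ : ConHomeo (univ : Set V) (univ : Set V),
      (∃ C, IsCompact C ∧ C ⊆ P ∧ ∀ y ∉ C, Θ.toFun y = y) ∧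
      (∀ q ∈ Lv, q ≠ (i, t) → ∀ y, Θ.toFun y q.1 = q.2 → ∀ᶠ z in 𝓝 y, Θ.toFun z = z) ∧
      (∀ x ∈ Ω, x ∈ K → Θ.toFun (h.toFun x) i = t →
        ∀ᶠ z in 𝓝 (h.toFun x), Θ.toFun z = z) ∧
      ∀ x ∈ E0, Θ.toFun (h.toFun x) i ≠ t := by
  have hcE : c ⊆ E0 := hE0.1
  set Eh : Set V := h.toFun '' E0 with hEh
  set κ : Set V := h.toFun '' c with hκ
  have hEb : ConBall 2 Eh κ := hE0.image h hE0Ω
  have hEhΛ : Eh ⊆ Λ := by rintro _ ⟨x, hx, rfl⟩; exact h.mapsTo (hE0Ω hx)
  have hinvE : ∀ y ∈ Eh, h.invFun y ∈ E0 := by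
    rintro _ ⟨x, hx, rfl⟩; rwa [h.left_inv (hE0Ω hx)]
  have hEκ : Eh ∩ Pl i t = κ := by
    ext y
    constructor
    · rintro ⟨⟨x, hx, rfl⟩, hy⟩
      exact ⟨x, (hc x hx).1 hy, rfl⟩
    · rintro ⟨x, hx, rfl⟩
      exact ⟨⟨x, hcE hx, rfl⟩, (hc x (hcE hx)).2 hx⟩
  obtain ⟨s, D, b, hs, R⟩ := exists_rem hEb hEκ
  have hss : s * s = 1 := by rcases hs with h | h <;> rw [h] <;> norm_num
  have hs0 : s ≠ 0 := by rcases hs with h | h <;> rw [h] <;> norm_num
  have hbΛ : b ⊆ Λ := (R.hull Q hQ hQc hEQ).trans (hQP.trans hPΛ)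
  have hbP : b ⊆ P := (R.hull Q hQ hQc hEQ).trans hQP
  have hκD : κ ⊆ D := R.hD.1
  have hDb : D ⊆ b := fun y hy => R.sub (Or.inl hy)
  have hsE : ∀ x ∈ E0, x ∉ c → 0 < s * (h.toFun x i - t) := by
    intro x hx hxc
    have hxE : h.toFun x ∈ Eh := mem_image_of_mem _ hx
    refine R.side _ (R.sub (Or.inr hxE)) fun hD => hxc ?_
    exact (hc x hx).1 (R.DP hD)
  have sgn := hside s hsE
  -- the other levels
  set O : Set V := ⋃ q ∈ {q | q ∈ Lv ∧ q ≠ (i, t)}, Pl q.1 q.2 with hO
  have hOc : IsClosed O := by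
    rw [hO]
    exact (hLv.subset fun q hq => hq.1).isClosed_biUnion fun q _ => isClosed_Pl _ _
  have hOb : Disjoint O b := by
    rw [Set.disjoint_left]
    intro y hy hyb
    obtain ⟨q, ⟨hq, hqne⟩, hyq⟩ := mem_iUnion₂.1 hy
    have hqE : Disjoint (Pl q.1 q.2) Eh := by
      rw [Set.disjoint_left]
      rintro _ h1 ⟨x, hx, rfl⟩
      exact hclean x hx q hq hqne h1
    have hunb : ∀ k : Fin 3, k ≠ q.1 → ∀ z ∈ Pl q.1 q.2,
        ¬ Bornology.IsBounded ((fun r : ℝ => z + r • (Pi.single k (1:ℝ) : V)) '' Ici 0) := by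
      intro k _ z _
      refine ray_unbounded fun h0 => ?_
      have := congrFun h0 k
      simp at this
    have hqD : Disjoint (Pl q.1 q.2) D := by
      by_cases hqi : q.1 = i
      · rw [Set.disjoint_left]
        intro z h1 h2
        apply hqne
        have h3 : z i = t := R.DP h2
        have h4 : z q.1 = q.2 := h1
        rw [hqi, h3] at h4
        exact Prod.ext hqi h4.symm
      · rw [Set.disjoint_left]
        intro z h1 h2
        -- the line through `z`
        obtain ⟨k, hk1, hk2⟩ : ∃ k : Fin 3, k ≠ q.1 ∧ k ≠ i := by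
          have : ∀ a b : Fin 3, ∃ k : Fin 3, k ≠ a ∧ k ≠ b := by decide
          exact this _ _
        have hline : Disjoint (Pl q.1 q.2 ∩ Pl i t) D := by
          refine R.planar _ inter_subset_right
            ((convex_Pl _ _).inter (convex_Pl _ _)).isPreconnected ?_ ?_
          · rw [Set.disjoint_left]
            rintro w ⟨hw, -⟩ hwκ
            exact Set.disjoint_left.1 hqE hw (hEb.1 hwκ)
          · intro hB
            refine hunb k hk1 z h1 (hB.subset ?_)
            rintro _ ⟨r, _, rfl⟩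
            refine ⟨?_, ?_⟩
            · show (z + r • (Pi.single k (1:ℝ) : V)) q.1 = q.2
              rw [Pi.add_apply, Pi.smul_apply, Pi.single_eq_of_ne hk1.symm, smul_zero, add_zero]
              exact h1
            · show (z + r • (Pi.single k (1:ℝ) : V)) i = t
              rw [Pi.add_apply, Pi.smul_apply, Pi.single_eq_of_ne hk2.symm, smul_zero, add_zero]
              exact R.DP h2
        exact Set.disjoint_left.1 hline ⟨h1, R.DP h2⟩ h2
    have hqu : ¬ Bornology.IsBounded (Pl q.1 q.2) := by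
      intro hB
      obtain ⟨k, hk⟩ : ∃ k : Fin 3, k ≠ q.1 := by
        have : ∀ a : Fin 3, ∃ k : Fin 3, k ≠ a := by decide
        exact this _
      refine hunb k hk y hyq (hB.subset ?_)
      rintro _ ⟨r, _, rfl⟩
      show (y + r • (Pi.single k (1:ℝ) : V)) q.1 = q.2
      rw [Pi.add_apply, Pi.smul_apply, Pi.single_eq_of_ne hk.symm, smul_zero, add_zero]
      exact hyq
    exact Set.disjoint_left.1 (R.miss _ (convex_Pl _ _).isPreconnected hqu hqE hqD) hyq hyb
  -- the rest of the trace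
  set T : Set V := {y | y ∈ Λ ∧ h.invFun y ∈ K ∧ y i = t ∧ y ∉ D} with hT
  have hTb : Disjoint b (closure T) := by
    rw [Set.disjoint_left]
    intro y hyb hyT
    have hyΛ := hbΛ hyb
    have hyP : y ∈ Pl i t :=
      closure_minimal (fun z hz => hz.2.2.1) (isClosed_Pl i t) hyT
    have hyD : y ∈ D := by rw [← R.inter]; exact ⟨hyb, hyP⟩
    by_cases hyκ : y ∈ κ
    · obtain ⟨x, hx, rfl⟩ := hyκ
      have hcont : ContinuousAt h.invFun (h.toFun x) :=
        h.cont_inv.continuousAt (hΛ.mem_nhds hyΛ)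
      have hxinv : h.invFun (h.toFun x) = x := h.left_inv (hE0Ω (hcE hx))
      have hev : ∀ᶠ z in 𝓝 (h.toFun x), h.invFun z ∈ K → h.invFun z ∉ E0 →
          s * (h.toFun (h.invFun z) i - t) < 0 := by
        have := sgn x (hcE hx)
        rw [← hxinv] at this
        exact hcont.eventually this
      obtain ⟨z, hz, hzT⟩ := (mem_closure_iff_frequently.1 hyT).and_eventually hev |>.exists
      have hzz : h.toFun (h.invFun z) = z := h.right_inv hz.1
      rw [hzz] at hzT
      by_cases hzE : h.invFun z ∈ E0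
      · have h1 : h.invFun z ∈ c := (hc _ hzE).1 (by rw [hzz]; exact hz.2.2.1)
        exact hz.2.2.2 (hκD ⟨_, h1, hzz⟩)
      · have := hzT hz.2.1 hzE
        rw [hz.2.2.1, sub_self, mul_zero] at this
        exact lt_irrefl _ this
    · have := closure_minimal (s := T) (fun z hz => (⟨hz.2.2.1, fun h' => hz.2.2.2 h'.1⟩ :
        z ∈ Pl i t \ (D \ κ))) R.cl hyT
      exact this.2 ⟨hyD, hyκ⟩
  set W : Set V := P ∩ Oᶜ ∩ (closure T)ᶜ with hW
  have hWo : IsOpen W := (hP.inter hOc.isOpen_compl).inter isClosed_closure.isOpen_compl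
  have hbW : b ⊆ W := fun y hy => ⟨⟨hbP hy, fun h' => Set.disjoint_left.1 hOb h' hy⟩,
    Set.disjoint_left.1 hTb hy⟩
  obtain ⟨L, hLc, hbL, hLW⟩ := exists_compact_between R.cpt hWo hbW
  obtain ⟨Θ1, e1, e2, e3, e4⟩ := R.exists_push isOpen_interior hbL
  have e1' : ∀ x ∉ L, Θ1.toFun x = x := fun x hx => e1 x fun h' => hx (interior_subset h')
  -- points below stay below
  set A : Set V := {y : V | s * (y i - t) < 0} with hA
  have hAconv : Convex ℝ A := by
    intro x hx y hy a c ha hc hac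
    show s * ((a * x i + c * y i) - t) < 0
    have e : s * ((a * x i + c * y i) - t) = a * (s * (x i - t)) + c * (s * (y i - t)) := by
      linear_combination (s * t) * hac
    rw [e]
    have hx' : s * (x i - t) < 0 := hx
    have hy' : s * (y i - t) < 0 := hy
    rcases ha.eq_or_lt with h | h
    · rw [← h, zero_mul, zero_add]
      have : c = 1 := by linarith
      rw [this, one_mul]; exact hy'
    · nlinarith
  have hAne : ∀ y ∈ A, Θ1.toFun y ∉ Pl i t := by
    intro y hy hyP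
    by_cases hyD : Θ1.toFun y ∈ D
    · rw [← e4] at hyD
      obtain ⟨z, hz, hzy⟩ := hyD
      have : z = y := Θ1.injective hzy
      subst this
      have h1 := R.sub (Or.inr hz)
      by_cases h2 : z ∈ D
      · have h3 : z i = t := R.DP h2
        have h4 : s * (z i - t) < 0 := hy
        rw [h3, sub_self, mul_zero] at h4
        exact lt_irrefl _ h4
      · exact lt_asymm (R.side z h1 h2) hy
    · have h1 := e2 _ hyP hyD
      have h2 : Θ1.toFun y = y := Θ1.injective h1
      rw [h2] at hyP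
      have h3 : s * (y i - t) < 0 := hy
      rw [show y i = t from hyP, sub_self, mul_zero] at h3
      exact lt_irrefl _ h3
  have hAmap : ∀ y ∈ A, Θ1.toFun y ∈ A := by
    have hpre : IsPreconnected (Θ1.toFun '' A) :=
      hAconv.isPreconnected.image _ Θ1.continuous.continuousOn
    -- a fixed point
    obtain ⟨y0, hy0A, hy0⟩ : ∃ y0 ∈ A, Θ1.toFun y0 = y0 := by
      by_contra hcon
      push Not at hcon
      have hAL : A ⊆ L := fun y hy => by
        by_contra h'; exact hcon y hy (e1' y h')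
      refine ray_unbounded (y := fun _ => t - s) (v := Pi.single i (-s)) ?_
        (hLc.isBounded.subset (Subset.trans ?_ hAL))
      · intro h0
        have := congrFun h0 i
        simp only [Pi.single_eq_same, Pi.zero_apply, neg_eq_zero] at this
        exact hs0 this
      · rintro _ ⟨r, hr, rfl⟩
        show s * (((fun _ => t - s : V) + r • (Pi.single i (-s) : V)) i - t) < 0
        simp only [Pi.add_apply, Pi.smul_apply, Pi.single_eq_same, smul_eq_mul]
        have : (0:ℝ) ≤ r := hr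
        have e : s * (t - s + r * -s - t) = -(1 + r) * (s * s) := by ring
        rw [e, hss]; linarith
    have hsub : Θ1.toFun '' A ⊆ A ∪ {y : V | 0 < s * (y i - t)} := by
      rintro _ ⟨y, hy, rfl⟩
      have h1 := hAne y hy
      have h2 : s * (Θ1.toFun y i - t) ≠ 0 := mul_ne_zero hs0 (sub_ne_zero.2 h1)
      rcases lt_or_gt_of_ne h2 with h3 | h3
      · exact Or.inl h3
      · exact Or.inr h3
    have hcont : Continuous fun y : V => s * (y i - t) := by fun_prop
    rcases hpre.subset_or_subset (isOpen_lt hcont continuous_const)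
      (isOpen_lt continuous_const hcont) (by
        rw [Set.disjoint_left]; intro y h1 h2
        exact lt_asymm (show s * (y i - t) < 0 from h1) h2) hsub with h1 | h1
    · exact fun y hy => h1 (mem_image_of_mem _ hy)
    · exfalso
      have h2 : (0:ℝ) < s * (Θ1.toFun y0 i - t) := h1 (mem_image_of_mem _ hy0A)
      rw [hy0] at h2
      exact lt_asymm h2 hy0A
  -- the bad set
  set B : Set V := {z | z ∈ Λ ∧ h.invFun z ∈ K ∧ z ∉ Eh ∧ ¬ s * (z i - t) < 0} with hB
  have hBE : Disjoint Eh (closure B) := by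
    rw [Set.disjoint_left]
    intro y hyE hyB
    have hyΛ := hEhΛ hyE
    have hcont : ContinuousAt h.invFun y := h.cont_inv.continuousAt (hΛ.mem_nhds hyΛ)
    have hev : ∀ᶠ z in 𝓝 y, h.invFun z ∈ K → h.invFun z ∉ E0 →
        s * (h.toFun (h.invFun z) i - t) < 0 := hcont.eventually (sgn _ (hinvE y hyE))
    obtain ⟨z, hz, hz2⟩ := (mem_closure_iff_frequently.1 hyB).and_eventually hev |>.exists
    have hzz : h.toFun (h.invFun z) = z := h.right_inv hz.1
    rw [hzz] at hz2
    exact hz.2.2.2 (hz2 hz.2.1 fun h' => hz.2.2.1 ⟨_, h', hzz⟩)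
  set N : Set V := W ∩ (Θ1.toFun '' closure B)ᶜ with hN
  have hNo : IsOpen N :=
    hWo.inter (Θ1.toHomeomorph.isClosedMap _ isClosed_closure).isOpen_compl
  have hDN : D ⊆ N := by
    intro y hy
    refine ⟨hbW (hDb hy), ?_⟩
    rintro ⟨z, hz, hzy⟩
    rw [← e4] at hy
    obtain ⟨w, hw, hwy⟩ := hy
    have : w = z := Θ1.injective (hwy.trans hzy.symm)
    exact Set.disjoint_left.1 hBE hw (this ▸ hz)
  obtain ⟨χ, K0, hK0, hχc, hχcon, hχ0, hχ1, hχD, ⟨Cχ, hCχ, hCχN, hχC⟩, hχL⟩ :=
    exists_conCut R.hD.isCompact hNo hDN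
  set δ : ℝ := 1 / (2 * (K0 + 1)) with hδ
  have hδ0 : 0 < δ := by rw [hδ]; positivity
  have hsabs : |s| = 1 := by rcases hs with h | h <;> rw [h] <;> norm_num
  obtain ⟨σ, hσ⟩ := exists_shift i hχc hχcon hχL (a := -s * δ) (by
    rw [abs_mul, abs_neg, hsabs, one_mul, abs_of_pos hδ0, hδ]
    exact abs_mul_lt_one hK0)
  have hσi : ∀ y, σ.toFun y i = y i + -s * δ * χ y := by
    intro y; rw [hσ, Pi.add_apply, Pi.single_eq_same]
  have hσ0 : ∀ y, χ y = 0 → σ.toFun y = y := by
    intro y hy; rw [hσ, hy, mul_zero, Pi.single_zero, add_zero]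
  set Θ : ConHomeo (univ : Set V) (univ : Set V) := Θ1.trans σ with hΘ
  have hΘa : ∀ y, Θ.toFun y = σ.toFun (Θ1.toFun y) := fun _ => rfl
  set C : Set V := L ∪ Cχ with hC
  have hCW : C ⊆ W := union_subset hLW (hCχN.trans inter_subset_left)
  have hCc : IsCompact C := hLc.union hCχ
  have hΘC : ∀ y ∉ C, Θ.toFun y = y := by
    intro y hy
    rw [hΘa, e1' y fun h' => hy (Or.inl h'), hσ0 y (hχC y fun h' => hy (Or.inr h'))]
  have hnear : ∀ y ∉ C, ∀ᶠ z in 𝓝 y, Θ.toFun z = z := by
    intro y hy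
    filter_upwards [hCc.isClosed.isOpen_compl.mem_nhds hy] with z hz
    exact hΘC z hz
  refine ⟨Θ, ⟨C, hCc, hCW.trans (inter_subset_left.trans inter_subset_left), hΘC⟩, ?_, ?_, ?_⟩
  · intro q hq hqne y hy
    have hyO : Θ.toFun y ∈ O := mem_iUnion₂.2 ⟨q, ⟨hq, hqne⟩, hy⟩
    have h1 : Θ.toFun y ∉ C := fun h' => (hCW h').1.2 hyO
    have h2 : Θ.toFun y = y := Θ.injective (hΘC _ h1)
    rw [h2] at h1
    exact hnear y h1
  · intro x hx hxK hxt
    set y := h.toFun x with hy
    have hyΛ : y ∈ Λ := h.mapsTo hx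
    have hyinv : h.invFun y = x := h.left_inv hx
    rw [hΘa, hσi] at hxt
    by_cases hχy : χ (Θ1.toFun y) = 0
    · rw [hχy, mul_zero, add_zero] at hxt
      have h1 : Θ1.toFun y ∉ D := fun h' => by
        rw [hχD _ h'] at hχy; exact one_ne_zero hχy
      have h2 : Θ1.toFun y = y := Θ1.injective (e2 _ hxt h1)
      rw [h2] at hxt h1
      have h3 : y ∈ T := ⟨hyΛ, by rw [hyinv]; exact hxK, hxt, h1⟩
      exact hnear y fun h' => (hCW h').2 (subset_closure h3)
    · exfalso
      have h1 : Θ1.toFun y ∈ N := hCχN (by by_contra h'; exact hχy (hχC _ h'))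
      have h2 : y ∉ B := fun h' => h1.2 (mem_image_of_mem _ (subset_closure h'))
      have h3 : 0 < χ (Θ1.toFun y) := lt_of_le_of_ne (hχ0 _) (Ne.symm hχy)
      have h4 : s * (Θ1.toFun y i - t) = δ * χ (Θ1.toFun y) := by
        have : Θ1.toFun y i = t + s * δ * χ (Θ1.toFun y) := by linarith
        rw [this, show s * (t + s * δ * χ (Θ1.toFun y) - t) = (s * s) * δ * χ (Θ1.toFun y) by ring,
          hss, one_mul]
      have h5 : 0 < s * (Θ1.toFun y i - t) := by rw [h4]; positivity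
      by_cases h6 : y ∈ Eh
      · have h7 : Θ1.toFun y ∈ D := by rw [← e4]; exact mem_image_of_mem _ h6
        rw [show Θ1.toFun y i = t from R.DP h7, sub_self, mul_zero] at h5
        exact lt_irrefl _ h5
      · have h7 : s * (y i - t) < 0 := by
          by_contra h8
          exact h2 ⟨hyΛ, by rw [hyinv]; exact hxK, h6, h8⟩
        exact lt_asymm h5 (hAmap y h7)
  · intro x hx hxt
    rw [hΘa, hσi] at hxt
    have h1 : Θ1.toFun (h.toFun x) ∈ D := by
      rw [← e4]; exact mem_image_of_mem _ (mem_image_of_mem _ hx)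
    rw [show Θ1.toFun (h.toFun x) i = t from R.DP h1, hχD _ h1, mul_one] at hxt
    have : s * δ = 0 := by linarith
    rcases mul_eq_zero.1 this with h2 | h2
    · exact hs0 h2
    · exact hδ0.ne' h2

end Vale.Agent.P073.H238
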