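import Vale.Agent.P073.H238.Rem4

/-!
# P073, H238 (A08, STEP S): the core of the removal step, all clauses
-/

open Set Metric Topology Filter

namespace Vale.Agent.P073.H238

open _root_.P073

namespace Rem

variable {i : Fin 3} {t s : ℝ} {E κ D b : Set V}

theorem isClosed_b (h : Rem i t s E κ D b) : IsClosed b := h.cpt.isClosed

/-- the open ball -/
theorem inner (h : Rem i t s E κ D b) : IsOpen (b \ (D ∪ E)) ∧ IsPreconnected (b \ (D ∪ E)) ∧
    b ⊆ closure (b \ (D ∪ E)) := by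
  obtain ⟨Φ, hΦb, hΦSg⟩ := h.amb
  have hb : ∀ x, x ∈ b ↔ Φ.toFun x ∈ closedBall (0 : V) 1 := by
    intro x; rw [← hΦb]; exact (Φ.apply_mem_image_iff).symm
  have hSg : ∀ x, x ∈ D ∪ E ↔ Φ.toFun x ∈ sphere (0 : V) 1 := by
    intro x; rw [← hΦSg]; exact (Φ.apply_mem_image_iff).symm
  have hU : b \ (D ∪ E) = Φ.toFun ⁻¹' ball (0 : V) 1 := by
    ext x
    rw [Set.mem_sdiff, hb, hSg, mem_preimage, mem_closedBall, mem_sphere, mem_ball]
    exact ⟨fun h => lt_of_le_of_ne h.1 h.2, fun h => ⟨h.le, h.ne⟩⟩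
  have himg : b \ (D ∪ E) = Φ.toHomeomorph.symm '' ball (0 : V) 1 := by
    rw [hU, Φ.toHomeomorph.symm.image_eq_preimage_symm]; rfl
  refine ⟨?_, ?_, ?_⟩
  · rw [hU]; exact isOpen_ball.preimage Φ.continuous
  · rw [himg]
    exact (convex_ball (0 : V) 1).isPreconnected.image _
      Φ.toHomeomorph.symm.continuous.continuousOn
  · intro x hx
    have h1 : x ∈ Φ.toHomeomorph.symm '' closure (ball (0 : V) 1) := by
      rw [closure_ball (0 : V) one_ne_zero]
      exact ⟨Φ.toFun x, (hb x).1 hx, Φ.toHomeomorph.symm_apply_apply x⟩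
    rw [himg]
    exact image_closure_subset_closure_image Φ.toHomeomorph.symm.continuous h1

/-- near an inner point of `D` the upper side is in the ball -/
theorem near (h : Rem i t s E κ D b) {y : V} (hy : y ∈ D) (hyκ : y ∉ κ) :
    ∀ᶠ z in 𝓝 y, 0 ≤ s * (z i - t) → z ∈ b := by
  obtain ⟨hUo, hUc, hUd⟩ := h.inner
  have hyE : y ∉ E := fun h' => hyκ (h.DE ▸ ⟨hy, h'⟩)
  have hEc : IsClosed E := h.hE.isCompact.isClosed
  have hyZ : y ∉ Pl i t \ (D \ κ) := fun h' => h'.2 ⟨hy, hyκ⟩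
  obtain ⟨r, hr, hrb⟩ := Metric.isOpen_iff.1 (hEc.isOpen_compl.inter h.cl.isOpen_compl) y
    ⟨hyE, hyZ⟩
  set H : Set V := ball y r ∩ {z | 0 < s * (z i - t)} with hH
  have hHD : Disjoint H (D ∪ E) := by
    rw [Set.disjoint_left]
    rintro z ⟨hz1, hz2⟩ (hz3 | hz3)
    · have h1 : (0:ℝ) < s * (z i - t) := hz2
      rw [show z i = t from h.DP hz3, sub_self, mul_zero] at h1
      exact lt_irrefl _ h1
    · exact (hrb hz1).1 hz3
  have hHconv : Convex ℝ H := by
    refine (convex_ball _ _).inter ?_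
    intro x hx z hz a c ha hc hac
    show 0 < s * ((a * x i + c * z i) - t)
    have e : s * ((a * x i + c * z i) - t) = a * (s * (x i - t)) + c * (s * (z i - t)) := by
      linear_combination (s * t) * hac
    rw [e]
    have hx' : 0 < s * (x i - t) := hx
    have hz' : 0 < s * (z i - t) := hz
    rcases ha.eq_or_lt with h | h
    · rw [← h, zero_mul, zero_add]
      have : c = 1 := by linarith
      rw [this, one_mul]; exact hz'
    · have := mul_pos h hx'
      have := mul_nonneg hc hz'.le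
      linarith
  -- a point of the inner part
  obtain ⟨z0, hz0, hz0U⟩ : ∃ z ∈ ball y r, z ∈ b \ (D ∪ E) :=
    mem_closure_iff.1 (hUd (h.sub (Or.inl hy))) _ isOpen_ball (mem_ball_self hr)
  have hz0H : z0 ∈ H := ⟨hz0, h.side z0 hz0U.1 fun h' => hz0U.2 (Or.inl h')⟩
  have hHb : H ⊆ b := by
    rcases hHconv.isPreconnected.subset_or_subset hUo h.isClosed_b.isOpen_compl (by
      rw [Set.disjoint_left]; intro z h1 h2; exact h2 h1.1) (by
      intro z hz
      by_cases h1 : z ∈ b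
      · exact Or.inl ⟨h1, Set.disjoint_left.1 hHD hz⟩
      · exact Or.inr h1) with h1 | h1
    · exact fun z hz => (h1 hz).1
    · exact absurd hz0U.1 (h1 hz0H)
  filter_upwards [ball_mem_nhds y hr] with z hz hzs
  rcases hzs.lt_or_eq with h1 | h1
  · exact hHb ⟨hz, h1⟩
  · have hs0 : s ≠ 0 := by
      rintro rfl
      have := hz0H.2
      rw [mem_ofPred_eq, zero_mul] at this
      exact lt_irrefl _ this
    have h2 : z i - t = 0 := by
      rcases mul_eq_zero.1 h1.symm with h3 | h3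
      · exact absurd h3 hs0
      · exact h3
    have h3 : z ∈ Pl i t := sub_eq_zero.1 h2
    have h4 : z ∈ D := by
      by_contra h5
      exact (hrb hz).2 ⟨h3, fun h' => h5 h'.1⟩
    exact h.sub (Or.inl h4)

end Rem

/-- a connected relative neighbourhood in a coordinate plane -/
theorem exists_planeNbhd {i : Fin 3} {t : ℝ} {D W : Set V} (hW : IsOpen W) (hD : IsPreconnected D)
    (hDne : D.Nonempty) (hDW : D ⊆ W) (hDP : D ⊆ Pl i t) :
    ∃ O, IsPreconnected O ∧ D ⊆ O ∧ O ⊆ W ∧ O ⊆ Pl i t ∧ IsClosed (Pl i t \ O) := by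
  obtain ⟨d, hd⟩ := hDne
  set O : Set V := connectedComponentIn (W ∩ Pl i t) d with hO
  have hdm : d ∈ W ∩ Pl i t := ⟨hDW hd, hDP hd⟩
  have hOs : O ⊆ W ∩ Pl i t := connectedComponentIn_subset _ _
  refine ⟨O, isPreconnected_connectedComponentIn,
    hD.subset_connectedComponentIn hd (subset_inter hDW hDP), fun y hy => (hOs hy).1,
    fun y hy => (hOs hy).2, ?_⟩
  -- open in the plane
  have key : ∀ y ∈ O, ∃ r > 0, ball y r ∩ Pl i t ⊆ O := by
    intro y hy
    obtain ⟨r, hr, hb⟩ := Metric.isOpen_iff.1 hW y (hOs hy).1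
    refine ⟨r, hr, ?_⟩
    have hyb : y ∈ ball y r ∩ Pl i t := ⟨mem_ball_self hr, (hOs hy).2⟩
    have h1 : IsPreconnected (ball y r ∩ Pl i t) :=
      ((convex_ball y r).inter (convex_Pl i t)).isPreconnected
    have h2 := h1.subset_connectedComponentIn hyb (F := W ∩ Pl i t)
      (inter_subset_inter_left _ hb)
    rw [hO, connectedComponentIn_eq hy]
    exact h2
  choose! r hr hrb using key
  have e : Pl i t \ O = Pl i t \ ⋃ y ∈ O, ball y (r y) := by
    ext z
    constructor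
    · rintro ⟨h1, h2⟩
      refine ⟨h1, fun h3 => ?_⟩
      obtain ⟨y, hy, hz⟩ := mem_iUnion₂.1 h3
      exact h2 (hrb y hy ⟨hz, h1⟩)
    · rintro ⟨h1, h2⟩
      exact ⟨h1, fun h3 => h2 (mem_iUnion₂.2 ⟨z, h3, mem_ball_self (hr z h3)⟩)⟩
  rw [e]
  exact (isClosed_Pl i t).sdiff (isOpen_biUnion fun _ _ => isOpen_ball)

end Vale.Agent.P073.H238
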