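import Vale.Agent.P073.H238.Rem5

/-!
# P073, H238 (A08, STEP S): the core of the removal step, all clauses

`rem_core`: like `rem_step`, but the planar disc `D` and the ball `b` are visible, the support is in
an arbitrary neighbourhood of `b`, every moved point of `K` ends in an arbitrary neighbourhood of
`D`, and the new level set is described.
-/

open Set Metric Topology Filter

namespace Vale.Agent.P073.H238

open _root_.P073

theorem convex_low (i : Fin 3) (s t : ℝ) : Convex ℝ {y : V | s * (y i - t) < 0} := by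
  intro x hx y hy a c ha hc hac
  show s * ((a * x i + c * y i) - t) < 0
  have e : s * ((a * x i + c * y i) - t) = a * (s * (x i - t)) + c * (s * (y i - t)) := by
    linear_combination (s * t) * hac
  rw [e]
  have hx' : s * (x i - t) < 0 := hx
  have hy' : s * (y i - t) < 0 := hy
  rcases ha.eq_or_lt with h | h
  · rw [← h, zero_mul, zero_add]
    have : c = 1 := by linarith
    rw [this, one_mul]; exact hy'
  · nlinarith

/-- **the core of the removal step** -/
theorem rem_core {Ω Λ K : Set V} (h : ConHomeo Ω Λ) (hΛ : IsOpen Λ)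
    {Lv : Set (Fin 3 × ℝ)} (hLv : Lv.Finite) {i : Fin 3} {t : ℝ}
    {E0 c : Set V} (hE0 : ConBall 2 E0 c) (hE0Ω : E0 ⊆ Ω)
    (hc : ∀ x ∈ E0, (h.toFun x i = t ↔ x ∈ c))
    (hclean : ∀ x ∈ E0, ∀ q ∈ Lv, q ≠ (i, t) → h.toFun x q.1 ≠ q.2)
    (hside : ∀ s : ℝ, (∀ x ∈ E0, x ∉ c → 0 < s * (h.toFun x i - t)) →
      ∀ x ∈ E0, ∀ᶠ y in 𝓝 x, y ∈ K → y ∉ E0 → s * (h.toFun y i - t) < 0)
    {Q : Set V} (hQ : Convex ℝ Q) (hQc : IsClosed Q) (hQΛ : Q ⊆ Λ) (hEQ : h.toFun '' E0 ⊆ Q) :
    ∃ (s : ℝ) (D b : Set V), (s = 1 ∨ s = -1) ∧ Rem i t s (h.toFun '' E0) (h.toFun '' c) D b ∧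
      b ⊆ Q ∧ ∀ G G1 G2 : Set V, IsOpen G → IsOpen G1 → IsOpen G2 → b ⊆ G →
      h.toFun '' E0 ⊆ G1 → D ⊆ G2 →
      ∃ (Θ : ConHomeo (univ : Set V) (univ : Set V)) (O : Set V),
        IsPreconnected O ∧ D ⊆ O ∧ O ⊆ Pl i t ∧
        (∃ C, IsCompact C ∧ C ⊆ G ∧ ∀ y ∉ C, Θ.toFun y = y) ∧
        (∀ q ∈ Lv, q ≠ (i, t) → ∀ y, Θ.toFun y q.1 = q.2 → ∀ᶠ z in 𝓝 y, Θ.toFun z = z) ∧
        (∀ x ∈ Ω, x ∈ K → Θ.toFun (h.toFun x) i = t →
          h.toFun x ∉ O ∧ ∀ᶠ z in 𝓝 (h.toFun x), Θ.toFun z = z) ∧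
        (∀ x ∈ E0, Θ.toFun (h.toFun x) i ≠ t) ∧
        (∀ y, Θ.toFun y i = t → Θ.toFun y = y ∨ (y ∈ G1 ∧ Θ.toFun y ∈ O)) ∧
        ∀ x ∈ Ω, x ∈ K → Θ.toFun (h.toFun x) ≠ h.toFun x → Θ.toFun (h.toFun x) ∈ G2 := by
  have hcE : c ⊆ E0 := hE0.1
  set Eh : Set V := h.toFun '' E0 with hEh
  set κ : Set V := h.toFun '' c with hκ
  have hEb : ConBall 2 Eh κ := hE0.image h hE0Ω
  have hEhΛ : Eh ⊆ Λ := by rintro _ ⟨x, hx, rfl⟩; exact h.mapsTo (hE0Ω hx)
  have hinvE : ∀ y ∈ Eh, h.invFun y ∈ E0 := by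
    rintro _ ⟨x, hx, rfl⟩; rwa [h.left_inv (hE0Ω hx)]
  have hEκ : Eh ∩ Pl i t = κ := by
    ext y
    constructor
    · rintro ⟨⟨x, hx, rfl⟩, hy⟩
      exact ⟨x, (hc x hx).1 hy, rfl⟩
    · rintro ⟨x, hx, rfl⟩
      exact ⟨⟨x, hcE hx, rfl⟩, (hc x (hcE hx)).2 hx⟩
  obtain ⟨s, D, b, hs, R⟩ := exists_rem hEb hEκ
  have hss : s * s = 1 := by rcases hs with h | h <;> rw [h] <;> norm_num
  have hs0 : s ≠ 0 := by rcases hs with h | h <;> rw [h] <;> norm_num
  have hbQ : b ⊆ Q := R.hull Q hQ hQc hEQ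
  have hbΛ : b ⊆ Λ := hbQ.trans hQΛ
  have hκD : κ ⊆ D := R.hD.1
  have hDb : D ⊆ b := fun y hy => R.sub (Or.inl hy)
  have hEb' : Eh ⊆ b := fun y hy => R.sub (Or.inr hy)
  have hsE : ∀ x ∈ E0, x ∉ c → 0 < s * (h.toFun x i - t) := by
    intro x hx hxc
    have hxE : h.toFun x ∈ Eh := mem_image_of_mem _ hx
    refine R.side _ (R.sub (Or.inr hxE)) fun hD => hxc ?_
    exact (hc x hx).1 (R.DP hD)
  have sgn := hside s hsE
  refine ⟨s, D, b, hs, R, hbQ, ?_⟩
  intro G G1 G2 hG hG1 hG2 hbG hEG1 hDG2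
  -- the other levels
  set O : Set V := ⋃ q ∈ {q | q ∈ Lv ∧ q ≠ (i, t)}, Pl q.1 q.2 with hO
  have hOc : IsClosed O := by
    rw [hO]
    exact (hLv.subset fun q hq => hq.1).isClosed_biUnion fun q _ => isClosed_Pl _ _
  have hOb : Disjoint O b := by
    rw [Set.disjoint_left]
    intro y hy hyb
    obtain ⟨q, ⟨hq, hqne⟩, hyq⟩ := mem_iUnion₂.1 hy
    have hqE : Disjoint (Pl q.1 q.2) Eh := by
      rw [Set.disjoint_left]
      rintro _ h1 ⟨x, hx, rfl⟩
      exact hclean x hx q hq hqne h1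
    have hunb : ∀ k : Fin 3, k ≠ q.1 → ∀ z ∈ Pl q.1 q.2,
        ¬ Bornology.IsBounded ((fun r : ℝ => z + r • (Pi.single k (1:ℝ) : V)) '' Ici 0) := by
      intro k _ z _
      refine ray_unbounded fun h0 => ?_
      have := congrFun h0 k
      simp at this
    have hqD : Disjoint (Pl q.1 q.2) D := by
      by_cases hqi : q.1 = i
      · rw [Set.disjoint_left]
        intro z h1 h2
        apply hqne
        have h3 : z i = t := R.DP h2
        have h4 : z q.1 = q.2 := h1
        rw [hqi, h3] at h4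
        exact Prod.ext hqi h4.symm
      · rw [Set.disjoint_left]
        intro z h1 h2
        -- the line through `z`
        obtain ⟨k, hk1, hk2⟩ : ∃ k : Fin 3, k ≠ q.1 ∧ k ≠ i := by
          have : ∀ a b : Fin 3, ∃ k : Fin 3, k ≠ a ∧ k ≠ b := by decide
          exact this _ _
        have hline : Disjoint (Pl q.1 q.2 ∩ Pl i t) D := by
          refine R.planar _ inter_subset_right
            ((convex_Pl _ _).inter (convex_Pl _ _)).isPreconnected ?_ ?_
          · rw [Set.disjoint_left]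
            rintro w ⟨hw, -⟩ hwκ
            exact Set.disjoint_left.1 hqE hw (hEb.1 hwκ)
          · intro hB
            refine hunb k hk1 z h1 (hB.subset ?_)
            rintro _ ⟨r, _, rfl⟩
            refine ⟨?_, ?_⟩
            · show (z + r • (Pi.single k (1:ℝ) : V)) q.1 = q.2
              rw [Pi.add_apply, Pi.smul_apply, Pi.single_eq_of_ne hk1.symm, smul_zero, add_zero]
              exact h1
            · show (z + r • (Pi.single k (1:ℝ) : V)) i = t
              rw [Pi.add_apply, Pi.smul_apply, Pi.single_eq_of_ne hk2.symm, smul_zero, add_zero]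
              exact R.DP h2
        exact Set.disjoint_left.1 hline ⟨h1, R.DP h2⟩ h2
    have hqu : ¬ Bornology.IsBounded (Pl q.1 q.2) := by
      intro hB
      obtain ⟨k, hk⟩ : ∃ k : Fin 3, k ≠ q.1 := by
        have : ∀ a : Fin 3, ∃ k : Fin 3, k ≠ a := by decide
        exact this _
      refine hunb k hk y hyq (hB.subset ?_)
      rintro _ ⟨r, _, rfl⟩
      show (y + r • (Pi.single k (1:ℝ) : V)) q.1 = q.2
      rw [Pi.add_apply, Pi.smul_apply, Pi.single_eq_of_ne hk.symm, smul_zero, add_zero]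
      exact hyq
    exact Set.disjoint_left.1 (R.miss _ (convex_Pl _ _).isPreconnected hqu hqE hqD) hyq hyb
  -- the rest of the trace
  set T : Set V := {y | y ∈ Λ ∧ h.invFun y ∈ K ∧ y i = t ∧ y ∉ D} with hT
  have hTb : Disjoint b (closure T) := by
    rw [Set.disjoint_left]
    intro y hyb hyT
    have hyΛ := hbΛ hyb
    have hyP : y ∈ Pl i t :=
      closure_minimal (fun z hz => hz.2.2.1) (isClosed_Pl i t) hyT
    have hyD : y ∈ D := by rw [← R.inter]; exact ⟨hyb, hyP⟩
    by_cases hyκ : y ∈ κ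
    · obtain ⟨x, hx, rfl⟩ := hyκ
      have hcont : ContinuousAt h.invFun (h.toFun x) :=
        h.cont_inv.continuousAt (hΛ.mem_nhds hyΛ)
      have hxinv : h.invFun (h.toFun x) = x := h.left_inv (hE0Ω (hcE hx))
      have hev : ∀ᶠ z in 𝓝 (h.toFun x), h.invFun z ∈ K → h.invFun z ∉ E0 →
          s * (h.toFun (h.invFun z) i - t) < 0 := by
        have := sgn x (hcE hx)
        rw [← hxinv] at this
        exact hcont.eventually this
      obtain ⟨z, hz, hzT⟩ := (mem_closure_iff_frequently.1 hyT).and_eventually hev |>.exists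
      have hzz : h.toFun (h.invFun z) = z := h.right_inv hz.1
      rw [hzz] at hzT
      by_cases hzE : h.invFun z ∈ E0
      · have h1 : h.invFun z ∈ c := (hc _ hzE).1 (by rw [hzz]; exact hz.2.2.1)
        exact hz.2.2.2 (hκD ⟨_, h1, hzz⟩)
      · have := hzT hz.2.1 hzE
        rw [hz.2.2.1, sub_self, mul_zero] at this
        exact lt_irrefl _ this
    · have := closure_minimal (s := T) (fun z hz => (⟨hz.2.2.1, fun h' => hz.2.2.2 h'.1⟩ :
        z ∈ Pl i t \ (D \ κ))) R.cl hyT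
      exact this.2 ⟨hyD, hyκ⟩
  -- the part of `K` outside the ball on the upper side
  set B' : Set V := {z | z ∈ Λ ∧ h.invFun z ∈ K ∧ z ∉ b ∧ 0 ≤ s * (z i - t)} with hB'
  have hB'b : Disjoint b (closure B') := by
    rw [Set.disjoint_left]
    intro y hyb hyB
    by_cases hyE : y ∈ Eh
    · have hyΛ := hEhΛ hyE
      have hcont : ContinuousAt h.invFun y := h.cont_inv.continuousAt (hΛ.mem_nhds hyΛ)
      have hev : ∀ᶠ z in 𝓝 y, h.invFun z ∈ K → h.invFun z ∉ E0 →
          s * (h.toFun (h.invFun z) i - t) < 0 := hcont.eventually (sgn _ (hinvE y hyE))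
      obtain ⟨z, hz, hz2⟩ := (mem_closure_iff_frequently.1 hyB).and_eventually hev |>.exists
      have hzz : h.toFun (h.invFun z) = z := h.right_inv hz.1
      rw [hzz] at hz2
      have := hz2 hz.2.1 fun h' => hz.2.2.1 (hEb' ⟨_, h', hzz⟩)
      exact absurd this (not_lt.2 hz.2.2.2)
    · by_cases hyD : y ∈ D
      · have hyκ : y ∉ κ := fun h' => hyE (hEb.1 h')
        obtain ⟨z, hz, hz2⟩ := (mem_closure_iff_frequently.1 hyB).and_eventually
          (R.near hyD hyκ) |>.exists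
        exact hz.2.2.1 (hz2 hz.2.2.2)
      · have hyU : y ∈ b \ (D ∪ Eh) := ⟨hyb, fun h' => h'.elim hyD hyE⟩
        obtain ⟨z, hz, hz2⟩ := (mem_closure_iff_frequently.1 hyB).and_eventually
          (R.inner.1.mem_nhds hyU) |>.exists
        exact hz.2.2.1 hz2.1
  -- the lower side away from `D`
  set F : Set V := {z | s * (z i - t) ≤ 0} \ G2 with hF
  have hFc : IsClosed F :=
    (isClosed_le (by fun_prop) continuous_const).sdiff hG2
  have hFb : Disjoint b F := by
    rw [Set.disjoint_left]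
    rintro y hyb ⟨hy1, hy2⟩
    by_cases hyD : y ∈ D
    · exact hy2 (hDG2 hyD)
    · exact absurd (R.side y hyb hyD) (not_lt.2 hy1)
  set W1 : Set V := G ∩ Oᶜ ∩ (closure T)ᶜ ∩ (closure B')ᶜ ∩ Fᶜ with hW1
  have hW1o : IsOpen W1 := (((hG.inter hOc.isOpen_compl).inter isClosed_closure.isOpen_compl).inter
    isClosed_closure.isOpen_compl).inter hFc.isOpen_compl
  have hbW1 : b ⊆ W1 := fun y hy => ⟨⟨⟨⟨hbG hy, fun h' => Set.disjoint_left.1 hOb h' hy⟩,
    Set.disjoint_left.1 hTb hy⟩, Set.disjoint_left.1 hB'b hy⟩, Set.disjoint_left.1 hFb hy⟩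
  obtain ⟨O', hO'c, hDO', hO'W, hO'P, hO'cl⟩ := exists_planeNbhd hW1o R.hD.isPreconnected
    ((hE0.conSphere.nonempty.image h.toFun).mono hκD)
    (hDb.trans hbW1) R.DP
  set W : Set V := W1 ∩ (Pl i t \ O')ᶜ with hW
  have hWo : IsOpen W := hW1o.inter hO'cl.isOpen_compl
  have hbW : b ⊆ W := fun y hy => ⟨hbW1 hy, fun h' => h'.2 (hDO' (by
    rw [← R.inter]; exact ⟨hy, h'.1⟩))⟩
  have hWP : ∀ y ∈ W, y i = t → y ∈ O' := by
    intro y hy hyt
    by_contra h'
    exact hy.2 ⟨hyt, h'⟩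
  have hWG2 : ∀ y ∈ W, s * (y i - t) ≤ 0 → y ∈ G2 := by
    intro y hy hyt
    by_contra h'
    exact hy.1.2 ⟨hyt, h'⟩
  obtain ⟨L, hLc, hbL, hLW⟩ := exists_compact_between R.cpt hWo hbW
  obtain ⟨Θ1, e1, e2, e3, e4⟩ := R.exists_push isOpen_interior hbL
  have e1' : ∀ x ∉ L, Θ1.toFun x = x := fun x hx => e1 x fun h' => hx (interior_subset h')
  have e1L : ∀ x ∈ L, Θ1.toFun x ∈ L := by
    intro x hx
    by_contra h'
    have h2 : Θ1.toFun x = x := Θ1.injective (e1' _ h')
    exact h' (by rw [h2]; exact hx)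
  -- points below stay below
  set A : Set V := {y : V | s * (y i - t) < 0} with hA
  have hAconv : Convex ℝ A := convex_low i s t
  have hcont0 : Continuous fun y : V => s * (y i - t) := by fun_prop
  have hAo : IsOpen A := isOpen_lt hcont0 continuous_const
  have hAne : ∀ y ∈ A, Θ1.toFun y ∉ Pl i t := by
    intro y hy hyP
    by_cases hyD : Θ1.toFun y ∈ D
    · rw [← e4] at hyD
      obtain ⟨z, hz, hzy⟩ := hyD
      have : z = y := Θ1.injective hzy
      subst this
      have h1 := R.sub (Or.inr hz)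
      by_cases h2 : z ∈ D
      · have h3 : z i = t := R.DP h2
        have h4 : s * (z i - t) < 0 := hy
        rw [h3, sub_self, mul_zero] at h4
        exact lt_irrefl _ h4
      · exact lt_asymm (R.side z h1 h2) hy
    · have h1 := e2 _ hyP hyD
      have h2 : Θ1.toFun y = y := Θ1.injective h1
      rw [h2] at hyP
      have h3 : s * (y i - t) < 0 := hy
      rw [show y i = t from hyP, sub_self, mul_zero] at h3
      exact lt_irrefl _ h3
  have hAmap : ∀ y ∈ A, Θ1.toFun y ∈ A := by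
    have hpre : IsPreconnected (Θ1.toFun '' A) :=
      hAconv.isPreconnected.image _ Θ1.continuous.continuousOn
    -- a fixed point
    obtain ⟨y0, hy0A, hy0⟩ : ∃ y0 ∈ A, Θ1.toFun y0 = y0 := by
      by_contra hcon
      push Not at hcon
      have hAL : A ⊆ L := fun y hy => by
        by_contra h'; exact hcon y hy (e1' y h')
      refine ray_unbounded (y := fun _ => t - s) (v := Pi.single i (-s)) ?_
        (hLc.isBounded.subset (Subset.trans ?_ hAL))
      · intro h0
        have := congrFun h0 i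
        simp only [Pi.single_eq_same, Pi.zero_apply, neg_eq_zero] at this
        exact hs0 this
      · rintro _ ⟨r, hr, rfl⟩
        show s * (((fun _ => t - s : V) + r • (Pi.single i (-s) : V)) i - t) < 0
        simp only [Pi.add_apply, Pi.smul_apply, Pi.single_eq_same, smul_eq_mul]
        have : (0:ℝ) ≤ r := hr
        have e : s * (t - s + r * -s - t) = -(1 + r) * (s * s) := by ring
        rw [e, hss]; linarith
    have hsub : Θ1.toFun '' A ⊆ A ∪ {y : V | 0 < s * (y i - t)} := by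
      rintro _ ⟨y, hy, rfl⟩
      have h1 := hAne y hy
      have h2 : s * (Θ1.toFun y i - t) ≠ 0 := mul_ne_zero hs0 (sub_ne_zero.2 h1)
      rcases lt_or_gt_of_ne h2 with h3 | h3
      · exact Or.inl h3
      · exact Or.inr h3
    rcases hpre.subset_or_subset hAo (isOpen_lt continuous_const hcont0) (by
        rw [Set.disjoint_left]; intro y h1 h2
        exact lt_asymm (show s * (y i - t) < 0 from h1) h2) hsub with h1 | h1
    · exact fun y hy => h1 (mem_image_of_mem _ hy)
    · exfalso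
      have h2 : (0:ℝ) < s * (Θ1.toFun y0 i - t) := h1 (mem_image_of_mem _ hy0A)
      rw [hy0] at h2
      exact lt_asymm h2 hy0A
  -- the ball goes to the lower side
  have hcl : ∀ y ∈ closure A, Θ1.toFun y ∈ closure A := by
    intro y hy
    exact closure_mono (s := Θ1.toFun '' A) (by rintro _ ⟨z, hz, rfl⟩; exact hAmap z hz)
      (image_closure_subset_closure_image Θ1.continuous (mem_image_of_mem _ hy))
  have hclA : closure A ⊆ {y : V | s * (y i - t) ≤ 0} :=
    closure_minimal (fun y hy => (show s * (y i - t) < 0 from hy).le)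
      (isClosed_le hcont0 continuous_const)
  have hDclA : D ⊆ closure A := by
    intro y hy
    have hyt : y i = t := R.DP hy
    refine Metric.mem_closure_iff.2 fun ε hε => ⟨y + Pi.single i (-s * (ε / 2)), ?_, ?_⟩
    · show s * ((y + Pi.single i (-s * (ε / 2)) : V) i - t) < 0
      rw [Pi.add_apply, Pi.single_eq_same, hyt]
      have e : s * (t + -s * (ε / 2) - t) = -(s * s) * (ε / 2) := by ring
      rw [e, hss]; linarith
    · rw [dist_eq_norm, show y - (y + Pi.single i (-s * (ε / 2))) = -(Pi.single i (-s * (ε / 2)) : V)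
        by abel, norm_neg, Pi.norm_single, Real.norm_eq_abs, abs_mul, abs_neg,
        abs_of_pos (half_pos hε)]
      have : |s| = 1 := by rcases hs with h | h <;> rw [h] <;> norm_num
      rw [this, one_mul]; linarith
  have hbmap : ∀ y ∈ b, s * (Θ1.toFun y i - t) ≤ 0 := by
    obtain ⟨hUo, hUc, hUd⟩ := R.inner
    set U : Set V := b \ (D ∪ Eh) with hU
    have hUne : ∀ y ∈ U, Θ1.toFun y ∉ Pl i t := by
      intro y hy hyP
      by_cases hyD : Θ1.toFun y ∈ D
      · rw [← e4] at hyD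
        obtain ⟨z, hz, hzy⟩ := hyD
        have : z = y := Θ1.injective hzy
        subst this
        exact hy.2 (Or.inr hz)
      · have h1 : Θ1.toFun y = y := Θ1.injective (e2 _ hyP hyD)
        rw [h1] at hyP
        have : y ∈ D := by rw [← R.inter]; exact ⟨hy.1, hyP⟩
        exact hy.2 (Or.inl this)
    -- a point of `U` which goes to `A`
    obtain ⟨d, hdD, hdκ⟩ := R.hD.diff_nonempty
    have hdE : d ∉ Eh := fun h' => hdκ (R.DE ▸ ⟨hdD, h'⟩)
    have hd1 : Θ1.toFun d ∈ A := by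
      have h1 : s * (Θ1.toFun d i - t) ≤ 0 := hclA (hcl d (hDclA hdD))
      rcases h1.lt_or_eq with h2 | h2
      · exact h2
      · exfalso
        have h3 : Θ1.toFun d ∈ Pl i t := by
          rcases mul_eq_zero.1 h2 with h4 | h4
          · exact absurd h4 hs0
          · exact sub_eq_zero.1 h4
        by_cases h4 : Θ1.toFun d ∈ D
        · rw [← e4] at h4
          obtain ⟨z, hz, hzd⟩ := h4
          exact hdE (Θ1.injective hzd ▸ hz)
        · have h5 : Θ1.toFun d = d := Θ1.injective (e2 _ h3 h4)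
          rw [h5] at h4
          exact h4 hdD
    obtain ⟨u, hu1, hu2⟩ : ∃ u ∈ Θ1.toFun ⁻¹' A, u ∈ U :=
      mem_closure_iff.1 (hUd (hDb hdD)) _ (hAo.preimage Θ1.continuous) hd1
    have hsub : Θ1.toFun '' U ⊆ A ∪ {y : V | 0 < s * (y i - t)} := by
      rintro _ ⟨y, hy, rfl⟩
      have h1 := hUne y hy
      have h2 : s * (Θ1.toFun y i - t) ≠ 0 := mul_ne_zero hs0 (sub_ne_zero.2 h1)
      rcases lt_or_gt_of_ne h2 with h3 | h3
      · exact Or.inl h3
      · exact Or.inr h3
    have hUA : Θ1.toFun '' U ⊆ A := by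
      rcases (hUc.image _ Θ1.continuous.continuousOn).subset_or_subset hAo
        (isOpen_lt continuous_const hcont0) (by
          rw [Set.disjoint_left]; intro y h1 h2
          exact lt_asymm (show s * (y i - t) < 0 from h1) h2) hsub with h1 | h1
      · exact h1
      · exfalso
        have h2 : (0:ℝ) < s * (Θ1.toFun u i - t) := h1 (mem_image_of_mem _ hu2)
        exact lt_asymm h2 hu1
    intro y hy
    exact hclA (closure_mono hUA
      (image_closure_subset_closure_image Θ1.continuous (mem_image_of_mem _ (hUd hy))))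
  -- the bad set
  set B : Set V := {z | z ∈ Λ ∧ h.invFun z ∈ K ∧ z ∉ Eh ∧ ¬ s * (z i - t) < 0} with hB
  have hBE : Disjoint Eh (closure B) := by
    rw [Set.disjoint_left]
    intro y hyE hyB
    have hyΛ := hEhΛ hyE
    have hcont : ContinuousAt h.invFun y := h.cont_inv.continuousAt (hΛ.mem_nhds hyΛ)
    have hev : ∀ᶠ z in 𝓝 y, h.invFun z ∈ K → h.invFun z ∉ E0 →
        s * (h.toFun (h.invFun z) i - t) < 0 := hcont.eventually (sgn _ (hinvE y hyE))
    obtain ⟨z, hz, hz2⟩ := (mem_closure_iff_frequently.1 hyB).and_eventually hev |>.exists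
    have hzz : h.toFun (h.invFun z) = z := h.right_inv hz.1
    rw [hzz] at hz2
    exact hz.2.2.2 (hz2 hz.2.1 fun h' => hz.2.2.1 ⟨_, h', hzz⟩)
  set N : Set V := W ∩ (Θ1.toFun '' closure B)ᶜ ∩ Θ1.toFun '' G1 with hN
  have hNo : IsOpen N :=
    (hWo.inter (Θ1.toHomeomorph.isClosedMap _ isClosed_closure).isOpen_compl).inter
      (Θ1.toHomeomorph.isOpenMap _ hG1)
  have hDN : D ⊆ N := by
    intro y hy
    have hy' := hy
    rw [← e4] at hy
    obtain ⟨w, hw, hwy⟩ := hy
    refine ⟨⟨hbW (hDb hy'), ?_⟩, ⟨w, hEG1 hw, hwy⟩⟩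
    rintro ⟨z, hz, hzy⟩
    have : w = z := Θ1.injective (hwy.trans hzy.symm)
    exact Set.disjoint_left.1 hBE hw (this ▸ hz)
  obtain ⟨χ, K0, hK0, hχc, hχcon, hχ0, hχ1, hχD, ⟨Cχ, hCχ, hCχN, hχC⟩, hχL⟩ :=
    exists_conCut R.hD.isCompact hNo hDN
  set δ : ℝ := 1 / (2 * (K0 + 1)) with hδ
  have hδ0 : 0 < δ := by rw [hδ]; positivity
  have hsabs : |s| = 1 := by rcases hs with h | h <;> rw [h] <;> norm_num
  obtain ⟨σ, hσ⟩ := exists_shift i hχc hχcon hχL (a := -s * δ) (by
    rw [abs_mul, abs_neg, hsabs, one_mul, abs_of_pos hδ0, hδ]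
    exact abs_mul_lt_one hK0)
  have hσi : ∀ y, σ.toFun y i = y i + -s * δ * χ y := by
    intro y; rw [hσ, Pi.add_apply, Pi.single_eq_same]
  have hσ0 : ∀ y, χ y = 0 → σ.toFun y = y := by
    intro y hy; rw [hσ, hy, mul_zero, Pi.single_zero, add_zero]
  have hσC : ∀ y ∈ Cχ, σ.toFun y ∈ Cχ := by
    intro y hy
    by_contra h'
    have h2 : σ.toFun y = y := σ.injective (hσ0 _ (hχC _ h'))
    exact h' (by rw [h2]; exact hy)
  -- the lower side of `W` goes to `G2`
  have hσG2 : ∀ z ∈ W, s * (z i - t) ≤ 0 → σ.toFun z ∈ G2 := by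
    intro z hz hzs
    by_cases hzC : z ∈ Cχ
    · refine hWG2 _ (hCχN (hσC z hzC)).1.1 ?_
      rw [hσi, show s * (z i + -s * δ * χ z - t) = s * (z i - t) - (s * s) * δ * χ z by ring, hss,
        one_mul]
      have := mul_nonneg hδ0.le (hχ0 z)
      linarith
    · rw [hσ0 z (hχC z hzC)]
      exact hWG2 z hz hzs
  set Θ : ConHomeo (univ : Set V) (univ : Set V) := Θ1.trans σ with hΘ
  have hΘa : ∀ y, Θ.toFun y = σ.toFun (Θ1.toFun y) := fun _ => rfl
  set C : Set V := L ∪ Cχ with hC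
  have hCW : C ⊆ W := union_subset hLW (hCχN.trans (inter_subset_left.trans inter_subset_left))
  have hCc : IsCompact C := hLc.union hCχ
  have hΘC : ∀ y ∉ C, Θ.toFun y = y := by
    intro y hy
    rw [hΘa, e1' y fun h' => hy (Or.inl h'), hσ0 y (hχC y fun h' => hy (Or.inr h'))]
  have hnear : ∀ y ∉ C, ∀ᶠ z in 𝓝 y, Θ.toFun z = z := by
    intro y hy
    filter_upwards [hCc.isClosed.isOpen_compl.mem_nhds hy] with z hz
    exact hΘC z hz
  refine ⟨Θ, O', hO'c, hDO', hO'P, ⟨C, hCc, fun y hy => (hCW hy).1.1.1.1.1, hΘC⟩, ?_, ?_, ?_, ?_, ?_⟩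
  · intro q hq hqne y hy
    have hyO : Θ.toFun y ∈ O := mem_iUnion₂.2 ⟨q, ⟨hq, hqne⟩, hy⟩
    have h1 : Θ.toFun y ∉ C := fun h' => (hCW h').1.1.1.1.2 hyO
    have h2 : Θ.toFun y = y := Θ.injective (hΘC _ h1)
    rw [h2] at h1
    exact hnear y h1
  · intro x hx hxK hxt
    set y := h.toFun x with hy
    have hyΛ : y ∈ Λ := h.mapsTo hx
    have hyinv : h.invFun y = x := h.left_inv hx
    rw [hΘa, hσi] at hxt
    by_cases hχy : χ (Θ1.toFun y) = 0
    · rw [hχy, mul_zero, add_zero] at hxt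
      have h1 : Θ1.toFun y ∉ D := fun h' => by
        rw [hχD _ h'] at hχy; exact one_ne_zero hχy
      have h2 : Θ1.toFun y = y := Θ1.injective (e2 _ hxt h1)
      rw [h2] at hxt h1
      have h3 : y ∈ T := ⟨hyΛ, by rw [hyinv]; exact hxK, hxt, h1⟩
      exact ⟨fun h' => (hO'W h').1.1.2 (subset_closure h3),
        hnear y fun h' => (hCW h').1.1.1.2 (subset_closure h3)⟩
    · exfalso
      have h1 : Θ1.toFun y ∈ N := hCχN (by by_contra h'; exact hχy (hχC _ h'))
      have h2 : y ∉ B := fun h' => h1.1.2 (mem_image_of_mem _ (subset_closure h'))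
      have h3 : 0 < χ (Θ1.toFun y) := lt_of_le_of_ne (hχ0 _) (Ne.symm hχy)
      have h4 : s * (Θ1.toFun y i - t) = δ * χ (Θ1.toFun y) := by
        have : Θ1.toFun y i = t + s * δ * χ (Θ1.toFun y) := by linarith
        rw [this, show s * (t + s * δ * χ (Θ1.toFun y) - t) = (s * s) * δ * χ (Θ1.toFun y) by ring,
          hss, one_mul]
      have h5 : 0 < s * (Θ1.toFun y i - t) := by rw [h4]; positivity
      by_cases h6 : y ∈ Eh
      · have h7 : Θ1.toFun y ∈ D := by rw [← e4]; exact mem_image_of_mem _ h6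
        rw [show Θ1.toFun y i = t from R.DP h7, sub_self, mul_zero] at h5
        exact lt_irrefl _ h5
      · have h7 : s * (y i - t) < 0 := by
          by_contra h8
          exact h2 ⟨hyΛ, by rw [hyinv]; exact hxK, h6, h8⟩
        exact lt_asymm h5 (hAmap y h7)
  · intro x hx hxt
    rw [hΘa, hσi] at hxt
    have h1 : Θ1.toFun (h.toFun x) ∈ D := by
      rw [← e4]; exact mem_image_of_mem _ (mem_image_of_mem _ hx)
    rw [show Θ1.toFun (h.toFun x) i = t from R.DP h1, hχD _ h1, mul_one] at hxt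
    have : s * δ = 0 := by linarith
    rcases mul_eq_zero.1 this with h2 | h2
    · exact hs0 h2
    · exact hδ0.ne' h2
  · intro y hy
    by_cases hχy : χ (Θ1.toFun y) = 0
    · left
      have h0 : Θ.toFun y = Θ1.toFun y := by rw [hΘa, hσ0 _ hχy]
      rw [h0] at hy ⊢
      have h1 : Θ1.toFun y ∉ D := fun h' => by
        rw [hχD _ h'] at hχy; exact one_ne_zero hχy
      exact Θ1.injective (e2 _ hy h1)
    · right
      have h1 : Θ1.toFun y ∈ Cχ := by by_contra h'; exact hχy (hχC _ h')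
      refine ⟨?_, hWP _ (hCχN (hσC _ h1)).1.1 hy⟩
      obtain ⟨w, hw, hwy⟩ := (hCχN h1).2
      exact Θ1.injective hwy ▸ hw
  · intro x hx hxK hne
    set y := h.toFun x with hy
    have hyC : y ∈ C := by by_contra h'; exact hne (hΘC y h')
    have hyW := hCW hyC
    have hyΛ : y ∈ Λ := h.mapsTo hx
    have hyinv : h.invFun y = x := h.left_inv hx
    have hΘ1W : Θ1.toFun y ∈ W := by
      by_cases hyL : y ∈ L
      · exact hLW (e1L y hyL)
      · rw [e1' y hyL]; exact hyW
    rw [hΘa]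
    apply hσG2 _ hΘ1W
    by_cases hyb : y ∈ b
    · exact hbmap y hyb
    · have h1 : s * (y i - t) < 0 := by
        by_contra h2
        exact hyW.1.1.2 (subset_closure ⟨hyΛ, by rw [hyinv]; exact hxK, hyb, not_lt.1 h2⟩)
      exact (hAmap y h1).le

end Vale.Agent.P073.H238
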