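import Vale.Agent.P073.H238.Rem6
import Vale.Agent.P073.H579.Arcs
import Vale.Agent.P073.H579.Sides

/-!
# P073, H238 (A08, STEP S): pairwise disjoint traces on a convex face, innermost circles
-/

open Set Metric Topology Filter

namespace Vale.Agent.P073.H238

open _root_.P073 _root_.P073.TR _root_.P073.SCH _root_.P073.H339

/-- the union of the traces -/
def un (C : Set H579.P) (u : Fin 3 → H579.P → ℝ) (Lv : Set (Fin 3 × ℝ)) : Set H579.P :=
  {z | z ∈ C ∧ ∃ q ∈ Lv, u q.1 z = q.2}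

/-- finitely many regular levels with pairwise disjoint traces on a convex face -/
structure Fam (C : Set H579.P) (u : Fin 3 → H579.P → ℝ) (Lv : Set (Fin 3 × ℝ)) : Prop where
  fin : Lv.Finite
  reg : ∀ q ∈ Lv, H579.Reg1 C (u q.1) {q.2}
  disj : ∀ z ∈ C, ∀ q ∈ Lv, ∀ q' ∈ Lv, u q.1 z = q.2 → u q'.1 z = q'.2 → q = q'

namespace Fam

variable {C : Set H579.P} {u : Fin 3 → H579.P → ℝ} {Lv : Set (Fin 3 × ℝ)}

theorem circle_nonempty {σ : Set H579.P} (h : IsCircle σ) : σ.Nonempty := by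
  obtain ⟨φ⟩ := h
  exact ⟨φ.toFun (1, 0), φ.mapsTo (by simp [Prod.norm_def])⟩

theorem near (h : Fam C u Lv) {x : H579.P} (hx : x ∈ C) {q : Fin 3 × ℝ} (hq : q ∈ Lv)
    (hu : u q.1 x = q.2) :
    ∀ᶠ y in 𝓝 x, (y ∈ un C u Lv ↔ y ∈ H579.trace C (u q.1) {q.2}) := by
  have h1 : ∀ᶠ y in 𝓝 x, ∀ q' ∈ Lv \ {q}, u q'.1 y ≠ q'.2 := by
    refine (eventually_all_finite (h.fin.subset sdiff_subset)).2 fun q' hq' => ?_
    refine ((h.reg q' hq'.1).cont x hx).eventually_ne fun h2 => hq'.2 ?_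
    exact (h.disj x hx q hq q' hq'.1 hu h2).symm
  filter_upwards [h1] with y hy
  constructor
  · rintro ⟨hyC, q', hq', h2⟩
    by_cases h3 : q' = q
    · subst h3; exact ⟨hyC, h2⟩
    · exact absurd h2 (hy q' ⟨hq', h3⟩)
  · rintro ⟨hyC, h2⟩
    exact ⟨hyC, q, hq, h2⟩

theorem isClosed_trace (h : Fam C u Lv) (hc : IsCompact C) {q : Fin 3 × ℝ} (hq : q ∈ Lv) :
    IsClosed (H579.trace C (u q.1) {q.2}) := by
  have hcu : ContinuousOn (u q.1) C := fun x hx => ((h.reg q hq).cont x hx).continuousWithinAt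
  exact hcu.preimage_isClosed_of_isClosed hc.isClosed isClosed_singleton

theorem curve (h : Fam C u Lv) (hC : Convex ℝ C) (hi : (interior C).Nonempty) (hc : IsCompact C)
    (hl : LocCone C) : Curve (un C u Lv) := by
  refine ⟨?_, ?_, ?_⟩
  · have e : un C u Lv = ⋃ q ∈ Lv, H579.trace C (u q.1) {q.2} := by
      ext z
      simp only [un, H579.trace, mem_iUnion, mem_ofPred_eq, mem_singleton_iff, exists_prop]
      constructor
      · rintro ⟨h1, q, h2, h3⟩; exact ⟨q, h2, h1, h3⟩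
      · rintro ⟨q, h2, h1, h3⟩; exact ⟨h1, q, h2, h3⟩
    rw [e]
    exact h.fin.isCompact_biUnion fun q hq =>
      hc.of_isClosed_subset (h.isClosed_trace hc hq) fun z hz => hz.1
  · rintro x ⟨hx, q, hq, hu⟩
    exact (locConeAt_congr (h.near hx hq hu)).2
      (((h.reg q hq).curve hC hi hc hl).cone x ⟨hx, hu⟩)
  · rintro x ⟨hx, q, hq, hu⟩
    rw [DM.dirs_congr (h.near hx hq hu)]
    exact ((h.reg q hq).curve hC hi hc hl).card x ⟨hx, hu⟩

theorem web (h : Fam C u Lv) (hC : Convex ℝ C) (hi : (interior C).Nonempty) (hc : IsCompact C)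
    (hl : LocCone C) : H579.Web C (fun i => bif i then ∅ else un C u Lv) := by
  refine ⟨hC, hc.isClosed, ?_, ?_, ?_, ?_⟩
  · rintro (_ | _) x hx
    · exact hx.1
    · exact absurd hx (notMem_empty x)
  · rintro (_ | _)
    · exact h.curve hC hi hc hl
    · exact ⟨isCompact_empty, fun x hx => absurd hx (notMem_empty x),
        fun x hx => absurd hx (notMem_empty x)⟩
  · rintro (_ | _) x hx
    · obtain ⟨hxC, q, hq, hu⟩ := hx
      show x ∈ frontier C ↔ (dirs (un C u Lv) x).ncard = 1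
      rw [DM.dirs_congr (h.near hxC hq hu)]
      have h3 := (h.reg q hq).ncard hC hi ⟨hxC, hu⟩
      constructor
      · intro hxf
        exact h3.2 hxf.2
      · intro h4
        refine ⟨subset_closure hxC, fun h5 => ?_⟩
        have := h3.1 h5
        omega
    · exact absurd hx (notMem_empty x)
  · intro x _ hx
    exact absurd hx (notMem_empty x)

/-- the connected piece near a regular point -/
theorem conn {C : Set H579.P} {w : H579.P → ℝ} {t : ℝ} (hr : H579.Reg1 C w {t}) (hl : LocCone C)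
    {x : H579.P} (hx : x ∈ C) (hw : w x = t) (s : ℝ) (hs : s ≠ 0) {O : Set H579.P} (hO : O ∈ 𝓝 x) :
    ∃ A ⊆ O, IsPreconnected A ∧ (∀ y ∈ A, y ∈ C ∧ 0 < s * (w y - t)) ∧
      ∀ᶠ y in 𝓝 x, y ∈ C → 0 < s * (w y - t) → y ∈ A := by
  obtain ⟨σ, r, hb⟩ := hr.box x hx hw
  rcases lt_or_gt_of_ne hs with h0 | h0
  · obtain ⟨O', hO', A, h1, h2, h3, h4⟩ := H579.FlowBox.exists_conn' hb (i := ()) hx (hl x)
      (hr.con x hx) (hr.cont x hx) hO
    refine ⟨A, h1, h2, fun y hy => ⟨(h3 y hy).1, ?_⟩, ?_⟩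
    · have := (h3 y hy).2
      rw [hw] at this
      exact mul_pos_of_neg_of_neg h0 (by linarith)
    · filter_upwards [hO'] with y hy hyC hyp
      refine h4 y hy hyC ?_
      rw [hw]
      by_contra h5
      have := mul_nonpos_of_nonpos_of_nonneg h0.le (by linarith : (0:ℝ) ≤ w y - t)
      linarith
  · obtain ⟨O', hO', A, h1, h2, h3, h4⟩ := H579.FlowBox.exists_conn hb (i := ()) hx (hl x)
      (hr.con x hx) (hr.cont x hx) hO
    refine ⟨A, h1, h2, fun y hy => ⟨(h3 y hy).1, ?_⟩, ?_⟩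
    · have := (h3 y hy).2
      rw [hw] at this
      exact mul_pos h0 (by linarith)
    · filter_upwards [hO'] with y hy hyC hyp
      refine h4 y hy hyC ?_
      rw [hw]
      have := (mul_pos_iff_of_pos_left h0).1 hyp
      linarith

/-- **innermost circles**: no circle, or a clean disc bounded by a circle of one level. -/
theorem exists_clean (h : Fam C u Lv) (hC : Convex ℝ C) (hi : (interior C).Nonempty)
    (hc : IsCompact C) (hl : LocCone C) :
    (∀ σ, IsCircle σ → ¬ σ ⊆ un C u Lv) ∨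
      ∃ q ∈ Lv, ∃ E, AmbDisc E ∧ E ⊆ interior C ∧ (∀ z ∈ E, (u q.1 z = q.2 ↔ z ∈ frontier E)) ∧
        (∀ z ∈ E, ∀ q' ∈ Lv, q' ≠ q → u q'.1 z ≠ q'.2) ∧
        ∀ s : ℝ, (∀ z ∈ E, z ∉ frontier E → 0 < s * (u q.1 z - q.2)) →
          ∀ z ∈ frontier E, ∀ᶠ w in 𝓝 z, w ∉ E → s * (u q.1 w - q.2) < 0 := by
  rcases H579.good_or_cleanDisc (h.web hC hi hc hl) with hg | ⟨E, hE⟩
  · exact Or.inl fun σ hσ hs => hg.circ false σ hσ hs
  right
  have hE1 : AmbDisc E := hE.disc
  have hEC : E ⊆ C := hE.int.trans interior_subset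
  have hfE : frontier E ⊆ E := hE1.isClosed.frontier_subset
  have hfu : frontier E ⊆ un C u Lv := by
    rcases hE.bd with ⟨i, h1, -⟩ | ⟨a, b, p, q, ha, hb, -, hb2, -⟩
    · cases i
      · exact h1
      · exfalso
        obtain ⟨x, hx⟩ := circle_nonempty hE1.frontier_isCircle
        exact notMem_empty x (h1 hx)
    · exfalso
      exact notMem_empty p (hb2 hb.left_mem)
  obtain ⟨x0, hx0⟩ := circle_nonempty hE1.frontier_isCircle
  obtain ⟨hx0C, q, hq, hu0⟩ := hfu hx0
  -- the boundary is in one level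
  have hpre : IsPreconnected (frontier E) := AmbDisc.isPreconnected_frontier hE1
  have hfq : ∀ z ∈ frontier E, u q.1 z = q.2 := by
    set Z1 : Set H579.P := H579.trace C (u q.1) {q.2} with hZ1
    set Z2 : Set H579.P := ⋃ q' ∈ Lv \ {q}, H579.trace C (u q'.1) {q'.2} with hZ2
    have c1 : IsClosed Z1 := h.isClosed_trace hc hq
    have c2 : IsClosed Z2 := (h.fin.subset sdiff_subset).isClosed_biUnion fun q' hq' =>
      h.isClosed_trace hc hq'.1
    intro z hz
    by_contra hne
    have hcov : frontier E ⊆ Z1 ∪ Z2 := by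
      intro y hy
      obtain ⟨hyC, q', hq', hu'⟩ := hfu hy
      by_cases h3 : q' = q
      · subst h3; exact Or.inl ⟨hyC, hu'⟩
      · exact Or.inr (mem_iUnion₂.2 ⟨q', ⟨hq', h3⟩, hyC, hu'⟩)
    have hz2 : z ∈ Z2 := (hcov hz).resolve_left fun h' => hne h'.2
    obtain ⟨y, -, hy1, hy2⟩ := isPreconnected_closed_iff.1 hpre _ _ c1 c2 hcov
      ⟨x0, hx0, hx0C, hu0⟩ ⟨z, hz, hz2⟩
    obtain ⟨q', hq', hyC, hy3⟩ := mem_iUnion₂.1 hy2
    exact hq'.2 (h.disj y hyC q hq q' hq'.1 hy1.2 hy3).symm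
  have hcl : ∀ z ∈ E, ∀ q' ∈ Lv, u q'.1 z = q'.2 → z ∈ frontier E := by
    intro z hz q' hq' hu'
    by_contra hzf
    have hzi : z ∈ interior E := by
      by_contra h'
      exact hzf ⟨subset_closure hz, h'⟩
    exact Set.disjoint_left.1 (hE.clean false) ⟨hEC hz, q', hq', hu'⟩ hzi
  refine ⟨q, hq, E, hE1, hE.int, fun z hz => ⟨hcl z hz q hq, hfq z⟩, ?_, ?_⟩
  · intro z hz q' hq' hne hu'
    exact hne (h.disj z (hEC hz) q hq q' hq' (hfq z (hcl z hz q' hq' hu')) hu').symm
  · intro s hs z hz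
    have hzC : z ∈ C := hEC (hfE hz)
    have hs0 : s ≠ 0 := by
      rintro rfl
      obtain ⟨y, hy⟩ := hE1.isConnected_interior.nonempty
      have := hs y (interior_subset hy) fun h' => h'.2 hy
      rw [zero_mul] at this
      exact lt_irrefl _ this
    obtain ⟨A, -, hA, hA2, hA3⟩ := conn (h.reg q hq) hl hzC (hfq z hz) s hs0 (O := univ) univ_mem
    -- `A` meets the interior of `E`
    have hzcl : z ∈ closure (interior E) := by rw [hE1.closure_interior]; exact hfE hz
    obtain ⟨y, hy, hyi⟩ := (mem_closure_iff_frequently.1 hzcl).and_eventually hA3 |>.exists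
    have hyA : y ∈ A := hyi (hEC (interior_subset hy))
      (hs y (interior_subset hy) fun h' => h'.2 hy)
    have hAE : A ⊆ interior E := by
      rcases hA.subset_or_subset isOpen_interior hE1.isClosed.isOpen_compl (by
        rw [Set.disjoint_left]; intro w h1 h2; exact h2 (interior_subset h1)) (by
        intro w hw
        by_cases h1 : w ∈ E
        · left
          by_contra h2
          have h3 := hfq w ⟨subset_closure h1, h2⟩
          have h4 := (hA2 w hw).2
          rw [h3, sub_self, mul_zero] at h4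
          exact lt_irrefl _ h4
        · exact Or.inr h1) with h1 | h1
      · exact h1
      · exact absurd (interior_subset hy) (h1 hyA)
    -- near `z` the trace is the boundary circle
    have h5 := H579.near_eq_of_subset (h.curve hC hi hc hl) hE1.frontier_isCircle hfu hz
    have h6 : ∀ᶠ w in 𝓝 z, w ∈ C := mem_interior_iff_mem_nhds.1 (hE.int (hfE hz))
    filter_upwards [hA3, h5, h6] with w w1 w2 w3 wE
    by_contra h7
    rcases (not_lt.1 h7).lt_or_eq with h8 | h8
    · exact wE (interior_subset (hAE (w1 w3 h8)))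
    · have h9 : u q.1 w = q.2 := by
        rcases mul_eq_zero.1 h8.symm with h9 | h9
        · exact absurd h9 hs0
        · exact sub_eq_zero.1 h9
      exact wE (hfE (w2.1 ⟨w3, q, hq, h9⟩))

end Fam

end Vale.Agent.P073.H238
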