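import Vale.Agent.P073.H238.StepC
import Vale.Agent.P073.H579.Rel

/-!
# P073, H238 (A08): **STEP S**, removal of all circles on faces which see pairwise disjoint traces,
with closeness
-/

open Set Metric Topology Filter

namespace Vale.Agent.P073.H238

open _root_.P073 _root_.P073.TR _root_.P073.SCH _root_.P073.H339

variable {J : Type*} {Ω Λ K P : Set V} {h : ConHomeo Ω Λ} {A : J → Set V}
  {F : ∀ j, PFace (A j)} {Lv : Set (Fin 3 × ℝ)} {ω : ℝ}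
  {Θ : ConHomeo (univ : Set V) (univ : Set V)}

theorem Inv.fix (S : Setup Ω Λ K P h A F Lv ω) (I : Inv K P h F Lv ω Θ) :
    ∀ x ∉ Λ, Θ.toFun x = x := by
  obtain ⟨C0, -, hC0P, hΘC0⟩ := I.supp
  exact fun x hx => hΘC0 x fun h' => hx (S.PΛ (hC0P h'))

theorem Inv.germ (S : Setup Ω Λ K P h A F Lv ω) (I : Inv K P h F Lv ω Θ) {x : V} (hx : x ∈ Ω)
    (hK : x ∈ K) {q : Fin 3 × ℝ} (hq : q ∈ Lv) (hxq : Θ.toFun (h.toFun x) q.1 = q.2) :
    Θ.toFun (h.toFun x) = h.toFun x ∧ ∀ᶠ y in 𝓝 x, Θ.toFun (h.toFun y) = h.toFun y := by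
  have h1 := I.keep x hx hK q hq hxq
  exact ⟨h1.self_of_nhds, (h.cont.continuousAt (S.oΩ.mem_nhds hx)).eventually h1⟩

/-- the traces of a state -/
theorem Inv.fam (S : Setup Ω Λ K P h A F Lv ω) (I : Inv K P h F Lv ω Θ) (j : J) :
    Fam (F j).C (fun i z => (comp h Θ S.oΛ (I.fix S)).toFun ((F j).ch z) i) Lv := by
  refine fam_of S.oΩ _ (F j) (S.AΩ j) S.fin ?_ ?_
  · intro x hx q hq hxq
    have hg := I.germ S (S.AΩ j hx) (S.AK j hx) hq hxq
    have h1 : h.toFun x q.1 = q.2 := by rw [← hg.1]; exact hxq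
    refine (S.reg j x hx q hq h1).congr_fun ?_
    filter_upwards [hg.2] with y hy
    show Θ.toFun (h.toFun y) q.1 = h.toFun y q.1
    rw [hy]
  · intro x hx q hq q' hq' h1 h2
    have g1 := (I.germ S (S.AΩ j hx) (S.AK j hx) hq h1).1
    have h3 : Θ.toFun (h.toFun x) q.1 = q.2 := h1
    have h4 : Θ.toFun (h.toFun x) q'.1 = q'.2 := h2
    rw [g1] at h3 h4
    exact S.disj j x hx q hq q' hq' h3 h4

theorem inv_refl (S : Setup Ω Λ K P h A F Lv ω) :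
    Inv K P h F Lv ω idV where
  supp := ⟨∅, isCompact_empty, empty_subset _, fun _ _ => rfl⟩
  keep := fun _ _ _ _ _ _ => Eventually.of_forall fun _ => rfl
  free := fun _ _ _ _ _ => Eventually.of_forall fun _ => rfl
  near := fun x _ _ => by
    show dist (h.toFun x) (h.toFun x) ≤ 6 * ω
    rw [dist_self]; linarith [S.ω0]
  all := fun y => by
    show dist y y ≤ 12 * ω
    rw [dist_self]; linarith [S.ω0]
  disc := fun q _ D κ _ _ _ _ _ y hy => ⟨y, hy, by rw [dist_self]; linarith [S.ω0]⟩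

theorem Inv.tr_sub (S : Setup Ω Λ K P h A F Lv ω) (I : Inv K P h F Lv ω Θ) (j : J) :
    tr h (F j) Lv Θ ⊆ tr h (F j) Lv idV := by
  rintro z ⟨hz, q, hq, hzq⟩
  refine ⟨hz, q, hq, ?_⟩
  have h1 := (I.germ S (S.AΩ j ((F j).ch_mem hz)) (S.AK j ((F j).ch_mem hz)) hq hzq).1
  show h.toFun ((F j).ch z) q.1 = q.2
  rw [← h1]; exact hzq

/-- **one step** -/
theorem setup_step (S : Setup Ω Λ K P h A F Lv ω) (I : Inv K P h F Lv ω Θ)
    {𝒬 : Set (Set V)} (W : Walls h F Lv ω 𝒬)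
    (hW : ∀ Q ∈ 𝒬, ∀ y ∈ Q, ∀ᶠ z in 𝓝 y, Θ.toFun z = z) {j : J}
    (hj : ∃ σ, IsCircle σ ∧ σ ⊆ tr h (F j) Lv Θ) :
    ∃ Θ' : ConHomeo (univ : Set V) (univ : Set V), Inv K P h F Lv ω Θ' ∧
      (∀ Q ∈ 𝒬, ∀ y ∈ Q, ∀ᶠ z in 𝓝 y, Θ'.toFun z = z) ∧
      (∀ k, tr h (F k) Lv Θ' ⊆ tr h (F k) Lv Θ) ∧
      ∃ σ, IsCircle σ ∧ σ ⊆ tr h (F j) Lv Θ ∧ ¬ σ ⊆ tr h (F j) Lv Θ' := by
  have hω := S.ω0
  set h' := comp h Θ S.oΛ (I.fix S) with hh'
  have hh'a : ∀ x, h'.toFun x = Θ.toFun (h.toFun x) := fun _ => rfl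
  have hfam := I.fam S j
  obtain ⟨σ0, hσ0, hσ0s⟩ := hj
  obtain ⟨q, hq, E, hE, hEi, hEt, hEcl, hEs⟩ :=
    (hfam.exists_clean (F j).convex (F j).int (F j).compact (F j).cone).resolve_left
      fun hno => hno σ0 hσ0 hσ0s
  have hEC : E ⊆ (F j).C := hEi.trans interior_subset
  have hfE : frontier E ⊆ E := hE.isClosed.frontier_subset
  set E0 : Set V := (F j).ch '' E with hE0d
  set c : Set V := (F j).ch '' frontier E with hcd
  have hE0 : ConBall 2 E0 c := (F j).conBall hE hEC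
  have hE0A : E0 ⊆ A j := by rintro _ ⟨z, hz, rfl⟩; exact (F j).ch_mem (hEC hz)
  have hE0Ω : E0 ⊆ Ω := hE0A.trans (S.AΩ j)
  have hcE : c ⊆ E0 := hE0.1
  have hc : ∀ x ∈ E0, (h'.toFun x q.1 = q.2 ↔ x ∈ c) := by
    rintro _ ⟨z, hz, rfl⟩
    rw [hcd, (F j).ch_inj.mem_set_image]
    exact hEt z hz
  have hclean : ∀ x ∈ E0, ∀ q' ∈ Lv, q' ≠ (q.1, q.2) → h'.toFun x q'.1 ≠ q'.2 := by
    rintro _ ⟨z, hz, rfl⟩ q' hq' hne
    exact hEcl z hz q' hq' hne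
  have hside : ∀ s : ℝ, (∀ x ∈ E0, x ∉ c → 0 < s * (h'.toFun x q.1 - q.2)) →
      ∀ x ∈ E0, ∀ᶠ y in 𝓝 x, y ∈ K → y ∉ E0 → s * (h'.toFun y q.1 - q.2) < 0 := by
    rintro s hs _ ⟨z, hz, rfl⟩
    have h1 : ∀ᶠ w in 𝓝 z, w ∉ E → s * (h'.toFun ((F j).ch w) q.1 - q.2) < 0 := by
      by_cases hzf : z ∈ frontier E
      · refine hEs s (fun w hw hwf => hs _ ⟨w, hw, rfl⟩ ?_) z hzf
        rw [hcd, (F j).ch_inj.mem_set_image]; exact hwf
      · have hzi : z ∈ interior E := by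
          by_contra h2
          exact hzf ⟨subset_closure hz, h2⟩
        filter_upwards [isOpen_interior.mem_nhds hzi] with w hw hwE
        exact absurd (interior_subset hw) hwE
    have h2 := (F j).eventually_of_chart
      (p := fun y => y ∉ E0 → s * (h'.toFun y q.1 - q.2) < 0) (z := z) (by
        filter_upwards [h1] with w hw hwE
        exact hw fun h3 => hwE ⟨w, h3, rfl⟩)
    filter_upwards [h2, S.Ao j z (hEi hz)] with y hy1 hy2 hyK hyE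
    exact hy1 (hy2 hyK) hyE
  -- trace points
  have htr : ∀ x ∈ c, h'.toFun x = h.toFun x := fun x hx =>
    (I.germ S (hE0Ω (hcE hx)) (S.AK j (hE0A (hcE hx))) hq ((hc x (hcE hx)).2 hx)).1
  obtain ⟨z0, hz0⟩ := Fam.circle_nonempty hE.frontier_isCircle
  set xs : V := (F j).ch z0 with hxs
  have hxsc : xs ∈ c := ⟨z0, hz0, rfl⟩
  set ys : V := h.toFun xs with hys
  have hysA : xs ∈ A j := hE0A (hcE hxsc)
  have hω1 : ∀ x ∈ A j, dist (h.toFun x) ys ≤ ω := fun x hx => S.diam j x hx xs hysA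
  have hω2 : ∀ x ∈ A j, dist (Θ.toFun (h.toFun x)) ys ≤ 7 * ω := fun x hx => by
    have h1 := I.near x (S.AΩ j hx) (S.AK j hx)
    have h2 := hω1 x hx
    have h3 := dist_triangle (Θ.toFun (h.toFun x)) (h.toFun x) ys
    linarith
  have hballP : closedBall ys (8 * ω) ⊆ P := S.ball j xs hysA
  obtain ⟨s, D, b, hs, R, hbQ, H⟩ := rem_core (K := K) h' S.oΛ S.fin hE0 hE0Ω hc hclean hside
    (Q := closedBall ys (7 * ω)) (convex_closedBall _ _) isClosed_closedBall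
    ((closedBall_subset_closedBall (by linarith)).trans (hballP.trans S.PΛ)) (by
      rintro _ ⟨x, hx, rfl⟩
      exact hω2 x (hE0A hx))
  have hκD : h'.toFun '' c ⊆ D := R.hD.1
  have hDys : D ⊆ closedBall ys ω := R.hullD (convex_closedBall _ _) isClosed_closedBall (by
    rintro _ ⟨x, hx, rfl⟩
    rw [htr x hx]
    exact hω1 x (hE0A (hcE hx)))
  have hysD : ys ∈ D := hκD ⟨xs, hxsc, htr xs hxsc⟩
  -- the original place of the ball
  have hpre : Θ.toFun ⁻¹' b ⊆ closedBall ys (3 * ω) := by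
    refine subset_of_frontier (Θ.toHomeomorph.isCompact_preimage.2 R.cpt) (convex_closedBall _ _)
      isClosed_closedBall ⟨ys, mem_closedBall_self (by linarith)⟩ ?_
    have e : frontier (Θ.toFun ⁻¹' b) = Θ.toFun ⁻¹' frontier b :=
      (Θ.toHomeomorph.preimage_frontier b).symm
    rw [e]
    intro y hy
    rcases R.frontier_sub hy with hy' | ⟨x, hx, hxy⟩
    · obtain ⟨d, hd, hyd⟩ := I.disc q hq D (h'.toFun '' c) R.DP hκD R.hD.isCompact.isClosed R.cl (by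
        rintro _ ⟨x, hx, rfl⟩
        refine ⟨x, hE0Ω (hcE hx), S.AK j (hE0A (hcE hx)), (htr x hx).symm, ?_⟩
        rw [htr x hx]
        exact htr x hx) y hy'
      have h2 : dist d ys ≤ ω := hDys hd
      have h3 := dist_triangle y d ys
      rw [mem_closedBall]; linarith
    · have h2 : y = h.toFun x := (Θ.injective hxy).symm
      rw [mem_closedBall, h2]
      have := hω1 x (hE0A hx)
      linarith
  -- the walls
  set Z : Set V := ⋃ Q ∈ 𝒬, Q with hZ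
  have hZc : IsClosed Z := W.fin.isClosed_biUnion W.closed
  have hZb : Disjoint Z b := by
    rw [Set.disjoint_left]
    intro y hy hyb
    obtain ⟨Q, hQ, hyQ⟩ := mem_iUnion₂.1 hy
    refine Set.disjoint_left.1 (R.wall (W.conn Q hQ) ?_ (W.tr_conn Q hQ q hq) ?_ ?_) hyQ hyb
    · rw [Set.disjoint_left]
      rintro _ hwQ ⟨x, hx, rfl⟩
      have h1 : Θ.toFun (Θ.toFun (h.toFun x)) = Θ.toFun (h.toFun x) :=
        (hW Q hQ _ hwQ).self_of_nhds
      have h2 : Θ.toFun (h.toFun x) = h.toFun x := Θ.injective h1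
      obtain ⟨zx, hzx, rfl⟩ := hx
      refine Set.disjoint_left.1 (W.off Q hQ j ⟨σ0, hσ0, hσ0s.trans (I.tr_sub S j)⟩) hwQ
        ⟨_, ⟨zx, hEi hzx, rfl⟩, ?_⟩
      exact h2.symm
    · intro hne hsub
      obtain ⟨y1, hy1, z1, hz1, hd⟩ := W.tr_big Q hQ q hq hne
      have h1 : dist y1 ys ≤ ω := hDys (hsub hy1)
      have h2 : dist z1 ys ≤ ω := hDys (hsub hz1)
      have h3 := dist_triangle_right y1 z1 ys
      linarith
    · intro hsub
      obtain ⟨y1, hy1, z1, hz1, hd⟩ := W.big Q hQ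
      have h1 : dist y1 ys ≤ 7 * ω := hbQ (hsub hy1)
      have h2 : dist z1 ys ≤ 7 * ω := hbQ (hsub hz1)
      have h3 := dist_triangle_right y1 z1 ys
      linarith
  -- the neighbourhoods
  set G : Set V := Θ.toFun '' ball ys (4 * ω) ∩ ball ys (8 * ω) ∩ Zᶜ with hG
  have hGo : IsOpen G :=
    ((Θ.toHomeomorph.isOpenMap _ isOpen_ball).inter isOpen_ball).inter hZc.isOpen_compl
  set G1 : Set V := Θ.toFun '' ball ys (2 * ω) with hG1
  have hG1o : IsOpen G1 := Θ.toHomeomorph.isOpenMap _ isOpen_ball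
  have hbG : b ⊆ G := by
    intro y hy
    refine ⟨⟨⟨Θ.invFun y, ?_, Θ.apply_inv y⟩, ?_⟩, fun h' => Set.disjoint_left.1 hZb h' hy⟩
    · have h1 : Θ.invFun y ∈ Θ.toFun ⁻¹' b := by
        show Θ.toFun (Θ.invFun y) ∈ b
        rw [Θ.apply_inv]; exact hy
      have h2 : dist (Θ.invFun y) ys ≤ 3 * ω := hpre h1
      rw [mem_ball]; linarith
    · have h2 : dist y ys ≤ 7 * ω := hbQ hy
      rw [mem_ball]; linarith
  have hE0G1 : h'.toFun '' E0 ⊆ G1 := by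
    rintro _ ⟨x, hx, rfl⟩
    refine ⟨h.toFun x, ?_, rfl⟩
    have := hω1 x (hE0A hx)
    rw [mem_ball]; linarith
  have hDG2 : D ⊆ ball ys (2 * ω) := by
    intro y hy
    have : dist y ys ≤ ω := hDys hy
    rw [mem_ball]; linarith
  obtain ⟨T, O, hOc, hDO, hOP, ⟨C1, hC1, hC1G, hTC1⟩, t1, t2, t3, t4, t5⟩ :=
    H G G1 (ball ys (2 * ω)) hGo hG1o isOpen_ball hbG hE0G1 hDG2
  have hTG : ∀ y ∉ G, T.toFun y = y := fun y hy => hTC1 y fun h2 => hy (hC1G h2)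
  set Θ' : ConHomeo (univ : Set V) (univ : Set V) := Θ.trans T with hΘ'
  have hΘ'a : ∀ y, Θ'.toFun y = T.toFun (Θ.toFun y) := fun _ => rfl
  have keepT : ∀ x ∈ Ω, x ∈ K → ∀ q' ∈ Lv, T.toFun (h'.toFun x) q'.1 = q'.2 →
      ∀ᶠ z in 𝓝 (h'.toFun x), T.toFun z = z := by
    intro x hx hK q' hq' hxq
    by_cases hqq : q' = (q.1, q.2)
    · subst hqq
      exact (t2 x hx hK hxq).2
    · exact t1 q' hq' hqq _ hxq
  have keep0 : ∀ x ∈ Ω, x ∈ K → ∀ q' ∈ Lv, T.toFun (h'.toFun x) q'.1 = q'.2 →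
      h'.toFun x q'.1 = q'.2 := by
    intro x hx hK q' hq' hxq
    have h1 := (keepT x hx hK q' hq' hxq).self_of_nhds
    rwa [h1] at hxq
  refine ⟨Θ', ⟨?_, ?_, ?_, ?_, ?_, ?_⟩, ?_, ?_, frontier E, hE.frontier_isCircle, ?_, ?_⟩
  · -- support
    obtain ⟨C0, hC0, hC0P, hΘC0⟩ := I.supp
    refine ⟨C0 ∪ C1, hC0.union hC1, union_subset hC0P (hC1G.trans fun y hy =>
      hballP (ball_subset_closedBall hy.1.2)), fun y hy => ?_⟩
    rw [hΘ'a, hΘC0 y fun h2 => hy (Or.inl h2), hTC1 y fun h2 => hy (Or.inr h2)]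
  · -- keep
    intro x hx hK q' hq' hxq
    have h1 := keepT x hx hK q' hq' hxq
    have h2 := keep0 x hx hK q' hq' hxq
    have h3 := I.keep x hx hK q' hq' h2
    have h4 : h'.toFun x = h.toFun x := h3.self_of_nhds
    rw [h4] at h1
    filter_upwards [h1, h3] with z hz1 hz3
    rw [hΘ'a, hz3, hz1]
  · -- free
    intro q' hq' hno y hyq
    have hne : q' ≠ (q.1, q.2) := by
      rintro rfl
      refine hno j (frontier E) hE.frontier_isCircle ?_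
      intro z hz
      refine ⟨hEC (hfE hz), ?_⟩
      have h1 := (hEt z (hfE hz)).2 hz
      have h2 := htr ((F j).ch z) ⟨z, hz, rfl⟩
      rw [← h2]; exact h1
    have h1 := t1 q' hq' hne (Θ.toFun y) hyq
    have h2 : T.toFun (Θ.toFun y) = Θ.toFun y := h1.self_of_nhds
    have h3 : Θ.toFun y q'.1 = q'.2 := by
      rw [hΘ'a, h2] at hyq; exact hyq
    have h4 := I.free q' hq' hno y h3
    rw [h4.self_of_nhds] at h1
    filter_upwards [h1, h4] with z hz1 hz4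
    rw [hΘ'a, hz4, hz1]
  · -- near
    intro x hx hK
    rw [hΘ'a]
    by_cases h1 : T.toFun (h'.toFun x) = h'.toFun x
    · rw [hh'a] at h1; rw [h1]; exact I.near x hx hK
    · have h2 : dist (T.toFun (h'.toFun x)) ys < 2 * ω := t5 x hx hK h1
      have h3 : h'.toFun x ∈ G := by by_contra h4; exact h1 (hTG _ h4)
      obtain ⟨w, hw, hwx⟩ := h3.1.1
      have h4 : w = h.toFun x := Θ.injective hwx
      rw [h4, mem_ball] at hw
      have h5 := dist_triangle_right (T.toFun (h'.toFun x)) (h.toFun x) ys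
      rw [hh'a] at h5 h2
      linarith
  · -- all
    intro y
    rw [hΘ'a]
    by_cases h1 : T.toFun (Θ.toFun y) = Θ.toFun y
    · rw [h1]; exact I.all y
    · have h3 : Θ.toFun y ∈ G := by by_contra h4; exact h1 (hTG _ h4)
      have h4 : T.toFun (Θ.toFun y) ∈ G := by
        by_contra h5
        exact h1 (T.injective (hTG _ h5))
      obtain ⟨w, hw, hwx⟩ := h3.1.1
      have h5 : w = y := Θ.injective hwx
      rw [h5, mem_ball] at hw
      have h6 : dist (T.toFun (Θ.toFun y)) ys < 8 * ω := h4.1.2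
      have h7 := dist_triangle_right (T.toFun (Θ.toFun y)) y ys
      linarith
  · -- disc
    intro q' hq' D' κ' hDP' hκD' hDc' hcl' hκ' y hy
    rw [hΘ'a] at hy
    -- points of `κ'` are fixed by both
    have hκ2 : ∀ y ∈ κ', ∃ x ∈ Ω, x ∈ K ∧ h.toFun x = y ∧ Θ.toFun y = y := by
      intro y hy
      obtain ⟨x, hx, hK, hxy, hfix⟩ := hκ' y hy
      refine ⟨x, hx, hK, hxy, ?_⟩
      have h1 : T.toFun (h'.toFun x) = y := by rw [hh'a, hxy]; exact hfix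
      have h2 : T.toFun (h'.toFun x) q'.1 = q'.2 := by rw [h1]; exact hDP' (hκD' hy)
      have h3 := (keepT x hx hK q' hq' h2).self_of_nhds
      rw [h1, hh'a, hxy] at h3
      exact h3.symm
    by_cases hqq : q' = (q.1, q.2)
    · subst hqq
      rcases t4 (Θ.toFun y) (hDP' hy) with h1 | ⟨h1, h2⟩
      · rw [h1] at hy
        exact I.disc _ hq' D' κ' hDP' hκD' hDc' hcl' hκ2 y hy
      · obtain ⟨w, hw, hwy⟩ := h1
        have h3 : w = y := Θ.injective hwy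
        rw [h3, mem_ball] at hw
        refine ⟨ys, ?_, hw⟩
        have hOκ : Disjoint O κ' := by
          rw [Set.disjoint_left]
          intro y1 hy1 hy1κ
          obtain ⟨x, hx, hK, hxy, hfix⟩ := hκ' y1 hy1κ
          obtain ⟨-, -, -, -, hfix2⟩ := hκ2 y1 hy1κ
          have h4 : T.toFun (h'.toFun x) q.1 = q.2 := by
            rw [hh'a, hxy]
            have : T.toFun (Θ.toFun y1) = y1 := hfix
            rw [this]
            exact hDP' (hκD' hy1κ)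
          have h5 := (t2 x hx hK h4).1
          rw [hh'a, hxy, hfix2] at h5
          exact h5 hy1
        exact subset_of_relOpen hOc hOP hDc' hcl' hOκ ⟨_, h2, hy⟩ (hDO hysD)
    · have h1 := (t1 q' hq' hqq (Θ.toFun y) (hDP' hy)).self_of_nhds
      rw [h1] at hy
      exact I.disc _ hq' D' κ' hDP' hκD' hDc' hcl' hκ2 y hy
  · -- walls
    intro Q hQ y hy
    have h1 := hW Q hQ y hy
    have h2 : ∀ᶠ z in 𝓝 y, T.toFun z = z := by
      have h3 : y ∉ C1 := fun h' => (hC1G h').2 (mem_iUnion₂.2 ⟨Q, hQ, hy⟩)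
      filter_upwards [hC1.isClosed.isOpen_compl.mem_nhds h3] with z hz
      exact hTC1 z hz
    filter_upwards [h1, h2] with z hz1 hz2
    rw [hΘ'a, hz1, hz2]
  · -- traces
    rintro k z ⟨hz, q', hq', hzq⟩
    exact ⟨hz, q', hq', keep0 _ (S.AΩ k ((F k).ch_mem hz)) (S.AK k ((F k).ch_mem hz)) q' hq' hzq⟩
  · intro z hz
    exact ⟨hEC (hfE hz), q, hq, (hEt z (hfE hz)).2 hz⟩
  · intro hsub
    obtain ⟨hzC, q', hq', hzq⟩ := hsub hz0
    have h1 := keep0 xs (S.AΩ j hysA) (S.AK j hysA) q' hq' hzq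
    have h2 := hfam.disj z0 hzC q hq q' hq' ((hEt z0 (hfE hz0)).2 hz0) h1
    subst h2
    exact t3 xs (hcE hxsc) hzq

/-- **STEP S.** All circles of the traces on the faces `A j` are removed; the walls are fixed. -/
theorem step_walls [Finite J] (S : Setup Ω Λ K P h A F Lv ω) {𝒬 : Set (Set V)}
    (W : Walls h F Lv ω 𝒬) :
    ∃ Θ : ConHomeo (univ : Set V) (univ : Set V), Inv K P h F Lv ω Θ ∧
      (∀ Q ∈ 𝒬, ∀ y ∈ Q, ∀ᶠ z in 𝓝 y, Θ.toFun z = z) ∧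
      ∀ j σ, IsCircle σ → ¬ σ ⊆ tr h (F j) Lv Θ := by
  classical
  cases nonempty_fintype J
  have key : ∀ n : ℕ, ∀ Θ : ConHomeo (univ : Set V) (univ : Set V), Inv K P h F Lv ω Θ →
      (∀ Q ∈ 𝒬, ∀ y ∈ Q, ∀ᶠ z in 𝓝 y, Θ.toFun z = z) →
      ∑ j, {σ | IsCircle σ ∧ σ ⊆ tr h (F j) Lv Θ}.ncard = n →
      ∃ Θ : ConHomeo (univ : Set V) (univ : Set V), Inv K P h F Lv ω Θ ∧
        (∀ Q ∈ 𝒬, ∀ y ∈ Q, ∀ᶠ z in 𝓝 y, Θ.toFun z = z) ∧
        ∀ j σ, IsCircle σ → ¬ σ ⊆ tr h (F j) Lv Θ := by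
    intro n
    induction n using Nat.strong_induction_on with
    | _ n ih =>
      intro Θ I hW hn
      by_cases hno : ∀ j σ, IsCircle σ → ¬ σ ⊆ tr h (F j) Lv Θ
      · exact ⟨Θ, I, hW, hno⟩
      · push Not at hno
        obtain ⟨j, σ0, hσ0, hσ0s⟩ := hno
        obtain ⟨Θ', I', hW', hsub, σ, hσ, h1, h2⟩ := setup_step S I W hW ⟨σ0, hσ0, hσ0s⟩
        have hfin : ∀ k, {σ | IsCircle σ ∧ σ ⊆ tr h (F k) Lv Θ}.Finite := fun k =>
          H579.finite_circles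
            ((I.fam S k).curve (F k).convex (F k).int (F k).compact (F k).cone)
        refine ih _ ?_ Θ' I' hW' rfl
        rw [← hn]
        refine Finset.sum_lt_sum (fun k _ => ncard_le_ncard
          (fun τ hτ => ⟨hτ.1, hτ.2.trans (hsub k)⟩) (hfin k)) ⟨j, Finset.mem_univ j, ?_⟩
        exact ncard_lt_ncard ⟨fun τ hτ => ⟨hτ.1, hτ.2.trans (hsub j)⟩,
          fun h3 => h2 (h3 ⟨hσ, h1⟩).2⟩ (hfin j)
  exact key _ _ (inv_refl S) (fun _ _ _ _ => Eventually.of_forall fun _ => rfl) rfl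

/-- **STEP S.** All circles of the traces on the faces `A j` are removed. -/
theorem step_s [Finite J] (S : Setup Ω Λ K P h A F Lv ω) :
    ∃ Θ : ConHomeo (univ : Set V) (univ : Set V), Inv K P h F Lv ω Θ ∧
      ∀ j σ, IsCircle σ → ¬ σ ⊆ tr h (F j) Lv Θ := by
  have W : Walls h F Lv ω (∅ : Set (Set V)) :=
    ⟨finite_empty, fun _ h => absurd h (notMem_empty _), fun _ h => absurd h (notMem_empty _),
      fun _ h => absurd h (notMem_empty _), fun _ h => absurd h (notMem_empty _),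
      fun _ h => absurd h (notMem_empty _), fun _ h => absurd h (notMem_empty _)⟩
  obtain ⟨Θ, I, -, h1⟩ := step_walls S W
  exact ⟨Θ, I, h1⟩

/-- **STEP S**, the clauses spelled out, with walls. -/
theorem step_walls' [Finite J] (S : Setup Ω Λ K P h A F Lv ω) {𝒬 : Set (Set V)}
    (W : Walls h F Lv ω 𝒬) :
    ∃ Θ : ConHomeo (univ : Set V) (univ : Set V),
      (∃ C, IsCompact C ∧ C ⊆ P ∧ ∀ y ∉ C, Θ.toFun y = y) ∧
      (∀ x ∈ Ω, x ∈ K → ∀ q ∈ Lv, Θ.toFun (h.toFun x) q.1 = q.2 →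
        ∀ᶠ z in 𝓝 (h.toFun x), Θ.toFun z = z) ∧
      (∀ q ∈ Lv, (∀ j σ, IsCircle σ →
          ¬ σ ⊆ {z | z ∈ (F j).C ∧ h.toFun ((F j).ch z) q.1 = q.2}) →
        ∀ y, Θ.toFun y q.1 = q.2 → ∀ᶠ z in 𝓝 y, Θ.toFun z = z) ∧
      (∀ x ∈ Ω, x ∈ K → dist (Θ.toFun (h.toFun x)) (h.toFun x) ≤ 6 * ω) ∧
      (∀ y, dist (Θ.toFun y) y ≤ 12 * ω) ∧
      (∀ j, ∀ q ∈ Lv, ∀ σ, IsCircle σ →
        ¬ σ ⊆ {z | z ∈ (F j).C ∧ Θ.toFun (h.toFun ((F j).ch z)) q.1 = q.2}) ∧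
      ∀ Q ∈ 𝒬, ∀ y ∈ Q, ∀ᶠ z in 𝓝 y, Θ.toFun z = z := by
  obtain ⟨Θ, I, hW, hno⟩ := step_walls S W
  refine ⟨Θ, I.supp, I.keep, I.free, I.near, I.all, fun j q hq σ hσ hs => hno j σ hσ ?_, hW⟩
  intro z hz
  exact ⟨(hs hz).1, q, hq, (hs hz).2⟩

/-- **STEP S**, the clauses spelled out. -/
theorem step_s' [Finite J] (S : Setup Ω Λ K P h A F Lv ω) :
    ∃ Θ : ConHomeo (univ : Set V) (univ : Set V),
      (∃ C, IsCompact C ∧ C ⊆ P ∧ ∀ y ∉ C, Θ.toFun y = y) ∧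
      (∀ x ∈ Ω, x ∈ K → ∀ q ∈ Lv, Θ.toFun (h.toFun x) q.1 = q.2 →
        ∀ᶠ z in 𝓝 (h.toFun x), Θ.toFun z = z) ∧
      (∀ q ∈ Lv, (∀ j σ, IsCircle σ →
          ¬ σ ⊆ {z | z ∈ (F j).C ∧ h.toFun ((F j).ch z) q.1 = q.2}) →
        ∀ y, Θ.toFun y q.1 = q.2 → ∀ᶠ z in 𝓝 y, Θ.toFun z = z) ∧
      (∀ x ∈ Ω, x ∈ K → dist (Θ.toFun (h.toFun x)) (h.toFun x) ≤ 6 * ω) ∧
      (∀ y, dist (Θ.toFun y) y ≤ 12 * ω) ∧
      ∀ j, ∀ q ∈ Lv, ∀ σ, IsCircle σ →
        ¬ σ ⊆ {z | z ∈ (F j).C ∧ Θ.toFun (h.toFun ((F j).ch z)) q.1 = q.2} := by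
  obtain ⟨Θ, I, hno⟩ := step_s S
  refine ⟨Θ, I.supp, I.keep, I.free, I.near, I.all, fun j q hq σ hσ hs => hno j σ hσ ?_⟩
  intro z hz
  exact ⟨(hs hz).1, q, hq, (hs hz).2⟩

end Vale.Agent.P073.H238
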