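import Vale.Agent.P073.H238.TStage1

/-!
# P073, H238 (A14.19): two boxes of round T are far from each other, except at their common ends

Consequence: on a face which meets the box `b` after stage 1, nothing has changed near the points
at a level of `b`, also outside of the box `b`.
-/

open Set Metric Topology Filter

namespace Vale.Agent.P073.H238

open _root_.P073 _root_.P073.TR _root_.P073.SCH _root_.P073.H339 _root_.P073.Net _root_.P073.PA691
open _root_.P073.PR720 (LF)
open Vale.Agent.P073.H471 Vale.Agent.P073.H267 Vale.Agent.P073.H267.Geo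
open Vale.Agent.P073.H73 (Mesh)

variable {Ω Λ : Set V} {v : V} {K : BoxCx Λ v} {S : Rad K} {W : Wid K S} {B : Boxes W} {y z : V}

theorem abs_sub_le_dist (y z : V) (k : Fin 3) : |z k - y k| ≤ dist y z := by
  have h1 := dist_le_pi_dist y z k
  rwa [Real.dist_eq, abs_sub_comm] at h1

/-- near a tube -/
theorem near_inl (G : Geo B) {e : K.G} (hy : y ∈ G.TB false (.inl e))
    (hd : dist y z ≤ 30 * G.oG e) : z ∈ W.se e := by
  rw [mem_inl] at hy
  simp only [Bool.false_eq_true, if_false] at hy
  have h1 := G.oG_uT e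
  have h2 := G.uT_lam e
  have h3 := G.uT_pos e
  have h4 := G.lam_T e
  have h5 := B.T_le e
  have h6 := B.T_pos e
  have h7 := G.lam_a e
  have h8 := G.lam_b e
  have hc := fun k => abs_le.1 ((abs_sub_le_dist y z k).trans hd)
  have hl : G.lam e ≤ W.ae e z := by
    refine le_marg (by linarith) fun k hk => ?_
    have hk' : k = K.dir e := by by_contra h; exact hk (mem_Je.2 h)
    subst hk'
    have := hc (K.dir e)
    constructor <;> linarith [hy.1.1, hy.1.2, this.1, this.2]
  have h9 : nJ (Wid.Je K e) (K.w (K.a e)) z ≤ 3 / 2 * G.lam e := by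
    rw [nJ_le_iff (by linarith)]
    intro k hk
    have h10 := abs_le.1 (hy.2 k (mem_Je.1 hk))
    have := hc k
    rw [abs_le]
    constructor <;> linarith [h10.1, h10.2, this.1, this.2]
  show nJ _ _ z < 2 * W.ae e z
  linarith

/-- near a box at a hanging vertex -/
theorem near_inr (G : Geo B) {h : Hang K} (hy : y ∈ G.TB false (.inr h))
    (hd : dist y z ≤ 30 * G.oW h.i) (h0 : 0 < G.oW h.i) : z ∈ W.ss h.s := by
  have hy0 := hy
  rw [mem_inr] at hy
  simp only [Bool.false_eq_true, if_false] at hy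
  obtain ⟨hyl, hyu, hyn⟩ := hy
  have h1 := G.oW_τ h.s h.i (hang_mem h)
  have h2 := G.τ_p h.s
  have h3 := G.p_pos h.s
  have h4 := G.p_be h.s h.i (hang_mem h)
  have hsz := G.size h.k_n
  have hau := G.a_u h.s
  have hpa := p_a (G := G) h.s
  have hfar := hang_far S h
  have hyl' := abs_le.1 hyl
  have hbe := G.be_r h.i
  have hbp := G.be_pos h.i
  have hτ := B.τ_le h.s
  have hc := fun k => abs_le.1 ((abs_sub_le_dist y z k).trans hd)
  have hl : B.τ h.s - 8 * G.oW h.i ≤ W.as h.s z := by
    refine le_marg (by linarith) fun k hk => ?_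
    have hk' : k ≠ K.nrm h.s := by simpa using hk
    have := hc k
    rcases fin3_cases h.k_n h.k_l h.l_n.symm k with rfl | rfl | rfl
    · unfold Hang.u at hyu
      cases hb : h.β
      · simp only [hb, Bool.false_eq_true, if_false] at hyu
        constructor <;> linarith [this.1, this.2]
      · simp only [hb, if_true] at hyu
        constructor <;> linarith [this.1, this.2]
    · exact absurd rfl hk'
    · constructor <;> linarith [this.1, this.2]
  have hn : nJ {K.nrm h.s} (K.slo h.s) z ≤ B.τ h.s + 30 * G.oW h.i := by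
    rw [nJ_le_iff (by linarith)]
    intro k hk
    rw [Finset.mem_singleton.1 hk]
    have h10 := abs_le.1 hyn
    have := hc (K.nrm h.s)
    rw [abs_le]
    constructor <;> linarith [h10.1, h10.2, this.1, this.2]
  show nJ _ _ z < 2 * W.as h.s z
  linarith

theorem near_ball (G : Geo B) {h : Hang K} (hy : y ∈ G.TB false (.inr h))
    (hd : dist y z ≤ 30 * G.oW h.i) : z ∈ closedBall (K.w h.i) (2 * S.r h.i) := by
  have h1 := TB_inr_ball h hy
  have h2 := G.be_r h.i
  have h3 := G.oW_be h.i
  have h4 := G.be_pos h.i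
  have h5 := dist_triangle z y (K.w h.i)
  rw [mem_closedBall] at h1 ⊢
  rw [dist_comm z y] at h5
  linarith

/-- the ends of an edge near a hanging vertex -/
theorem end_of_near (G : Geo B) {e : K.G} {h : Hang K} {y y' : V} (hy : y ∈ G.TB false (.inl e))
    (hy' : y' ∈ G.TB false (.inr h)) {δ δ' : ℝ} (_ : 0 ≤ δ) (h1 : δ ≤ G.oG e) (_ : 0 ≤ δ')
    (h2 : δ' ≤ G.oW h.i) (hd : dist y y' ≤ 15 * (δ + δ')) : h.i = K.a e ∨ h.i = K.b e := by
  rcases le_total (G.oW h.i) (G.oG e) with hle | hle
  · have h3 := near_inl G hy (z := y') (by linarith)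
    have h4 := near_ball G hy' (z := y') (by rw [dist_self]; linarith)
    exact S.U_edge h.i e y' h4 (se_subset e h3)
  · have h3 := near_ball G hy' (z := y) (by rw [dist_comm]; linarith)
    exact S.U_edge h.i e y h3 (se_subset e (Ze_subset (TB_subset_Ze e hy)))

/-- **separation** -/
theorem TB_sep (G : Geo B) {b b' : TBx K} (hne : b ≠ b') {y y' : V} (hy : y ∈ G.TB false b)
    (hy' : y' ∈ G.TB false b') {δ δ' : ℝ} (hδ : 0 < δ) (h1 : δ ≤ oT G b) (hδ' : 0 < δ')
    (h2 : δ' ≤ oT G b') (hd : dist y y' ≤ 15 * (δ + δ')) :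
    y' b.ax ≤ G.tlo true b b.ax ∨ G.thi true b b.ax ≤ y' b.ax := by
  rcases b with e | h <;> rcases b' with e' | h'
  · exfalso
    have hee : e ≠ e' := fun hh => hne (by rw [hh])
    have h1' : δ ≤ G.oG e := h1
    have h2' : δ' ≤ G.oG e' := h2
    rcases le_total (G.oG e') (G.oG e) with hle | hle
    · exact (disjoint_se (W := W) hee).notMem_of_mem_left (near_inl G hy (z := y') (by linarith))
        (Ze_subset (TB_subset_Ze e' hy'))
    · exact (disjoint_se (W := W) hee).notMem_of_mem_left (Ze_subset (TB_subset_Ze e hy))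
        (near_inl G hy' (z := y) (by rw [dist_comm]; linarith))
  · have h1' : δ ≤ G.oG e := h1
    have h2' : δ' ≤ G.oW h'.i := h2
    have hi := end_of_near G hy hy' hδ.le h1' hδ'.le h2' hd
    obtain ⟨h3, h4⟩ := TB_inr_coord hy'
    have h5 : |y' (K.dir e) - K.w h'.i (K.dir e)| ≤ G.be h'.i := by
      by_cases hk : K.dir e = h'.l
      · rw [hk]; exact h3
      · exact (h4 _ hk).le
    rw [abs_le] at h5
    have e1 : G.tlo true (.inl e) (TBx.ax (.inl e)) = K.w (K.a e) (K.dir e) + G.be (K.a e) := by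
      simp [Geo.tlo, TBx.ax]
    have e2 : G.thi true (.inl e) (TBx.ax (.inl e)) = K.w (K.b e) (K.dir e) - G.be (K.b e) := by
      simp [Geo.thi, TBx.ax]
    rw [e1, e2]
    rcases hi with hi | hi
    · left
      show y' (K.dir e) ≤ _
      rw [← hi]; linarith [h5.2]
    · right
      show _ ≤ y' (K.dir e)
      rw [← hi]; linarith [h5.1]
  · have h1' : δ ≤ G.oW h.i := h1
    have h2' : δ' ≤ G.oG e' := h2
    have hi := end_of_near G hy' hy hδ'.le h2' hδ.le h1' (by rw [dist_comm]; linarith)
    have e1 : G.tlo true (.inr h) (TBx.ax (.inr h)) = K.w h.i h.l - G.be h.i := by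
      simp [Geo.tlo, TBx.ax]
    have e2 : G.thi true (.inr h) (TBx.ax (.inr h)) = K.w h.i h.l + G.be h.i := by
      simp [Geo.thi, TBx.ax]
    rw [e1, e2]
    rw [mem_inl] at hy'
    obtain ⟨⟨h3, h4⟩, -⟩ := hy'
    by_cases hdl : K.dir e' = h.l
    · rw [hdl] at h3 h4
      rcases hi with hi | hi
      · right
        show _ ≤ y' h.l
        rw [hi]; linarith
      · left
        show y' h.l ≤ _
        rw [hi]; linarith
    · exfalso
      rw [mem_inr] at hy
      simp only [Bool.false_eq_true, if_false] at hy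
      obtain ⟨-, ⟨hu1, hu2⟩, hn⟩ := hy
      have hp := G.p_pos h.s
      have hpb := G.p_be h.s h.i (hang_mem h)
      have hτ := G.τ_p h.s
      have hτ0 := B.τ_pos h.s
      have ho := G.oW_be h.i
      have hog := G.oG_uT e'
      have hul := G.uT_lam e'
      have h5 : |y (K.dir e') - K.w h.i (K.dir e')| ≤ G.be h.i / 4 := by
        rcases fin3_cases h.k_n h.k_l h.l_n.symm (K.dir e') with hk | hk | hk
        · rw [hk, abs_u h (by linarith)]; linarith
        · rw [hk, h.nrm]; linarith
        · exact absurd hk hdl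
      rw [abs_le] at h5
      have h6 := abs_le.1 (abs_sub_le_dist y y' (K.dir e'))
      rcases hi with hi | hi
      · have hla := G.lam_a e'
        rw [← hi] at h3 hla
        linarith [h6.1, h6.2, h5.1, h5.2]
      · have hlb := G.lam_b e'
        rw [← hi] at h4 hlb
        linarith [h6.1, h6.2, h5.1, h5.2]
  · exfalso
    have h1' : δ ≤ G.oW h.i := h1
    have h2' : δ' ≤ G.oW h'.i := h2
    by_cases hi : h.i = h'.i
    · have hs : h.s ≠ h'.s := fun hs => hne (by rw [hang_eq hi hs])
      rw [← hi] at h2'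
      exact (disjoint_ss (W := W) hs).notMem_of_mem_left
        (near_inr G hy (z := y') (by linarith) (by linarith))
        (Zs_subset (TB_subset_Zs h' hy'))
    · have hb := G.be_pos h.i
      have hb' := G.be_pos h'.i
      rcases le_total (G.oW h'.i) (G.oW h.i) with hle | hle
      · refine (S.U_disj _ _ hi).notMem_of_mem_left (near_ball G hy (z := y') (by linarith))
          (near_ball G hy' (z := y') (by rw [dist_self]; linarith))
      · refine (S.U_disj _ _ hi).notMem_of_mem_left
          (near_ball G hy (z := y) (by rw [dist_self]; linarith))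
          (near_ball G hy' (z := y) (by rw [dist_comm]; linarith))

/-- on a face which meets the box `b`, nothing has changed near the points at the levels of `b` -/
theorem TStage1.germ {G : Geo B} {M : Mesh Ω} {h h' : ConHomeo Ω Λ} {Pr : Set M.ι}
    {L : TBx K → Set ℝ} {ω : TBx K → ℝ} (O : TStage1 G M h h' Pr L ω) (T : TLev G M h L ω)
    {b : TBx K} {k : M.κ} {x₀ x : V} (hx₀ : x₀ ∈ M.F k) (hb : h'.toFun x₀ ∈ G.TB false b)
    (hx : x ∈ M.F k) (hxL : h'.toFun x b.ax ∈ L b) : ∀ᶠ y in 𝓝 x, h'.toFun y = h.toFun y := by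
  have hxΩ := mesh_sub M k hx
  have hx₀Ω := mesh_sub M k hx₀
  have hxs : x ∈ skel M := mem_iUnion.2 ⟨k, hx⟩
  have hx₀s : x₀ ∈ skel M := mem_iUnion.2 ⟨k, hx₀⟩
  by_cases h1 : ∃ b', h'.toFun x ∈ G.TB false b'
  · obtain ⟨b', hb'⟩ := h1
    by_cases hbb : b = b'
    · subst hbb
      exact O.keep b x hxs hb' hxL
    · exfalso
      have h2 := O.near b x₀ hx₀s ((O.mem b x₀ hx₀Ω).1 hb)
      have h3 := O.near b' x hxs ((O.mem b' x hxΩ).1 hb')
      have h4 := T.osc b k x₀ hx₀ x hx ((O.mem b x₀ hx₀Ω).1 hb)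
      have h5 := dist_triangle4 (h'.toFun x₀) (h.toFun x₀) (h.toFun x) (h'.toFun x)
      rw [dist_comm (h.toFun x) (h'.toFun x)] at h5
      have hω := T.ω0 b
      have hω' := T.ω0 b'
      have h6 := TB_sep G hbb hb hb' hω (T.ωo b) hω' (T.ωo b') (by linarith)
      obtain ⟨h7, h8⟩ := T.lev b _ hxL
      rcases h6 with h6 | h6 <;> linarith
  · push Not at h1
    exact O.off x hxΩ fun b' hb' => h1 b' (interior_subset ((O.memI b' x hxΩ).2 hb'))

/-- regularity of the levels on the faces which meet the boxes, for all families of sets -/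
theorem TStage1.regB {G : Geo B} {M : Mesh Ω} {h h' : ConHomeo Ω Λ} {Pr : Set M.ι}
    {L : TBx K → Set ℝ} {ω : TBx K → ℝ} (O : TStage1 G M h h' Pr L ω) (T : TLev G M h L ω)
    {ι : Type*} {N : ι → Set V}
    (hr : ∀ k b, (∃ x ∈ M.F k, h.toFun x ∈ G.TB false b) → ∀ x ∈ M.F k, h.toFun x b.ax ∈ L b →
      H805.Reg (fun y => h.toFun y b.ax) N x) :
    ∀ k b, (∃ x ∈ M.F k, h'.toFun x ∈ G.TB false b) → ∀ x ∈ M.F k, h'.toFun x b.ax ∈ L b →
      H805.Reg (fun y => h'.toFun y b.ax) N x := by
  rintro k b ⟨x₀, hx₀, hb⟩ x hx hxL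
  have h1 := O.germ T hx₀ hb hx hxL
  have h2 := h1.self_of_nhds
  rw [h2] at hxL
  have h3 := (O.mem b x₀ (mesh_sub M k hx₀)).1 hb
  exact (hr k b ⟨x₀, hx₀, h3⟩ x hx hxL).congr_fun (h1.mono fun y hy => by
    show h'.toFun y b.ax = h.toFun y b.ax
    rw [hy])

end Vale.Agent.P073.H238
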