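import Vale.Agent.P073.H238.TSep
import Vale.Agent.P073.H669.TLevB

/-!
# P073, H238: STAGE 1 of round T with given cells (branch B, 936 [LIP])

`Wc`: cells on which the traces are also kept; `Act₀`: faces on which circles are removed (no face
of a cell in `Wc`). `exists_tstage1W`; consequences as for `TStage1`.
-/

open Set Metric Topology Filter
open scoped ENNReal

namespace Vale.Agent.P073.H238

open _root_.P073 _root_.P073.TR _root_.P073.SCH _root_.P073.H339 _root_.P073.Net _root_.P073.PA691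
open _root_.P073.PR720 (LF)
open Vale.Agent.P073.H471 Vale.Agent.P073.H267 Vale.Agent.P073.H267.Geo
open Vale.Agent.P073.H73 (Mesh)

variable {Ω Λ : Set V} {v : V} {K : BoxCx Λ v} {S : Rad K} {W : Wid K S} {B : Boxes W}

/-- the faces and the cells in `Wc` -/
def skelW {Ω : Set V} (M : Mesh Ω) (Wc : Set M.ι) : Set V := skel M ∪ ⋃ i ∈ Wc, M.Q i

theorem skelW_sub {Ω : Set V} (M : Mesh Ω) (Wc : Set M.ι) : skelW M Wc ⊆ Ω := by
  rintro x (hx | hx)
  · obtain ⟨k, hk⟩ := mem_iUnion.1 hx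
    exact mesh_sub M k hk
  · obtain ⟨i, -, hi⟩ := mem_iUnion₂.1 hx
    exact M.sub i hi

theorem mem_skelW_face {Ω : Set V} {M : Mesh Ω} {Wc : Set M.ι} {k : M.κ} {x : V} (hx : x ∈ M.F k) :
    x ∈ skelW M Wc := Or.inl (mem_iUnion.2 ⟨k, hx⟩)

theorem mem_skelW_cell {Ω : Set V} {M : Mesh Ω} {Wc : Set M.ι} {i : M.ι} (hi : i ∈ Wc) {x : V}
    (hx : x ∈ M.Q i) : x ∈ skelW M Wc := Or.inr (mem_iUnion₂.2 ⟨i, hi, hx⟩)

/-- the output of stage 1, with given cells -/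
structure TStage1W (G : Geo B) (M : Mesh Ω) (h h' : ConHomeo Ω Λ) (Pr Wc : Set M.ι)
    (Act₀ : Set M.κ) (L : TBx K → Set ℝ) (ω : TBx K → ℝ) : Prop where
  off : ∀ x ∈ Ω, (∀ b, h.toFun x ∉ interior (G.TB false b)) →
    ∀ᶠ y in 𝓝 x, h'.toFun y = h.toFun y
  off' : ∀ x ∈ Ω, (∀ b, h.toFun x ∉ interior (TMid G b (ω b))) →
    ∀ᶠ y in 𝓝 x, h'.toFun y = h.toFun y
  memM : ∀ b, ∀ x ∈ Ω, (h'.toFun x ∈ interior (TMid G b (ω b)) ↔
    h.toFun x ∈ interior (TMid G b (ω b)))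
  memI : ∀ b, ∀ x ∈ Ω, (h'.toFun x ∈ interior (G.TB false b) ↔
    h.toFun x ∈ interior (G.TB false b))
  mem : ∀ b, ∀ x ∈ Ω, (h'.toFun x ∈ G.TB false b ↔ h.toFun x ∈ G.TB false b)
  /-- traces only disappear, with the same germs; also on the cells in `Wc` -/
  keep : ∀ b, ∀ x ∈ skelW M Wc, h'.toFun x ∈ G.TB false b → h'.toFun x b.ax ∈ L b →
    ∀ᶠ y in 𝓝 x, h'.toFun y = h.toFun y
  near : ∀ b, ∀ x ∈ skelW M Wc, h.toFun x ∈ G.TB false b →
    dist (h'.toFun x) (h.toFun x) ≤ 6 * ω b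
  all : ∀ b, ∀ x ∈ Ω, h.toFun x ∈ G.TB false b → dist (h'.toFun x) (h.toFun x) ≤ 12 * ω b
  /-- no circles on the active faces in `Act₀` -/
  noCirc : ∀ b, ∀ k ∈ Act₀, TAct G M h L b k → ∀ t ∈ L b, ∀ σ, IsCircle σ →
    ¬ σ ⊆ {z | z ∈ (meshFace M k).C ∧ h'.toFun ((meshFace M k).ch z) b.ax = t}
  act : ∀ b k, TAct G M h' L b k → TAct G M h L b k
  loc : ∀ b k, TAct G M h L b k → ∀ x ∈ M.F k, h'.toFun x ∈ interior (G.TB false b) ∧
    (G.tlo true b b.ax + 3 * ω b < h'.toFun x b.ax ∧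
      h'.toFun x b.ax < G.thi true b b.ax - 3 * ω b) ∧
    ∀ j, j ≠ b.ax → G.tlo true b j - 7 * ω b ≤ h'.toFun x j ∧
      h'.toFun x j ≤ G.thi true b j + 7 * ω b
  wall : ∀ i ∈ Pr, ∀ x ∈ M.Q i, ∀ᶠ y in 𝓝 x, h'.toFun y = h.toFun y

/-- the walls for fewer faces -/
theorem Walls.comap {J J' : Type*} {Ω Λ : Set V} {h : ConHomeo Ω Λ} {A : J → Set V}
    {F : ∀ j, PFace (A j)} {Lv : Set (Fin 3 × ℝ)} {ω : ℝ} {𝒬 : Set (Set V)}
    (H : Walls h F Lv ω 𝒬) (e : J' → J) : Walls h (fun j => F (e j)) Lv ω 𝒬 :=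
  ⟨H.fin, H.closed, H.conn, fun Q hQ j hj => H.off Q hQ (e j) hj, H.tr_conn, H.tr_big, H.big⟩

/-- a larger set `K`, for fewer faces -/
theorem Setup.comap {J J' : Type*} {Ω Λ Kx Kx' P : Set V} {h : ConHomeo Ω Λ} {A : J → Set V}
    {F : ∀ j, PFace (A j)} {Lv : Set (Fin 3 × ℝ)} {ω : ℝ} (H : Setup Ω Λ Kx P h A F Lv ω)
    (e : J' → J) (hK : Kx ⊆ Kx')
    (hn : ∀ j, ∀ z ∈ interior (F (e j)).C, ∀ᶠ y in 𝓝 ((F (e j)).ch z), y ∈ Kx' → y ∈ Kx) :
    Setup Ω Λ Kx' P h (fun j => A (e j)) (fun j => F (e j)) Lv ω where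
  oΩ := H.oΩ
  oΛ := H.oΛ
  AΩ := fun j => H.AΩ (e j)
  AK := fun j => (H.AK (e j)).trans hK
  Ao := fun j z hz => by
    filter_upwards [H.Ao (e j) z hz, hn j z hz] with y h1 h2 h3
    exact h1 (h2 h3)
  fin := H.fin
  reg := fun j => H.reg (e j)
  disj := fun j => H.disj (e j)
  ω0 := H.ω0
  diam := fun j => H.diam (e j)
  oP := H.oP
  PΛ := H.PΛ
  ball := fun j => H.ball (e j)

/-- near the relative interior of a face which is not in a cell of `Wc` -/
theorem near_face_W {Ω : Set V} (hΩ : IsOpen Ω) (M : Mesh Ω) {Wc : Set M.ι} {k : M.κ}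
    (hk : ∀ i ∈ Wc, ¬ M.F k ⊆ M.Q i) {x : V} (hx : x ∈ intrinsicInterior ℝ (M.F k)) :
    ∀ᶠ y in 𝓝 x, y ∈ skelW M Wc → y ∈ skel M := by
  have hxF := intrinsicInterior_subset hx
  have hxΩ := mesh_sub M k hxF
  obtain ⟨r, hr, hb⟩ := Metric.nhds_basis_closedBall.mem_iff.1 (hΩ.mem_nhds hxΩ)
  have hfin : {i | (M.Q i ∩ closedBall x r).Nonempty}.Finite :=
    M.fin _ hb (isCompact_closedBall x r)
  have h1 : ∀ᶠ y in 𝓝 x, ∀ i ∈ {i | (M.Q i ∩ closedBall x r).Nonempty}, i ∈ Wc → y ∉ M.Q i := by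
    refine (eventually_all_finite hfin).2 fun i _ => ?_
    by_cases hi : i ∈ Wc
    · have h2 : x ∉ M.Q i := fun h' =>
        Set.disjoint_left.1 (face_off_cell M (hk i hi)) h' hx
      filter_upwards [(M.poly i).cpt.isClosed.isOpen_compl.mem_nhds h2] with y hy _
      exact hy
    · exact Eventually.of_forall fun _ h' => absurd h' hi
  filter_upwards [h1, closedBall_mem_nhds x hr] with y hy hyr
  rintro (h3 | h3)
  · exact h3
  · obtain ⟨i, hi, hyi⟩ := mem_iUnion₂.1 h3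
    exact absurd hyi (hy i ⟨y, hyi, hyr⟩ hi)

/-- **[T-STAGE1] with given cells** -/
theorem exists_tstage1W {G : Geo B} {M : Mesh Ω} {h : ConHomeo Ω Λ} {Pr Wc : Set M.ι}
    {Act₀ : Set M.κ} {L : TBx K → Set ℝ} {ω : TBx K → ℝ} (hΩ : IsOpen Ω) (hΛ : IsOpen Λ)
    (T : TLev G M h L ω) (R : TProt K M h Pr)
    (hW : ∀ k ∈ Act₀, ∀ i ∈ Wc, ¬ M.F k ⊆ M.Q i) :
    ∃ h' : ConHomeo Ω Λ, TStage1W G M h h' Pr Wc Act₀ L ω := by
  have hfin : ∀ b, Finite {k // TAct G M h L b k ∧ k ∈ Act₀} := by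
    intro b
    obtain ⟨hc, hcΩ, hcm⟩ := cpt_preimage h (Q := G.TB false b) isCompact_Icc (TB_sub b)
    refine ((M.ffin _ hcΩ hc).subset ?_).to_subtype
    rintro k ⟨⟨x, hx, hxb, -⟩, -⟩
    exact ⟨x, hx, hcm x (mesh_sub M k hx) (TB_true_subset b hxb)⟩
  have hset : ∀ b, Setup Ω Λ (skelW M Wc) (interior (TMid G b (ω b))) h
      (fun j : {k // TAct G M h L b k ∧ k ∈ Act₀} => M.F j.1) (fun j => meshFace M j.1)
      (lvl b (L b)) (ω b) := fun b =>
    (T.setup hΩ hΛ b).comap (J' := {k // TAct G M h L b k ∧ k ∈ Act₀})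
      (fun j => ⟨j.1, j.2.1⟩) subset_union_left fun j z hz =>
        near_face_W hΩ M (hW j.1 j.2.2) (by
          rw [(meshFace M j.1).intrinsicInterior_eq]; exact ⟨z, hz, rfl⟩)
  obtain ⟨h', O⟩ := step_t hΩ hΛ hset
    (fun b => (R.walls T b).comap (J' := {k // TAct G M h L b k ∧ k ∈ Act₀})
      fun j => ⟨j.1, j.2.1⟩)
    (fun b b' hne => ((disjoint_TB hne).mono_right interior_subset).mono (T.sub b) (T.sub b'))
    (fun z hz => by
      obtain ⟨U, hU, hf⟩ := lf_TB G z hz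
      refine ⟨U, hU, hf.subset ?_⟩
      rintro b ⟨y, hy, hyU⟩
      exact ⟨y, interior_subset (T.sub b hy), hyU⟩)
  -- a point in a middle zone is not in another box
  have hone : ∀ b b' (y : V), y ∈ interior (TMid G b (ω b)) → y ∈ G.TB false b' → b = b' := by
    intro b b' y hy hy'
    by_contra hbb
    exact (disjoint_TB hbb).notMem_of_mem_left (T.sub b hy) hy'
  have hmemB : ∀ b, ∀ x ∈ Ω, (h'.toFun x ∈ G.TB false b ↔ h.toFun x ∈ G.TB false b) := by
    intro b x hx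
    by_cases h1 : ∃ b', h.toFun x ∈ interior (TMid G b' (ω b'))
    · obtain ⟨b', hb'⟩ := h1
      have hb'' := (O.mem b' x hx).2 hb'
      constructor
      · intro h2
        have h3 := hone b' b _ hb'' h2
        subst h3
        exact interior_subset (T.sub b' hb')
      · intro h2
        have h3 := hone b' b _ hb' h2
        subst h3
        exact interior_subset (T.sub b' hb'')
    · push Not at h1
      rw [(O.off x hx h1).self_of_nhds]
  have hmemI : ∀ b, ∀ x ∈ Ω, (h'.toFun x ∈ interior (G.TB false b) ↔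
      h.toFun x ∈ interior (G.TB false b)) := by
    intro b x hx
    by_cases h1 : ∃ b', h.toFun x ∈ interior (TMid G b' (ω b'))
    · obtain ⟨b', hb'⟩ := h1
      have hb'' := (O.mem b' x hx).2 hb'
      constructor
      · intro h2
        have h3 := hone b' b _ hb'' (interior_subset h2)
        subst h3
        exact T.sub b' hb'
      · intro h2
        have h3 := hone b' b _ hb' (interior_subset h2)
        subst h3
        exact T.sub b' hb''
    · push Not at h1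
      rw [(O.off x hx h1).self_of_nhds]
  have hkeep : ∀ b, ∀ x ∈ skelW M Wc, h'.toFun x ∈ G.TB false b → h'.toFun x b.ax ∈ L b →
      ∀ᶠ y in 𝓝 x, h'.toFun y = h.toFun y := by
    intro b x hx hxb hxL
    have hxΩ : x ∈ Ω := skelW_sub M Wc hx
    by_cases h1 : ∃ b', h.toFun x ∈ interior (TMid G b' (ω b'))
    · obtain ⟨b', hb'⟩ := h1
      have h3 := hone b' b _ ((O.mem b' x hxΩ).2 hb') hxb
      subst h3
      exact O.keep b' x hxΩ hx hb' (b'.ax, h'.toFun x b'.ax) ⟨_, hxL, rfl⟩ rfl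
    · push Not at h1
      exact O.off x hxΩ h1
  refine ⟨h', ⟨fun x hx h1 => O.off x hx fun b hb => h1 b (T.sub b hb), O.off, O.mem, hmemI, hmemB,
    hkeep, ?_, ?_, ?_, ?_, ?_, ?_⟩⟩
  · intro b x hx hxb
    have hxΩ : x ∈ Ω := skelW_sub M Wc hx
    by_cases h1 : ∃ b', h.toFun x ∈ interior (TMid G b' (ω b'))
    · obtain ⟨b', hb'⟩ := h1
      have h3 := hone b' b _ hb' hxb
      subst h3
      exact O.near b' x hxΩ hx hb'
    · push Not at h1
      rw [(O.off x hxΩ h1).self_of_nhds, dist_self]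
      linarith [T.ω0 b]
  · intro b x hxΩ hxb
    by_cases h1 : ∃ b', h.toFun x ∈ interior (TMid G b' (ω b'))
    · obtain ⟨b', hb'⟩ := h1
      have h3 := hone b' b _ hb' hxb
      subst h3
      exact O.all b' x hxΩ hb'
    · push Not at h1
      rw [(O.off x hxΩ h1).self_of_nhds, dist_self]
      linarith [T.ω0 b]
  · intro b k hk0 hk t ht σ hσ
    exact O.noCirc b ⟨k, hk, hk0⟩ (b.ax, t) ⟨t, ht, rfl⟩ σ hσ
  · rintro b k ⟨x, hx, hxb, hxL⟩
    have h1 := (hkeep b x (mem_skelW_face hx) (TB_true_subset b hxb) hxL).self_of_nhds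
    rw [h1] at hxb hxL
    exact ⟨x, hx, hxb, hxL⟩
  · intro b k hk x hx
    have hxΩ := mesh_sub M k hx
    have hxI := T.memM hk hx
    refine ⟨T.sub b ((O.mem b x hxΩ).2 hxI), ?_⟩
    obtain ⟨x0, hx0, hxb, hxL⟩ := hk
    have h1 := T.osc b k x0 hx0 x hx (TB_true_subset b hxb)
    have h2 := O.near b x hxΩ (mem_skelW_face hx) hxI
    have h3 := dist_triangle_right (h'.toFun x) (h.toFun x0) (h.toFun x)
    have h4 : dist (h'.toFun x) (h.toFun x0) ≤ 7 * ω b := by linarith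
    have hω := T.ω0 b
    rw [dist_pi_le_iff (by positivity)] at h4
    have h5 := T.lev b _ hxL
    constructor
    · have h6 := h4 b.ax
      rw [Real.dist_eq, abs_le] at h6
      constructor <;> linarith [h6.1, h6.2, h5.1, h5.2]
    · intro j _
      have h6 := h4 j
      rw [Real.dist_eq, abs_le] at h6
      have h7 := hxb.1 j
      have h8 := hxb.2 j
      constructor <;> linarith [h6.1, h6.2]
  · intro i hi x hx
    have hxΩ := M.sub i hx
    by_cases h1 : ∃ b, h.toFun x ∈ interior (TMid G b (ω b))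
    · obtain ⟨b, hb⟩ := h1
      exact O.wall b _ ⟨i, hi, rfl, ⟨_, ⟨x, hx, rfl⟩, interior_subset (T.sub b hb)⟩⟩ x hxΩ hb
        ⟨x, hx, rfl⟩
    · push Not at h1
      exact O.off x hxΩ h1

namespace TStage1W

variable {G : Geo B} {M : Mesh Ω} {h h' : ConHomeo Ω Λ} {Pr Wc : Set M.ι} {Act₀ : Set M.κ}
  {L : TBx K → Set ℝ} {ω : TBx K → ℝ}

/-- `Act₀ = univ` -/
theorem toTStage1 (O : TStage1W G M h h' Pr Wc univ L ω) : TStage1 G M h h' Pr L ω :=
  ⟨O.off, O.off', O.memM, O.memI, O.mem, fun b x hx => O.keep b x (Or.inl hx),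
    fun b x hx => O.near b x (Or.inl hx), O.all, fun b k => O.noCirc b k (mem_univ k), O.act,
    O.loc, O.wall⟩

/-- no circles on an active face, in the space, for all levels at once -/
theorem noCircV (O : TStage1W G M h h' Pr Wc Act₀ L ω) (hL : ∀ b, (L b).Finite) {b : TBx K}
    {k : M.κ} (hk0 : k ∈ Act₀) (hk : TAct G M h L b k) {σ : Set V} (hσ : IsCircle σ)
    (hs : σ ⊆ M.F k) (hl : ∀ x ∈ σ, h'.toFun x b.ax ∈ L b) : False := by
  set F := meshFace M k with hF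
  have hτ : IsCircle (F.hom.symm.toFun '' σ) := IsCircle.image hσ F.hom.symm hs
  set τ := F.hom.symm.toFun '' σ with hτd
  have hτC : ∀ z ∈ τ, z ∈ F.C ∧ F.ch z ∈ σ := by
    rintro _ ⟨x, hx, rfl⟩
    refine ⟨F.hom.symm.mapsTo (hs hx), ?_⟩
    have h1 : F.hom.toFun (F.hom.symm.toFun x) = x := F.hom.right_inv (hs hx)
    rw [F.hom_toFun] at h1
    rw [h1]; exact hx
  obtain ⟨z0, hz0⟩ := Fam.circle_nonempty hτ
  have hpre : IsPreconnected τ := by
    obtain ⟨D, hD, hfr⟩ := schoenflies hτ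
    rw [← hfr]
    exact _root_.P073.SCH.AmbDisc.isPreconnected_frontier hD
  have hcont : ContinuousOn (fun z => h'.toFun (F.ch z) b.ax) τ := by
    have h1 : ContinuousOn (fun z => h'.toFun (F.ch z)) τ :=
      h'.cont.comp F.continuous_ch.continuousOn fun z hz =>
        mesh_sub M k (F.ch_mem (hτC z hz).1)
    exact (continuous_apply b.ax).comp_continuousOn h1
  have hsub : ((fun z => h'.toFun (F.ch z) b.ax) '' τ).Subsingleton := by
    by_contra hnt
    rw [Set.not_subsingleton_iff] at hnt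
    refine (hpre.image _ hcont).infinite_of_nontrivial hnt ((hL b).subset ?_)
    rintro _ ⟨z, hz, rfl⟩
    exact hl _ (hτC z hz).2
  exact O.noCirc b k hk0 hk _ (hl _ (hτC z0 hz0).2) τ hτ fun z hz =>
    ⟨(hτC z hz).1, hsub ⟨z, hz, rfl⟩ ⟨z0, hz0, rfl⟩⟩

/-- regularity is kept, for all families -/
theorem reg (O : TStage1W G M h h' Pr Wc Act₀ L ω) {ι : Type*} {N : ι → Set V} {b : TBx K}
    {x : V} (hx : x ∈ skelW M Wc) (hxb : h'.toFun x ∈ G.TB false b) (hxL : h'.toFun x b.ax ∈ L b)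
    (hr : h.toFun x ∈ G.TB false b → h.toFun x b.ax ∈ L b →
      H805.Reg (fun y => h.toFun y b.ax) N x) :
    h.toFun x = h'.toFun x ∧ H805.Reg (fun y => h'.toFun y b.ax) N x := by
  have h1 := O.keep b x hx hxb hxL
  have h2 := h1.self_of_nhds
  rw [h2] at hxb hxL
  exact ⟨h2.symm, (hr hxb hxL).congr_fun (h1.mono fun y hy => by
    show h'.toFun y b.ax = h.toFun y b.ax
    rw [hy])⟩

/-- on a set `X` in the skeleton whose image has diameter at most `ω b` and meets the box `b`,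
nothing has changed near the points at the levels of `b` -/
theorem germX (O : TStage1W G M h h' Pr Wc Act₀ L ω) (T : TLev G M h L ω) {b : TBx K}
    {x₀ x : V} (hx₀ : x₀ ∈ skelW M Wc) (hx : x ∈ skelW M Wc)
    (hosc : h.toFun x₀ ∈ G.TB false b → dist (h.toFun x₀) (h.toFun x) ≤ ω b)
    (hb : h'.toFun x₀ ∈ G.TB false b) (hxL : h'.toFun x b.ax ∈ L b) :
    ∀ᶠ y in 𝓝 x, h'.toFun y = h.toFun y := by
  have hxΩ := skelW_sub M Wc hx
  have hx₀Ω := skelW_sub M Wc hx₀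
  by_cases h1 : ∃ b', h'.toFun x ∈ G.TB false b'
  · obtain ⟨b', hb'⟩ := h1
    by_cases hbb : b = b'
    · subst hbb
      exact O.keep b x hx hb' hxL
    · exfalso
      have h2 := O.near b x₀ hx₀ ((O.mem b x₀ hx₀Ω).1 hb)
      have h3 := O.near b' x hx ((O.mem b' x hxΩ).1 hb')
      have h4 := hosc ((O.mem b x₀ hx₀Ω).1 hb)
      have h5 := dist_triangle4 (h'.toFun x₀) (h.toFun x₀) (h.toFun x) (h'.toFun x)
      rw [dist_comm (h.toFun x) (h'.toFun x)] at h5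
      have hω := T.ω0 b
      have hω' := T.ω0 b'
      have h6 := TB_sep G hbb hb hb' hω (T.ωo b) hω' (T.ωo b') (by linarith)
      obtain ⟨h7, h8⟩ := T.lev b _ hxL
      rcases h6 with h6 | h6 <;> linarith
  · push Not at h1
    exact O.off x hxΩ fun b' hb' => h1 b' (interior_subset ((O.memI b' x hxΩ).2 hb'))

/-- on a face which meets the box `b`, nothing has changed near the points at the levels of `b` -/
theorem germ (O : TStage1W G M h h' Pr Wc Act₀ L ω) (T : TLev G M h L ω)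
    {b : TBx K} {k : M.κ} {x₀ x : V} (hx₀ : x₀ ∈ M.F k) (hb : h'.toFun x₀ ∈ G.TB false b)
    (hx : x ∈ M.F k) (hxL : h'.toFun x b.ax ∈ L b) : ∀ᶠ y in 𝓝 x, h'.toFun y = h.toFun y :=
  O.germX T (mem_skelW_face hx₀) (mem_skelW_face hx) (fun h1 => T.osc b k x₀ hx₀ x hx h1) hb hxL

/-- regularity of the levels on the faces which meet the boxes, for all families of sets -/
theorem regB (O : TStage1W G M h h' Pr Wc Act₀ L ω) (T : TLev G M h L ω)
    {ι : Type*} {N : ι → Set V}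
    (hr : ∀ k b, (∃ x ∈ M.F k, h.toFun x ∈ G.TB false b) → ∀ x ∈ M.F k, h.toFun x b.ax ∈ L b →
      H805.Reg (fun y => h.toFun y b.ax) N x) :
    ∀ k b, (∃ x ∈ M.F k, h'.toFun x ∈ G.TB false b) → ∀ x ∈ M.F k, h'.toFun x b.ax ∈ L b →
      H805.Reg (fun y => h'.toFun y b.ax) N x := by
  rintro k b ⟨x₀, hx₀, hb⟩ x hx hxL
  have h1 := O.germ T hx₀ hb hx hxL
  have h2 := h1.self_of_nhds
  rw [h2] at hxL
  have h3 := (O.mem b x₀ (mesh_sub M k hx₀)).1 hb
  exact (hr k b ⟨x₀, hx₀, h3⟩ x hx hxL).congr_fun (h1.mono fun y hy => by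
    show h'.toFun y b.ax = h.toFun y b.ax
    rw [hy])

end TStage1W

end Vale.Agent.P073.H238

/-! ### the versions of H669 -/

namespace Vale.Agent.P073.H669.TLv

open _root_.P073 _root_.P073.TR _root_.P073.Net _root_.P073.PA691
open _root_.P073.PR720 (LF)
open Vale.Agent.P073.St (V)
open Vale.Agent.P073.H471 Vale.Agent.P073.H267 Vale.Agent.P073.H267.Geo
open Vale.Agent.P073.H73 (Mesh)
open Vale.Agent.P073.H193 (Edges)
open Vale.Agent.P073.H238 (TStage1W TAct skelW mem_skelW_face mesh_sub)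
open _root_.P073.Croft (Cells Crs levs Generic onS cross varIn TransAt SepL)
open _root_.P073.H345 (fam Fam RegB)
open _root_.P073.H236 (BX Lvs BFam stp dsp)
open _root_.P073.H805 (Reg)

variable {Ω Λ : Set V} {v : V} {K : BoxCx Λ v} {S : Rad K} {W : Wid K S} {B : Boxes W}
  {G : Geo B} {M : Mesh Ω} {E : Edges M} {h h' : ConHomeo Ω Λ} {ω : TBx K → ℝ}
  {T : TBx K → Finset (ℝ × ℝ)} {η : ℝ} {τ : Type*} {A : τ → Set V} {C : Set ℝ} {εE : E.ε → ℝ}
  {δ : TBx K → ℝ} (L : TLv G E h ω T η A C εE δ) {Pr Wc : Set M.ι} {Act₀ : Set M.κ}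
  (O : TStage1W G M h h' Pr Wc Act₀ L.lev ω) {c : TBx K → ℝ} (hc0 : ∀ b, 0 < c b)
  (hc : ∀ b, c b ≤ δ b / 8)

include O

theorem regBW' (hosc : ∀ b k, ∀ x ∈ M.F k, ∀ y ∈ M.F k, h.toFun x ∈ G.TB false b →
      dist (h.toFun x) (h.toFun y) ≤ ω b) : RegB M E h' (L.bxQ c hc0 hc) := by
  rintro k b ⟨_, hK, x₀, hx₀, rfl⟩ m hm x hx hxa
  exact O.regB (L.lev238 hosc) (fun k' b' _ x' hx' hl' => L.reg (mesh_sub M k' hx') hl')
    k b ⟨x₀, hx₀, L.K_sub hc0 hc b hK⟩ x hx ⟨m, hm, hxa⟩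

theorem actW' {b : TBx K} {k : M.κ} (hk : TAct G M h L.lev b k) {x : V} (hx : x ∈ M.F k) :
    (L.bxQ c hc0 hc b).Full (h'.toFun x) ∧ h'.toFun x ∈ (L.bxQ c hc0 hc b).K ∧
      (G.tlo true b b.ax + 3 * ω b < h'.toFun x b.ax ∧
        h'.toFun x b.ax < G.thi true b b.ax - 3 * ω b) ∧
      ∀ b', b' ≠ b → h'.toFun x ∉ (L.bxQ c hc0 hc b').K := by
  obtain ⟨h1, h2, h3⟩ := O.loc b k hk x hx
  have h0 := L.ω0 b
  refine ⟨fun i hi => ?_, (L.mem_K hc0 hc).2 ⟨?_, fun i hi => ?_⟩, h2, fun b' hne hK => ?_⟩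
  · obtain ⟨h4, h5⟩ := h3 i hi
    constructor
    · change G.tlo true b i - 20 * ω b ≤ h'.toFun x i; linarith
    · change h'.toFun x i ≤ G.thi true b i + 20 * ω b; linarith
  · constructor <;> linarith [h2.1, h2.2]
  · obtain ⟨h4, h5⟩ := h3 i hi
    constructor <;> linarith
  · exact (disjoint_TB (G := G) hne.symm).notMem_of_mem_left h1 (L.K_sub hc0 hc b' hK)

theorem cross_subW' (f : Bool) (e : E.ε) (b : TBx K) :
    cross (onS h'.toFun (E.a e) (E.b e)) b.ax (L.lev b) (G.TB f b) ⊆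
      cross (onS h.toFun (E.a e) (E.b e)) b.ax (L.lev b) (G.TB f b) := by
  rintro t ⟨ht, htP, htL⟩
  obtain ⟨k, hk⟩ := E.own e
  have hx : E.a e + t • (E.b e - E.a e) ∈ M.F k := hk (Croft.onS_mem ht)
  have h1 := (O.keep b _ (mem_skelW_face hx) (TB_sub_false G f b htP) htL).self_of_nhds
  unfold onS at htP htL
  rw [h1] at htP htL
  exact ⟨ht, htP, htL⟩

theorem cnt_oneW' (f : Bool) (e : E.ε) (b : TBx K) : ENNReal.ofReal (δ b) *
        cnt (cross (onS h'.toFun (E.a e) (E.b e)) b.ax (L.lev b) (G.TB f b)) ≤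
      ENNReal.ofReal (1 - 2 * η)⁻¹ * varIn (onS h.toFun (E.a e) (E.b e)) b.ax (G.TB f b) 0 1 +
        ENNReal.ofReal (εE e) :=
  (mul_le_mul_right (Croft.cnt_mono (L.cross_subW' O f e b)) _).trans ((L.crs f e).one b)

theorem cnt_sumW' (f : Bool) (e : E.ε) :
    ∑' b, ENNReal.ofReal (δ b) *
        cnt (cross (onS h'.toFun (E.a e) (E.b e)) b.ax (L.lev b) (G.TB f b)) ≤
      ENNReal.ofReal (1 - 2 * η)⁻¹ * (2 * len (onS h.toFun (E.a e) (E.b e)) (Icc 0 1)) +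
        ENNReal.ofReal (εE e) := by
  refine (ENNReal.tsum_le_tsum fun b => mul_le_mul_right
    (Croft.cnt_mono (L.cross_subW' O f e b)) _).trans ?_
  have h1 := (L.crs f e).sum_le_len (m := 2) (Croft.conicalOn_onS h.conical (E.seg_sub_Ω e))
    (fun b => convex_Icc _ _) (fun y => by exact_mod_cast encard_TB G f y)
  exact_mod_cast h1

end Vale.Agent.P073.H669.TLv
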